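import Vale.Agent.P163.Gap.Spec

/-!
Contraction of the conditioned magnetisation over growing balls.
-/

noncomputable section

namespace Vale.Agent.P163.Gap

open MeasureTheory Metric Helicity
open scoped RealInnerProductSpace Classical

lemma measurable_sgnCo {n : ℕ} {V : Type} [Fintype V] (i : Fin n) (x : V) :
    Measurable (sgnCo (n := n) i x) := by
  refine Measurable.comp ?_ (continuous_co i x).measurable
  unfold Real.sign
  exact Measurable.ite measurableSet_Iio measurable_const
    (Measurable.ite measurableSet_Ioi measurable_const measurable_const)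

lemma abs_sgnCo_le {n : ℕ} {V : Type} (i : Fin n) (x : V) (σ : V → Spin n) :
    |sgnCo i x σ| ≤ 1 := by
  rcases Real.sign_apply_eq (co i x σ) with h | h | h <;> simp [sgnCo, h]

lemma obs_sgnCo {n : ℕ} {V : Type} [Fintype V] (i : Fin n) (x : V) :
    Obs 1 (sgnCo (n := n) i x) :=
  ⟨measurable_sgnCo i x, abs_sgnCo_le i x⟩

lemma loc_sgnCo {n : ℕ} {V : Type} (i : Fin n) (x : V) : Loc {x} (sgnCo (n := n) i x) :=
  fun σ τ h => by simp [sgnCo, co, h x rfl]

lemma oddPi_sgnCo {n : ℕ} {V : Type} [Fintype V] {i j : Fin n} (h : i ≠ j) (x : V) :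
    OddPi h (sgnCo i x) := fun σ => by
  simp only [sgnCo, co_rot, if_neg h, Real.cos_pi, Real.sin_pi, mul_one, if_true]
  rw [← Real.sign_neg]
  congr 1
  ring

/-- Neighbours in a chart are at most one step further out. -/
lemma Chart.nrm_le_of_adj {V ι : Type} [Fintype V] [Fintype ι] {G : Helicity.Graph V ι} {x : V}
    {L : ℕ} (ch : Chart G x L) {u v : V} (h : Adj G u v) (hv : nrmZ (ch.loc v) < L) :
    nrmZ (ch.loc u) ≤ nrmZ (ch.loc v) + 1 := by
  obtain ⟨b, ⟨hs, ht⟩ | ⟨hs, ht⟩⟩ := h
  · subst hs ht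
    rcases ch.step b (Or.inr hv) with e | e <;> rw [e] at hv ⊢ <;>
      simp only [nrmZ, Prod.fst_add, Prod.snd_add] <;> omega
  · subst hs ht
    rcases ch.step b (Or.inl hv) with e | e <;> rw [e] <;>
      simp only [nrmZ, Prod.fst_add, Prod.snd_add] <;> omega

theorem ball_stmt (hC : CondStmt) (hI : InsensStmt) : BallStmt := by
  intro n _ hn V ι _ _ G β hβ i x L k ch
  obtain ⟨j, k', hij, hik, hjk⟩ : ∃ j k' : Fin n, i ≠ j ∧ i ≠ k' ∧ j ≠ k' := by
    obtain ⟨j, hj, k', hk', hjk⟩ := Finset.one_lt_card.1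
      (show 1 < (Finset.univ.erase i).card by simp; omega)
    exact ⟨j, k', (Finset.ne_of_mem_erase hj).symm, (Finset.ne_of_mem_erase hk').symm, hjk⟩
  obtain ⟨-, tower, -, -, hloc, hodd, hobs⟩ := hC n V ι G β
  set D : ℕ → Set V := fun K => {u | nrmZ (ch.loc u) < rad K} with hD
  suffices H : ∀ K, rad K + 2 ≤ L → Obs (contr β K) (cexp G β (D K) (sgnCo i x)) from
    fun hk η => (H k hk).2 η
  intro K
  induction K with
  | zero =>
    intro _
    simpa [contr] using hobs (D 0) 1 _ (obs_sgnCo i x)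
  | succ K ih =>
    intro hL
    have hsub : rad K ≤ 16 * 8 ^ (K + 1) := by simp only [rad, pow_succ]; omega
    have hlt : rad K ≤ rad (K + 1) := by simp only [rad, pow_succ]; omega
    have hx : x ∈ D K := by simp [hD, ch.loc_self, nrmZ, rad]
    have hF := ih (by omega)
    refine ⟨(hobs _ 1 _ (obs_sgnCo i x)).1, fun η => ?_⟩
    have e : cexp G β (D (K + 1)) (sgnCo i x) η =
        cexp G β (D (K + 1)) (cexp G β (D K) (sgnCo i x)) η := by
      have := tower (D K) (D (K + 1)) η 1 1 (sgnCo i x) (fun _ => 1)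
        (fun u (hu : nrmZ (ch.loc u) < rad K) => lt_of_lt_of_le hu hlt)
        (obs_sgnCo i x) ⟨measurable_const, fun _ => by simp⟩ (fun _ _ _ => rfl)
      simp only [one_mul] at this
      exact congrArg (fun z => z / cav G β (D (K + 1)) η fun _ => 1) this
    have hrad : 5 * (16 * 8 ^ (K + 1)) = rad (K + 1) := by simp only [rad]; ring
    have hb : Loc {u | nrmZ (ch.loc u) ≤ 16 * 8 ^ (K + 1)} (cexp G β (D K) (sgnCo i x)) := by
      refine fun σ τ hστ => hloc (D K) {x} _ (by simpa using hx) (loc_sgnCo i x) σ τ ?_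
      rintro u ⟨-, v, hv, hadj⟩
      refine hστ u (?_ : nrmZ (ch.loc u) ≤ _)
      have hv' : nrmZ (ch.loc v) < rad K := hv
      have := ch.nrm_le_of_adj hadj (by omega)
      omega
    have hI' := hI n V ι G β hβ i j k' hij hik hjk x L (K + 1) ch (by omega) (by omega)
      (contr β K) _ hF hb (hodd i j hij (D K) _ (oddPi_sgnCo hij x)) η
    rw [hrad] at hI'
    rw [e, contr, Finset.prod_Icc_succ_top (by omega), mul_comm]
    exact hI'

end Vale.Agent.P163.Gap
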