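import Vale.Agent.P163.Gap.Spec

/-!
The chain of scales along a path: separated pairs of sites on every walk between far points.
-/

noncomputable section

namespace Vale.Agent.P163.Gap

open Helicity
open scoped Classical

section Lists

variable {α : Type} {r : α → α → Prop}

/-- A walk leaving `{f ≤ R}` has a point just outside. -/
theorem exists_first_exit {f : α → ℕ} (hf : ∀ a b, r a b → f b ≤ f a + 1) (R : ℕ) :
    ∀ (w : List α) (a b : α), List.IsChain r w → w.head? = some a → w.getLast? = some b →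
      f a ≤ R → R < f b → ∃ u ∈ w, R < f u ∧ f u ≤ R + 1
  | [], a, b, _, ha, _, _, _ => by simp at ha
  | [c], a, b, _, ha, hb, h1, h2 => by simp_all; omega
  | c :: e :: w, a, b, hc, ha, hb, h1, h2 => by
    obtain ⟨hr, hc'⟩ := List.isChain_cons_cons.1 hc
    simp only [List.head?_cons, Option.some.injEq] at ha
    subst ha
    by_cases he : f e ≤ R
    · obtain ⟨u, hu, hu'⟩ := exists_first_exit hf R (e :: w) e b hc' rfl
        (by rwa [List.getLast?_cons_cons] at hb) he h2
      exact ⟨u, List.mem_cons_of_mem _ hu, hu'⟩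
    · exact ⟨e, by simp, by omega, (hf _ _ hr).trans (by omega)⟩

/-- After its last visit to `{f ≤ R}` a walk starts just outside. -/
theorem exists_last_exit {f : α → ℕ} (hf : ∀ a b, r a b → f b ≤ f a + 1) (R : ℕ) :
    ∀ (w : List α) (b : α), List.IsChain r w → (∃ u ∈ w, f u ≤ R) → w.getLast? = some b → R < f b →
      ∃ w' v, List.IsChain r w' ∧ w'.head? = some v ∧ w'.getLast? = some b ∧ f v ≤ R + 1 ∧
        (∀ u ∈ w', u ∈ w) ∧ ∀ u ∈ w', R < f u
  | [], b, _, _, hb, _ => by simp at hb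
  | [c], b, _, hu, hb, h2 => by simp_all; omega
  | c :: e :: w, b, hc, hu, hb, h2 => by
    obtain ⟨hr, hc'⟩ := List.isChain_cons_cons.1 hc
    rw [List.getLast?_cons_cons] at hb
    by_cases he : ∃ u ∈ e :: w, f u ≤ R
    · obtain ⟨w', v, h3, h4, h5, h6, h7, h8⟩ := exists_last_exit hf R (e :: w) b hc' he hb h2
      exact ⟨w', v, h3, h4, h5, h6, fun u hu' => List.mem_cons_of_mem _ (h7 u hu'), h8⟩
    · obtain ⟨u, hmem, hu⟩ := hu
      have hc0 : f c ≤ R := by
        rcases List.mem_cons.1 hmem with rfl | h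
        · exact hu
        · exact absurd ⟨u, h, hu⟩ he
      push Not at he
      exact ⟨e :: w, e, hc', rfl, hb, (hf _ _ hr).trans (by omega),
        fun u hu' => List.mem_cons_of_mem _ hu', he⟩

end Lists

variable {V : Type} [Fintype V]

/-- The candidate lists of pairs starting at a point. -/
def chainSet (d : V → V → ℕ) (ρ : ℕ) : ℕ → V → Finset (List (V × V))
  | 0, _ => {[]}
  | m + 1, p =>
    (((Finset.univ.filter fun u => d p u ≤ 3 * ρ + 4) ×ˢ
      (Finset.univ.filter fun u => d p u ≤ 3 * ρ + 4))).biUnion fun uv =>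
        (chainSet d ρ m uv.2).image fun l => (p, uv.1) :: l

theorem chainSet_card (d : V → V → ℕ) (ρ N : ℕ)
    (hN : ∀ x, (Finset.univ.filter fun u => d x u ≤ 3 * ρ + 4).card ≤ N) :
    ∀ m p, (chainSet d ρ m p).card ≤ (N * N) ^ m
  | 0, p => by simp [chainSet]
  | m + 1, p => by
    rw [chainSet, pow_succ']
    refine (Finset.card_biUnion_le_card_mul _ _ _ fun uv _ =>
      Finset.card_image_le.trans (chainSet_card d ρ N hN m uv.2)).trans ?_
    rw [Finset.card_product]
    exact Nat.mul_le_mul_right _ (Nat.mul_le_mul (hN p) (hN p))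

theorem chainSet_length (d : V → V → ℕ) (ρ : ℕ) :
    ∀ m p, ∀ l ∈ chainSet d ρ m p, l.length = m
  | 0, p, l, hl => by simp_all [chainSet]
  | m + 1, p, l, hl => by
    simp only [chainSet, Finset.mem_biUnion, Finset.mem_image] at hl
    obtain ⟨uv, -, l', hl', rfl⟩ := hl
    simp [chainSet_length d ρ m uv.2 l' hl']

theorem chainSet_cover {ι : Type} [Fintype ι] (G : Helicity.Graph V ι) (d : V → V → ℕ) (ρ : ℕ)
    (hd : ∀ x, d x x = 0) (hsymm : ∀ x y, d x y = d y x) (htri : ∀ x y z, d x z ≤ d x y + d y z)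
    (hbond : ∀ b, d (G.src b) (G.tgt b) ≤ 1) :
    ∀ (m : ℕ) (w : List V) (p y : V), Walk G p y w → m * (3 * ρ + 4) < d p y →
      ∃ l ∈ chainSet d ρ m p, Separated d ρ l ∧ ∀ q ∈ l, q.1 ∈ w ∧ q.2 ∈ w
  | 0, w, p, y, _, _ => ⟨[], by simp [chainSet], by simp [Separated], by simp⟩
  | m + 1, w, p, y, hw, hm => by
    obtain ⟨hc, hh, hl⟩ := hw
    rw [Nat.succ_mul] at hm
    have hf : ∀ a b, Adj G a b → d p b ≤ d p a + 1 := by
      intro a b hab
      refine (htri p a b).trans (Nat.add_le_add_left ?_ _)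
      obtain ⟨e, ⟨rfl, rfl⟩ | ⟨rfl, rfl⟩⟩ := hab
      · exact hbond e
      · rw [hsymm]; exact hbond e
    have hp : p ∈ w := List.mem_of_head? hh
    obtain ⟨u, huw, hu1, hu2⟩ := exists_first_exit hf ρ w p y hc hh hl (by simp [hd]) (by omega)
    obtain ⟨w', v, hc', hh', hl', hv, hsub, hout⟩ := exists_last_exit hf (3 * ρ + 3) w y hc
      ⟨p, hp, by simp [hd]⟩ hl (by omega)
    have hvy : m * (3 * ρ + 4) < d v y := by
      have := htri p v y
      omega
    obtain ⟨l, hlmem, hsep, hpts⟩ :=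
      chainSet_cover G d ρ hd hsymm htri hbond m w' v y ⟨hc', hh', hl'⟩ hvy
    refine ⟨(p, u) :: l, ?_, ⟨List.pairwise_cons.2 ⟨fun q hq => ?_, hsep.1⟩, ?_⟩, ?_⟩
    · simp only [chainSet, Finset.mem_biUnion, Finset.mem_image]
      refine ⟨(u, v), ?_, l, hlmem, rfl⟩
      simp only [Finset.mem_product, Finset.mem_filter, Finset.mem_univ, true_and]
      omega
    · have h1 := hout _ (hpts q hq).1
      have h2 := hout _ (hpts q hq).2
      have h3 := htri p u q.1
      have h4 := hsymm q.1 u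
      refine ⟨?_, ?_, ?_⟩ <;> dsimp only <;> omega
    · intro q hq
      rcases List.mem_cons.1 hq with rfl | hq
      · exact hu1
      · exact hsep.2 q hq
    · intro q hq
      rcases List.mem_cons.1 hq with rfl | hq
      · exact ⟨hp, huw⟩
      · exact ⟨hsub _ (hpts q hq).1, hsub _ (hpts q hq).2⟩

/-- Separated chains cover all walks between far points. -/
theorem chain_stmt : ChainStmt := by
  intro V ι _ _ G d ρ N m hd hsymm htri hbond hN x y hxy
  refine ⟨(chainSet d ρ m x).filter fun l => Separated d ρ l, ?_, fun l hl => ?_, fun w hw => ?_⟩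
  · exact (Finset.card_filter_le _ _).trans (chainSet_card d ρ N hN m x)
  · obtain ⟨hl, hs⟩ := Finset.mem_filter.1 hl
    exact ⟨chainSet_length d ρ m x l hl, hs⟩
  · obtain ⟨l, hl, hs, hp⟩ := chainSet_cover G d ρ hd hsymm htri hbond m w x y hw hxy
    exact ⟨l, Finset.mem_filter.2 ⟨hl, hs⟩, hp⟩

end Vale.Agent.P163.Gap
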