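import Vale.Agent.P163.Gap.Spec

/-!
All components have the same two-point function.
-/

noncomputable section

namespace Vale.Agent.P163.Gap

open MeasureTheory Metric Helicity
open scoped RealInnerProductSpace

theorem comp_stmt : CompStmt := by
  intro n _ V ι _ _ G β i x y
  have key : ∀ a, av G β (fun σ : V → Spin n => co a x σ * co a y σ) =
      av G β fun σ => co i x σ * co i y σ := by
    intro a
    set e : Euc n ≃ₗᵢ[ℝ] Euc n := LinearIsometryEquiv.piLpCongrLeft 2 ℝ ℝ (Equiv.swap a i) with he
    set P : (V → Spin n) → (V → Spin n) := fun σ u => sphereMap e (σ u) with hP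
    have hPc : Continuous P := continuous_pi fun u =>
      (continuous_sphereMap e).comp (continuous_apply u)
    have hmap : (freeLaw V n).map P = freeLaw V n :=
      (measurePreserving_pi _ _ fun _ =>
        ⟨(continuous_sphereMap _).measurable, map_sphereUnif _⟩).map_eq
    have hco : ∀ σ u, co i u (P σ) = co a u σ := fun σ u => by
      simp [co, hP, he, sphereMap, LinearIsometryEquiv.piLpCongrLeft_apply, Equiv.piCongrLeft'_apply]
    have hen : ∀ σ, en G (P σ) = en G σ := fun σ =>
      Finset.sum_congr rfl fun b _ => e.inner_map_map _ _
    have hc : Continuous fun σ : V → Spin n =>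
        co i x σ * co i y σ * Real.exp (β * en G σ) := by
      have := continuous_co (n := n) i x
      have := continuous_co (n := n) i y
      fun_prop
    unfold av
    conv_rhs => rw [← hmap]
    rw [integral_map hPc.aemeasurable hc.aestronglyMeasurable]
    simp only [hco, hen]
  calc av G β (fun σ : V → Spin n => ⟪(σ x : Euc n), (σ y : Euc n)⟫)
      = av G β (fun σ : V → Spin n => ∑ a, co a x σ * co a y σ) := by
        simp only [Helicity.inner_eq_sum, co]
    _ = ∑ a, av G β (fun σ : V → Spin n => co a x σ * co a y σ) :=
        av_sum _ fun a _ => (continuous_co a x).mul (continuous_co a y)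
    _ = _ := by simp [key]

end Vale.Agent.P163.Gap
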