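import Vale.Agent.P163.Gap.Basic

/-!
The conditioned Gibbs measures: Ward identity, tower property, locality, symmetry.
-/

noncomputable section

namespace Vale.Agent.P163.Gap

open MeasureTheory Metric Helicity
open scoped RealInnerProductSpace Classical

variable {n : ℕ} {V ι : Type} [Fintype V] [Fintype ι]

omit [Fintype V] in
lemma rot_glue {i j : Fin n} (h : i ≠ j) {g : V → ℝ} {D : Set V} (hg : Supp g D) (t : ℝ)
    (η σ : V → Spin n) : glue D η (rot h g t σ) = rot h g t (glue D η σ) := by
  funext x
  by_cases hx : x ∈ D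
  · simp only [glue, if_pos hx, rot, rotF]
  · apply Subtype.ext
    simp only [glue, if_neg hx, rot, rotF_coe, hg x hx, mul_zero, Plane.rot_zero]

variable [NeZero n] {G : Helicity.Graph V ι} {β : ℝ}

/-- The Ward identity for fields supported in `D`. -/
theorem cav_ward {i j : Fin n} {h : i ≠ j} {g : V → ℝ} {D : Set V} (η : V → Spin n)
    {F F' : (V → Spin n) → ℝ} (hg : Supp g D) (hF : HasRot h g F F') :
    cav G β D η F' + β * cav G β D η (fun σ => F σ * cur G i j (dd G g) σ) = 0 := by
  set C := cur (n := n) G i j (dd G g) with hC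
  have hCc : Continuous C := (hasRot_en (G := G) h g).cont'
  set K : (V → Spin n) → ℝ := fun σ => F σ * Real.exp (β * en G σ) with hK
  set K' : (V → Spin n) → ℝ := fun σ => (F' σ + β * (F σ * C σ)) * Real.exp (β * en G σ) with hK'
  have hKc : Continuous K := by have := hF.cont; fun_prop
  have hKc' : Continuous K' := by have := hF.cont; have := hF.cont'; fun_prop
  have hrc : ∀ t, Continuous fun σ => rot h g t (glue D η σ) := fun t =>
    (continuous_rotF _ _).comp (continuous_glue D η)
  obtain ⟨M, hM⟩ := isCompact_univ.exists_bound_of_continuousOn hKc'.continuousOn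
  have hd := (hasDerivAt_integral_of_dominated_loc_of_deriv_le (μ := freeLaw V n)
    (F := fun t σ => K (rot h g t (glue D η σ))) (F' := fun t σ => K' (rot h g t (glue D η σ)))
    (x₀ := (0 : ℝ)) (bound := fun _ => M) (s := Set.univ) Filter.univ_mem
    (Filter.Eventually.of_forall fun t => (hKc.comp (hrc t)).aestronglyMeasurable)
    (integ (hKc.comp (hrc 0))) (hKc'.comp (hrc 0)).aestronglyMeasurable
    (Filter.Eventually.of_forall fun σ t _ => hM _ (Set.mem_univ _))
    (integrable_const M)
    (Filter.Eventually.of_forall fun σ t _ => ?_)).2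
  · have hconst : ∀ t, ∫ σ, K (rot h g t (glue D η σ)) ∂freeLaw V n =
        ∫ σ, K (glue D η σ) ∂freeLaw V n := fun t => by
      simp only [← rot_glue h hg t η]
      exact integral_rotF _ _ (hKc.comp (continuous_glue D η))
    simp only [hconst, rot_zero] at hd
    have h0 : ∫ σ, K' (glue D η σ) ∂freeLaw V n = 0 := (hd.unique (hasDerivAt_const _ _))
    have hFC : Continuous fun σ => F σ * C σ := hF.cont.mul hCc
    unfold cav
    rw [← integral_const_mul, ← integral_add (integrable_cav hF.cont') (Integrable.const_mul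
      (integrable_cav hFC) β), ← h0]
    exact integral_congr_ae (Filter.Eventually.of_forall fun σ => by simp only [hK']; ring)
  · have h1 := hF.deriv_at (glue D η σ) t
    have h2 := ((hasRot_en (G := G) h g).deriv_at (glue D η σ) t).const_mul β
    refine (h1.mul h2.exp).congr_deriv ?_
    simp only [hK', hC]; ring

omit [Fintype ι] in
/-- Resampling the spins in `D`. -/
lemma measurePreserving_glue (D : Set V) :
    MeasurePreserving (fun p : (V → Spin n) × (V → Spin n) => glue D p.1 p.2)
      ((freeLaw V n).prod (freeLaw V n)) (freeLaw V n) := by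
  refine ⟨measurable_glue₂ D, ?_⟩
  refine (Measure.pi_eq fun s hs => ?_).symm
  rw [Measure.map_apply (measurable_glue₂ D) (MeasurableSet.univ_pi hs)]
  have e : (fun p : (V → Spin n) × (V → Spin n) => glue D p.1 p.2) ⁻¹' (Set.univ.pi s) =
      (Set.univ.pi fun x => if x ∈ D then Set.univ else s x) ×ˢ
        (Set.univ.pi fun x => if x ∈ D then s x else Set.univ) := by
    ext p
    simp only [Set.mem_preimage, Set.mem_pi, Set.mem_univ, true_implies, Set.mem_prod]
    refine ⟨fun h => ⟨fun x => ?_, fun x => ?_⟩, fun h x => ?_⟩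
    · by_cases hx : x ∈ D
      · simp [hx]
      · simpa [glue, hx] using h x
    · by_cases hx : x ∈ D
      · simpa [glue, hx] using h x
      · simp [hx]
    · by_cases hx : x ∈ D
      · simpa [glue, hx] using h.2 x
      · simpa [glue, hx] using h.1 x
  rw [e, Measure.prod_prod]
  simp only [freeLaw, Measure.pi_pi, ← Finset.prod_mul_distrib]
  exact Finset.prod_congr rfl fun x _ => by split_ifs <;> simp

/-- The spins in `D` resampled inside a larger conditioned measure. -/
lemma cav_resample {D D' : Set V} (hD : D ⊆ D') (η : V → Spin n) {M : ℝ} {H : (V → Spin n) → ℝ}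
    (hH : Obs M H) :
    cav G β D' η H = ∫ σ, cav G β D (glue D' η σ) H ∂freeLaw V n := by
  have hm : Measurable fun τ => H τ * Real.exp (β * en G τ) := hH.1.mul (by fun_prop)
  have hp := measurePreserving_glue (V := V) (n := n) D
  have h1 : cav G β D' η H = ∫ p, H (glue D' η (glue D p.1 p.2)) *
      Real.exp (β * en G (glue D' η (glue D p.1 p.2))) ∂(freeLaw V n).prod (freeLaw V n) := by
    conv_lhs => rw [cav, ← hp.map_eq]
    exact integral_map (measurable_glue₂ D).aemeasurable
      (hm.comp (measurable_glue D' η)).aestronglyMeasurable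
  have hi : Integrable (fun p : (V → Spin n) × (V → Spin n) => H (glue D' η (glue D p.1 p.2)) *
      Real.exp (β * en G (glue D' η (glue D p.1 p.2)))) ((freeLaw V n).prod (freeLaw V n)) := by
    obtain ⟨C, hC⟩ := exists_exp_bound (n := n) G β
    refine Integrable.of_bound ((hm.comp (measurable_glue D' η)).comp
      (measurable_glue₂ D)).aestronglyMeasurable (M * C)
      (Filter.Eventually.of_forall fun p => ?_)
    rw [norm_mul, Real.norm_eq_abs, Real.norm_eq_abs, abs_of_pos (Real.exp_pos _)]
    exact mul_le_mul (hH.2 _) (hC _) (Real.exp_pos _).le ((abs_nonneg _).trans (hH.2 η))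
  rw [h1, integral_prod _ hi]
  simp only [cav, glue_glue hD]

lemma measurable_cav (D : Set V) {F : (V → Spin n) → ℝ} (hF : Measurable F) :
    Measurable fun η => cav G β D η F := by
  have hm : Measurable fun τ => F τ * Real.exp (β * en G τ) := hF.mul (by fun_prop)
  exact ((hm.comp (measurable_glue₂ D)).stronglyMeasurable.integral_prod_right').measurable

lemma obs_cexp (D : Set V) {M : ℝ} {F : (V → Spin n) → ℝ} (hF : Obs M F) :
    Obs M (cexp (n := n) G β D F) :=
  ⟨(measurable_cav D hF.1).div (measurable_cav D measurable_const), fun _ => abs_cexp_le hF⟩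

omit [NeZero n] in
lemma cexp_glue (D : Set V) (F : (V → Spin n) → ℝ) (η σ : V → Spin n) :
    cexp G β D F (glue D η σ) = cexp G β D F η := by
  simp only [cexp, cav, glue_glue_left]

/-- The tower property. -/
theorem cav_tower {D D' : Set V} (hD : D ⊆ D') (η : V → Spin n) {M M' : ℝ}
    {F K : (V → Spin n) → ℝ} (hF : Obs M F) (hK : Obs M' K) (hKl : Loc Dᶜ K) :
    cav G β D' η (fun σ => K σ * F σ) = cav G β D' η fun σ => K σ * cexp G β D F σ := by
  have hmul : ∀ {M₀ : ℝ} {H : (V → Spin n) → ℝ}, Obs M₀ H → Obs (M' * M₀) fun σ => K σ * H σ :=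
    fun {M₀ H} hH => ⟨hK.1.mul hH.1, fun σ => by
      rw [abs_mul]
      exact mul_le_mul (hK.2 σ) (hH.2 σ) (abs_nonneg _) ((abs_nonneg _).trans (hK.2 σ))⟩
  have hKg : ∀ ζ τ : V → Spin n, K (glue D ζ τ) = K ζ := fun ζ τ =>
    hKl _ _ fun x hx => glue_of_notMem ζ τ hx
  rw [cav_resample hD η (hmul hF), cav_resample hD η (hmul (obs_cexp D hF))]
  refine integral_congr_ae (Filter.Eventually.of_forall fun σ => ?_)
  simp only
  set ζ := glue D' η σ
  rw [cav_congr (K := fun τ => K ζ * F τ) fun τ => by rw [hKg],
    cav_congr (F := fun τ => K τ * cexp G β D F τ) (K := fun _ => K ζ * cexp G β D F ζ * 1)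
      fun τ => by rw [hKg, cexp_glue, mul_one], cav_const_mul, cav_const_mul]
  rw [mul_assoc, show cexp G β D F ζ * cav G β D ζ (fun _ => 1) = cav G β D ζ F from
    div_mul_cancel₀ _ cav_one_pos.ne']

omit [NeZero n] in
/-- The conditional expectation depends only on the boundary spins. -/
theorem cexp_loc {D S : Set V} {F : (V → Spin n) → ℝ} (hS : S ⊆ D) (hF : Loc S F) :
    Loc (bdry G D) (cexp G β D F) := by
  intro η η' e
  set c : ℝ := ∑ b, if G.src b ∈ D ∨ G.tgt b ∈ D then 0 else
    ⟪(η (G.src b) : Euc n), (η (G.tgt b) : Euc n)⟫ -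
      ⟪(η' (G.src b) : Euc n), (η' (G.tgt b) : Euc n)⟫
  have hen : ∀ σ : V → Spin n, en G (glue D η σ) = en G (glue D η' σ) + c := fun σ => by
    simp only [en, c, ← Finset.sum_add_distrib]
    refine Finset.sum_congr rfl fun b _ => ?_
    by_cases h1 : G.src b ∈ D
    · by_cases h2 : G.tgt b ∈ D
      · simp [glue, h1, h2]
      · simp [glue, h1, h2, e _ ⟨h2, G.src b, h1, b, Or.inr ⟨rfl, rfl⟩⟩]
    · by_cases h2 : G.tgt b ∈ D
      · simp [glue, h1, h2, e _ ⟨h1, G.tgt b, h2, b, Or.inl ⟨rfl, rfl⟩⟩]
      · simp [glue, h1, h2]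
  have key : ∀ H : (V → Spin n) → ℝ, Loc S H →
      cav G β D η H = Real.exp (β * c) * cav G β D η' H := fun H hH => by
    rw [cav, cav, ← integral_const_mul]
    refine integral_congr_ae (Filter.Eventually.of_forall fun σ => ?_)
    simp only [hen, mul_add, Real.exp_add]
    rw [hH (glue D η σ) (glue D η' σ) fun x hx => by simp [glue, hS hx]]
    ring
  rw [cexp, cexp, key F hF, key (fun _ => 1) fun _ _ _ => rfl,
    mul_div_mul_left _ _ (Real.exp_pos _).ne']

omit [Fintype V] [NeZero n] in
lemma en_rot_const {i j : Fin n} (h : i ≠ j) (t : ℝ) (σ : V → Spin n) :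
    en G (rot h (fun _ => 1) t σ) = en G σ := by
  refine Finset.sum_congr rfl fun b _ => ?_
  exact LinearIsometryEquiv.inner_map_map ((pl h).rot (t * 1)) _ _

omit [Fintype ι] in
lemma integral_comp_rot {i j : Fin n} (h : i ≠ j) (g : V → ℝ) (t : ℝ)
    (K : (V → Spin n) → ℝ) :
    ∫ σ, K (rot h g t σ) ∂freeLaw V n = ∫ σ, K σ ∂freeLaw V n := by
  have hc : Continuous (rot (V := V) h g t) := continuous_rotF _ _
  have hinj : Function.Injective (rot (V := V) h g t) := fun a b e => by
    have := congrArg (rot h g (-t)) e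
    simpa [rot_add, rot_zero] using this
  refine MeasurePreserving.integral_comp ⟨hc.measurable, ?_⟩ (hc.measurableEmbedding hinj) K
  refine (measurePreserving_pi _ _ fun x => ?_).map_eq
  exact ⟨(continuous_sphereMap _).measurable, map_sphereUnif _⟩

omit [NeZero n] in
lemma rot_const_glue {i j : Fin n} (h : i ≠ j) (D : Set V) (t : ℝ) (η σ : V → Spin n) :
    glue D (rot h (fun _ => 1) t η) (rot h (fun _ => 1) t σ) =
      rot h (fun _ => 1) t (glue D η σ) := by
  funext x
  by_cases hx : x ∈ D <;> simp [glue, hx, rot, rotF]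

/-- The conditional expectations commute with global rotations. -/
theorem cav_rot {i j : Fin n} (h : i ≠ j) (D : Set V) (t : ℝ) (η : V → Spin n)
    (F : (V → Spin n) → ℝ) :
    cav G β D (rot h (fun _ => 1) t η) F =
      cav G β D η fun σ => F (rot h (fun _ => 1) t σ) := by
  rw [cav, ← integral_comp_rot h (fun _ => 1) t]
  simp only [cav, rot_const_glue, en_rot_const]

theorem cexp_odd {i j : Fin n} (h : i ≠ j) (D : Set V) {F : (V → Spin n) → ℝ} (hF : OddPi h F) :
    OddPi h (cexp G β D F) := by
  intro η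
  have e : (fun σ => F (rot h (fun _ => 1) Real.pi σ)) = fun σ => -F σ := funext hF
  simp only [cexp, cav_rot, e, cav_neg, neg_div]

theorem cond_stmt : CondStmt := by
  intro n _ V ι _ _ G β
  exact ⟨fun i j h g D η F F' hg hF => cav_ward η hg hF,
    fun D D' η M M' F K hD hF hK hl => cav_tower hD η hF hK hl,
    fun D η F => by simp only [cav, glue_self],
    fun η F => by simp only [cav, av, glue_univ],
    fun D S F hS hF => cexp_loc hS hF,
    fun i j h D F hF => cexp_odd h D hF,
    fun D M F hF => obs_cexp D hF⟩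

end Vale.Agent.P163.Gap
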