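import Vale.Agent.P163.Gap.Mean

/-!
The correlation of representatives at separated scales.
-/

noncomputable section

namespace Vale.Agent.P163.Gap

open MeasureTheory Metric Helicity
open scoped RealInnerProductSpace Classical

namespace Rep

variable {n : ℕ} {V ι : Type} [Fintype V] [Fintype ι] {G : Helicity.Graph V ι} {β : ℝ}
  {D : Set V} {η : V → Spin n} {i j k : Fin n}

/-- A product of components at the ends of one bond. -/
def pr (G : Helicity.Graph V ι) (a c : Fin n) (b : ι) (σ : V → Spin n) : ℝ :=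
  co a (G.src b) σ * co c (G.tgt b) σ

/-- The current of one bond. -/
def jb (G : Helicity.Graph V ι) (a c : Fin n) (b : ι) (σ : V → Spin n) : ℝ :=
  pr G a c b σ - pr G c a b σ

omit [Fintype ι] in
lemma continuous_pr (a c : Fin n) (b : ι) : Continuous (pr (n := n) G a c b) :=
  (Helicity.continuous_co a _).mul (Helicity.continuous_co c _)

omit [Fintype ι] in
lemma continuous_jb (a c : Fin n) (b : ι) : Continuous (jb (n := n) G a c b) :=
  (continuous_pr a c b).sub (continuous_pr c a b)

omit [Fintype V] in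
lemma cur_eq (a c : Fin n) (A : ι → ℝ) (σ : V → Spin n) :
    cur G a c A σ = ∑ b, A b * jb G a c b σ := rfl

omit [Fintype ι] in
lemma hasRot_pr {a c : Fin n} (h : a ≠ c) (g : V → ℝ) (u v : Fin n) (b : ι) :
    HasRot h g (pr G u v b) (fun σ =>
      g (G.src b) * ((if u = c then co a (G.src b) σ else 0) -
        if u = a then co c (G.src b) σ else 0) * co v (G.tgt b) σ +
      co u (G.src b) σ * (g (G.tgt b) * ((if v = c then co a (G.tgt b) σ else 0) -
        if v = a then co c (G.tgt b) σ else 0))) :=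
  (hasRot_co h g u (G.src b)).mul (hasRot_co h g v (G.tgt b))

section Rules

set_option linter.unusedSectionVars false

variable (hij : i ≠ j) (hik : i ≠ k) (hjk : j ≠ k) (g : V → ℝ) (b : ι)

include hij hik hjk

lemma rot_ik_jik : HasRot hik g (jb G i k b)
    (fun σ => -dd G g b * (pr G i i b σ + pr G k k b σ)) :=
  ((hasRot_pr hik g i k b).sub (hasRot_pr hik g k i b)).congr_deriv fun σ => by
    simp only [pr, dd, if_neg hik, if_neg hik.symm, if_true]; ring

lemma rot_ik_jjk : HasRot hik g (jb G j k b)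
    (fun σ => g (G.tgt b) * pr G j i b σ - g (G.src b) * pr G i j b σ) :=
  ((hasRot_pr hik g j k b).sub (hasRot_pr hik g k j b)).congr_deriv fun σ => by
    simp only [pr, if_neg hjk, if_neg hik.symm, if_neg hij.symm, if_true]; ring

lemma rot_ik_jij : HasRot hik g (jb G i j b)
    (fun σ => g (G.tgt b) * pr G j k b σ - g (G.src b) * pr G k j b σ) :=
  ((hasRot_pr hik g i j b).sub (hasRot_pr hik g j i b)).congr_deriv fun σ => by
    simp only [pr, if_neg hjk, if_neg hik, if_neg hij.symm, if_true]; ring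

lemma rot_jk_jik : HasRot hjk g (jb G i k b)
    (fun σ => g (G.tgt b) * pr G i j b σ - g (G.src b) * pr G j i b σ) :=
  ((hasRot_pr hjk g i k b).sub (hasRot_pr hjk g k i b)).congr_deriv fun σ => by
    simp only [pr, if_neg hik, if_neg hjk.symm, if_neg hij, if_true]; ring

lemma rot_jk_jjk : HasRot hjk g (jb G j k b)
    (fun σ => -dd G g b * (pr G j j b σ + pr G k k b σ)) :=
  ((hasRot_pr hjk g j k b).sub (hasRot_pr hjk g k j b)).congr_deriv fun σ => by
    simp only [pr, dd, if_neg hjk, if_neg hjk.symm, if_true]; ring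

lemma rot_jk_pik : HasRot hjk g (fun σ => pr G i i b σ + pr G k k b σ)
    (fun σ => g (G.src b) * pr G j k b σ + g (G.tgt b) * pr G k j b σ) :=
  ((hasRot_pr hjk g i i b).add (hasRot_pr hjk g k k b)).congr_deriv fun σ => by
    simp only [pr, if_neg hik, if_neg hij, if_neg hjk.symm, if_true]; ring

lemma rot_jk_pji : HasRot hjk g (pr G j i b) (fun σ => -g (G.src b) * pr G k i b σ) :=
  (hasRot_pr hjk g j i b).congr_deriv fun σ => by
    simp only [pr, if_neg hik, if_neg hij, if_neg hjk, if_true]; ring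

lemma rot_jk_pij : HasRot hjk g (pr G i j b) (fun σ => -g (G.tgt b) * pr G i k b σ) :=
  (hasRot_pr hjk g i j b).congr_deriv fun σ => by
    simp only [pr, if_neg hik, if_neg hij, if_neg hjk, if_true]; ring

lemma rot_jk_pjk : HasRot hjk g (pr G j k b)
    (fun σ => g (G.tgt b) * pr G j j b σ - g (G.src b) * pr G k k b σ) :=
  (hasRot_pr hjk g j k b).congr_deriv fun σ => by
    simp only [pr, if_neg hjk, if_neg hjk.symm, if_true]; ring

lemma rot_jk_pkj : HasRot hjk g (pr G k j b)
    (fun σ => g (G.src b) * pr G j j b σ - g (G.tgt b) * pr G k k b σ) :=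
  (hasRot_pr hjk g k j b).congr_deriv fun σ => by
    simp only [pr, if_neg hjk, if_neg hjk.symm, if_true]; ring

lemma rot_jk_sym : HasRot hjk g (fun σ => pr G j k b σ + pr G k j b σ)
    (fun σ => (g (G.src b) + g (G.tgt b)) * (pr G j j b σ - pr G k k b σ)) :=
  ((rot_jk_pjk hij hik hjk g b).add (rot_jk_pkj hij hik hjk g b)).congr_deriv fun σ => by ring

lemma rot_ik_sym : HasRot hik g (fun σ => pr G i k b σ + pr G k i b σ)
    (fun σ => (g (G.src b) + g (G.tgt b)) * (pr G i i b σ - pr G k k b σ)) :=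
  ((hasRot_pr hik g i k b).add (hasRot_pr hik g k i b)).congr_deriv fun σ => by
    simp only [pr, if_neg hik, if_neg hik.symm, if_true]; ring

end Rules

/-- The planar contact term. -/
def contact (G : Helicity.Graph V ι) (β : ℝ) (D : Set V) (η : V → Spin n) (i j k : Fin n)
    (b : ι) : ℝ :=
  cav G β D η fun σ => pr G i i b σ + pr G j j b σ - 2 * pr G k k b σ

lemma contact_eq [NeZero n] (b : ι) : contact G β D η i j k b =
    cav G β D η (fun σ => pr G i i b σ) + cav G β D η (fun σ => pr G j j b σ) -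
      2 * cav G β D η fun σ => pr G k k b σ := by
  have c := fun a => continuous_pr (G := G) (n := n) a a b
  rw [contact, csub ((c i).fun_add (c j)) ((c k).const_mul 2), cadd (c i) (c j), csmul]

/-- A current against a representative of the same current. -/
lemma cav_cur_rep [NeZero n] (hC : CondStmt) (hP : PackWardStmt) (hij : i ≠ j)
    (hik : i ≠ k) (hjk : j ≠ k) {a : V → ℝ} (ha : Supp a D) (f : Fam V)
    (hD : ∀ p, Supp (f.g p) D ∧ Supp (f.h p) D)
    (hb : ∀ b, f.kern (G.src b) (G.tgt b) = dd G a b) :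
    β * cav G β D η (fun σ => cur G i j (dd G a) σ * fX G β i j k f σ) =
      ∑ b, dd G a b ^ 2 * contact G β D η i j k b := by
  have h1 : ∀ g : V → ℝ, HasRot hik g (fun σ => ∑ b, dd G a b * jb G i j b σ)
      (fun σ => ∑ b, dd G a b * (g (G.tgt b) * pr G j k b σ - g (G.src b) * pr G k j b σ)) :=
    fun g => HasRot.sum _ fun b _ => (rot_ik_jij hij hik hjk g b).const_mul _
  have h2 : ∀ g h : V → ℝ, HasRot hjk h
      (fun σ => ∑ b, dd G a b * (g (G.tgt b) * pr G j k b σ - g (G.src b) * pr G k j b σ))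
      (fun σ => ∑ b, dd G a b * (g (G.tgt b) * (h (G.tgt b) * pr G j j b σ -
          h (G.src b) * pr G k k b σ) -
        g (G.src b) * (h (G.src b) * pr G j j b σ - h (G.tgt b) * pr G k k b σ))) :=
    fun g h => HasRot.sum _ fun b _ => (((rot_jk_pjk hij hik hjk h b).const_mul _).sub
      ((rot_jk_pkj hij hik hjk h b).const_mul _)).const_mul _
  have cp := fun u v b => continuous_pr (G := G) (n := n) u v b
  have hK : Continuous fun σ : V → Spin n => ∑ b, dd G a b * jb G i j b σ :=
    (h1 a).cont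
  have r := rep_identity (η := η) (G := G) (β := β) hP hij hik hjk f hD (fun p => h1 (f.g p))
    (fun p => h1 (f.h p)) (fun p => h2 (f.g p) (f.h p)) (fun p => h2 (f.h p) (f.g p)) hK
  have e : (fun σ : V → Spin n => ∑ p, f.c p *
      ((∑ b, dd G a b * (f.g p (G.tgt b) * (f.h p (G.tgt b) * pr G j j b σ -
          f.h p (G.src b) * pr G k k b σ) -
        f.g p (G.src b) * (f.h p (G.src b) * pr G j j b σ - f.h p (G.tgt b) * pr G k k b σ))) -
      ∑ b, dd G a b * (f.h p (G.tgt b) * (f.g p (G.tgt b) * pr G j j b σ -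
          f.g p (G.src b) * pr G k k b σ) -
        f.h p (G.src b) * (f.g p (G.src b) * pr G j j b σ - f.g p (G.tgt b) * pr G k k b σ)))) =
      fun σ => ∑ b, 2 * dd G a b ^ 2 * pr G k k b σ := by
    funext σ
    simp only [← Finset.sum_sub_distrib, Finset.mul_sum]
    rw [Finset.sum_comm]
    refine Finset.sum_congr rfl fun b _ => ?_
    rw [show (2 : ℝ) * dd G a b ^ 2 = 2 * dd G a b * f.kern (G.src b) (G.tgt b) by rw [hb]; ring,
      Fam.kern, Finset.mul_sum, Finset.sum_mul]
    exact Finset.sum_congr rfl fun p _ => by ring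
  rw [e] at r
  -- the current against itself
  have w := (hC n V ι G β).1 i j hij a D η _ _ ha
    (HasRot.sum Finset.univ fun b _ => (((hasRot_pr (G := G) hij a i j b).sub
      (hasRot_pr (G := G) hij a j i b)).const_mul (dd G a b)).congr_deriv
        (K' := fun σ => -(dd G a b ^ 2) * (pr G i i b σ + pr G j j b σ)) fun σ => by
          simp only [pr, dd, if_neg hij, if_neg hij.symm, if_true]; ring)
  have hc : (fun σ : V → Spin n => ∑ b, dd G a b * (pr G i j b σ - pr G j i b σ)) =
      cur G i j (dd G a) := rfl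
  have hc' : (fun σ : V → Spin n => ∑ b, dd G a b * jb G i j b σ) = cur G i j (dd G a) := rfl
  have hb' : (fun b => f.kern (G.src b) (G.tgt b)) = dd G a := funext hb
  simp only [hb'] at r
  rw [show (fun σ : V → Spin n => (∑ b, dd G a b * jb G i j b σ) * fX G β i j k f σ) =
      fun σ => cur G i j (dd G a) σ * fX G β i j k f σ from rfl,
    show (fun σ : V → Spin n => (∑ b, dd G a b * jb G i j b σ) * cur G i j (dd G a) σ) =
      fun σ => cur G i j (dd G a) σ * cur G i j (dd G a) σ from rfl,
    csum _ (fun b _ => (cp k k b).const_mul _)] at r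
  rw [show (fun σ : V → Spin n => (∑ b, dd G a b * (pr G i j b σ - pr G j i b σ)) *
      cur G i j (dd G a) σ) = fun σ => cur G i j (dd G a) σ * cur G i j (dd G a) σ from rfl,
    csum _ (fun b _ => ((cp i i b).fun_add (cp j j b)).const_mul _)] at w
  rw [r, show β * cav G β D η (fun σ => cur G i j (dd G a) σ * cur G i j (dd G a) σ) =
    -∑ b, cav G β D η (fun σ => -(dd G a b ^ 2) * (pr G i i b σ + pr G j j b σ)) by linarith,
    ← Finset.sum_neg_distrib, ← Finset.sum_sub_distrib]
  refine Finset.sum_congr rfl fun b _ => ?_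
  rw [contact_eq, csmul, csmul, cadd (cp i i b) (cp j j b)]
  ring

omit [Fintype V] in
lemma fX_eq (f : Fam V) (σ : V → Spin n) : fX G β i j k f σ =
    -β * ∑ b, ∑ b', dd2 G f.kern b b' * (jb G i k b σ * jb G j k b' σ) := by
  simp only [fX, pk, cur_eq, Finset.sum_mul_sum]
  simp only [← Finset.sum_sub_distrib, Finset.mul_sum]
  rw [Finset.sum_comm]
  refine Finset.sum_congr rfl fun b _ => ?_
  rw [Finset.sum_comm]
  refine Finset.sum_congr rfl fun b' _ => ?_
  simp only [dd2, Fam.kern, ← Finset.sum_sub_distrib, ← Finset.sum_add_distrib, Finset.sum_mul,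
    Finset.mul_sum]
  exact Finset.sum_congr rfl fun p _ => by simp only [dd]; ring

omit [Fintype V] [Fintype ι] in
lemma dd2_swap (f : Fam V) (b b' : ι) : dd2 G f.kern b' b = -dd2 G f.kern b b' := by
  simp only [dd2, kern_swap f (G.src b'), kern_swap f (G.tgt b')]
  ring

/-- The second rotation derivative of a pair of bond currents. -/
def pairD (G : Helicity.Graph V ι) (i j k : Fin n) (g h : V → ℝ) (b b' : ι) (σ : V → Spin n) :
    ℝ :=
  -dd G g b * (h (G.src b) * pr G j k b σ + h (G.tgt b) * pr G k j b σ) * jb G j k b' σ +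
    -dd G g b * (pr G i i b σ + pr G k k b σ) * (-dd G h b' * (pr G j j b' σ + pr G k k b' σ)) +
    (h (G.tgt b) * pr G i j b σ - h (G.src b) * pr G j i b σ) *
      (g (G.tgt b') * pr G j i b' σ - g (G.src b') * pr G i j b' σ) +
    jb G i k b σ * (g (G.tgt b') * (-h (G.src b') * pr G k i b' σ) -
      g (G.src b') * (-h (G.tgt b') * pr G i k b' σ))

omit [Fintype V] [Fintype ι] in
lemma pairD_sum {a : V → ℝ} (f f' : Fam V)
    (hb : ∀ b, f.kern (G.src b) (G.tgt b) = dd G a b) (hd : Decoupled G f f') (b b' : ι)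
    (σ : V → Spin n) :
    dd2 G f'.kern b b' *
      ∑ p, f.c p * (pairD G i j k (f.g p) (f.h p) b b' σ - pairD G i j k (f.h p) (f.g p) b b' σ) =
      dd2 G f'.kern b b' * (-dd G a b * ((pr G j k b σ + pr G k j b σ) * jb G j k b' σ) +
        dd G a b' * (jb G i k b σ * (pr G i k b' σ + pr G k i b' σ))) := by
  have e : ∑ p, f.c p *
      (pairD G i j k (f.g p) (f.h p) b b' σ - pairD G i j k (f.h p) (f.g p) b b' σ) =
      -f.kern (G.src b) (G.tgt b) * ((pr G j k b σ + pr G k j b σ) * jb G j k b' σ) +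
      (dd2 G f.kern b b' * ((pr G i i b σ + pr G k k b σ) * (pr G j j b' σ + pr G k k b' σ)) +
      (f.kern (G.tgt b') (G.tgt b) * (pr G i j b σ * pr G j i b' σ) -
        f.kern (G.src b') (G.tgt b) * (pr G i j b σ * pr G i j b' σ) -
        f.kern (G.tgt b') (G.src b) * (pr G j i b σ * pr G j i b' σ) +
        f.kern (G.src b') (G.src b) * (pr G j i b σ * pr G i j b' σ))) +
      f.kern (G.src b') (G.tgt b') * (jb G i k b σ * (pr G i k b' σ + pr G k i b' σ)) := by
    simp only [Fam.kern, dd2, Finset.sum_mul, ← Finset.sum_sub_distrib,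
      ← Finset.sum_add_distrib, ← Finset.sum_neg_distrib]
    exact Finset.sum_congr rfl fun p _ => by simp only [pairD, dd]; ring
  have z : ∀ x y, (x = G.src b ∨ x = G.tgt b) → (y = G.src b' ∨ y = G.tgt b') →
      dd2 G f'.kern b b' * f.kern x y = 0 := fun x y hx hy => by
    by_cases h0 : f.kern x y = 0
    · simp [h0]
    · simp [hd b b' ⟨x, y, hx, hy, h0⟩]
  rw [e, hb, hb, kern_swap f (G.tgt b') (G.tgt b), kern_swap f (G.src b') (G.tgt b),
    kern_swap f (G.tgt b') (G.src b), kern_swap f (G.src b') (G.src b)]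
  have z1 := z _ _ (Or.inl rfl) (Or.inl rfl)
  have z2 := z _ _ (Or.inl rfl) (Or.inr rfl)
  have z3 := z _ _ (Or.inr rfl) (Or.inl rfl)
  have z4 := z _ _ (Or.inr rfl) (Or.inr rfl)
  have z5 : dd2 G f'.kern b b' * dd2 G f.kern b b' = 0 := by
    rw [show dd2 G f.kern b b' = f.kern (G.src b) (G.src b') - f.kern (G.src b) (G.tgt b') -
      f.kern (G.tgt b) (G.src b') + f.kern (G.tgt b) (G.tgt b') from rfl]
    linear_combination z1 - z2 - z3 + z4
  linear_combination ((pr G i i b σ + pr G k k b σ) * (pr G j j b' σ + pr G k k b' σ)) * z5 +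
    -(pr G i j b σ * pr G j i b' σ) * z4 + (pr G i j b σ * pr G i j b' σ) * z3 +
    (pr G j i b σ * pr G j i b' σ) * z2 + -(pr G j i b σ * pr G i j b' σ) * z1

lemma rot_pair (hij : i ≠ j) (hik : i ≠ k) (hjk : j ≠ k) (f' : Fam V) (g h : V → ℝ) :
    ∃ K', HasRot hik g
        (fun σ => -β * ∑ b, ∑ b', dd2 G f'.kern b b' * (jb G i k b σ * jb G j k b' σ)) K' ∧
      HasRot hjk h K' fun σ =>
        -β * ∑ b, ∑ b', dd2 G f'.kern b b' * pairD G i j k g h b b' σ :=
  ⟨_, (HasRot.sum _ fun b _ => HasRot.sum _ fun b' _ =>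
      ((rot_ik_jik hij hik hjk g b).mul (rot_ik_jjk hij hik hjk g b')).const_mul _).const_mul _,
    (HasRot.sum _ fun b _ => HasRot.sum _ fun b' _ =>
      (((((rot_jk_pik hij hik hjk h b).const_mul (-dd G g b)).mul
            (rot_jk_jjk hij hik hjk h b')).add
          ((rot_jk_jik hij hik hjk h b).mul
            (((rot_jk_pji hij hik hjk h b').const_mul (g (G.tgt b'))).sub
              ((rot_jk_pij hij hik hjk h b').const_mul (g (G.src b')))))).const_mul _).congr_deriv
        fun σ => by simp only [pairD]; ring).const_mul _⟩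

/-- The contact term of one bond in a plane. -/
lemma cav_contact [NeZero n] (hC : CondStmt) {c d : Fin n} (hcd : c ≠ d) (f : Fam V)
    (hD : ∀ p, Supp (f.g p) D ∧ Supp (f.h p) D) (b : ι)
    {S S' : (V → Spin n) → ℝ}
    (hS : ∀ g : V → ℝ, HasRot hcd g S fun σ => (g (G.src b) + g (G.tgt b)) * S' σ) :
    β * cav G β D η (fun σ => ∑ b', dd2 G f.kern b b' * (S σ * jb G c d b' σ)) =
      -(2 * f.kern (G.src b) (G.tgt b)) * cav G β D η S' := by
  set m : V → ℝ := fun y => f.kern (G.src b) y - f.kern (G.tgt b) y with hm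
  have hs : Supp m D := fun y hy => by
    simp [hm, Fam.kern, (hD _).1 y hy, (hD _).2 y hy]
  have w := (hC n V ι G β).1 c d hcd m D η _ _ hs (hS m)
  have e1 : m (G.src b) + m (G.tgt b) = 2 * f.kern (G.src b) (G.tgt b) := by
    have := kern_swap f (G.src b) (G.src b)
    have := kern_swap f (G.tgt b) (G.tgt b)
    have := kern_swap f (G.tgt b) (G.src b)
    simp only [hm]; linarith
  have e2 : (fun σ => S σ * cur G c d (dd G m) σ) =
      fun σ => ∑ b', dd2 G f.kern b b' * (S σ * jb G c d b' σ) := by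
    funext σ
    simp only [cur_eq, Finset.mul_sum]
    exact Finset.sum_congr rfl fun b' _ => by simp only [dd, hm, dd2]; ring
  rw [e1, e2, csmul] at w
  linarith

end Rep

/-- The correlation of representatives at separated scales. -/
theorem cross_stmt (hC : CondStmt) (hP : PackWardStmt) : CrossStmt := by
  intro n _ V ι _ _ G β hβ i j k hij hik hjk D η a f f' ha hD hD' hb hb' hdec
  have cp := fun u v b => Rep.continuous_pr (G := G) (n := n) u v b
  have cj := fun u v b => Rep.continuous_jb (G := G) (n := n) u v b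
  have eF : fX G β i j k f' = fun σ : V → Spin n =>
      -β * ∑ b, ∑ b', dd2 G f'.kern b b' * (Rep.jb G i k b σ * Rep.jb G j k b' σ) :=
    funext fun σ => Rep.fX_eq f' σ
  choose Kg hg hgh using fun p => Rep.rot_pair (G := G) (β := β) hij hik hjk f' (f.g p) (f.h p)
  choose Kh hh hhg using fun p => Rep.rot_pair (G := G) (β := β) hij hik hjk f' (f.h p) (f.g p)
  have r := Rep.rep_identity (η := η) (G := G) (β := β) hP hij hik hjk f hD hg hh hgh hhg
    (by fun_prop)
  simp only [← Rep.fX_eq] at r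
  rw [show (fun σ => fX G β i j k f' σ * fX G β i j k f σ) =
    fun σ => fX G β i j k f σ * fX G β i j k f' σ from funext fun σ => mul_comm _ _,
    show (fun σ => fX G β i j k f' σ * cur G i j (fun b => f.kern (G.src b) (G.tgt b)) σ) =
    fun σ => cur G i j (dd G a) σ * fX G β i j k f' σ from
      funext fun σ => by rw [show (fun b => f.kern (G.src b) (G.tgt b)) = dd G a from funext hb];
                         exact mul_comm _ _,
    Rep.cav_cur_rep hC hP hij hik hjk ha f' hD' hb'] at r
  -- the second derivative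
  have e : (fun σ : V → Spin n => ∑ p, f.c p *
      (-β * (∑ b, ∑ b', dd2 G f'.kern b b' * Rep.pairD G i j k (f.g p) (f.h p) b b' σ) -
        -β * ∑ b, ∑ b', dd2 G f'.kern b b' * Rep.pairD G i j k (f.h p) (f.g p) b b' σ)) =
      fun σ => -β * ((∑ b, -dd G a b * ∑ b', dd2 G f'.kern b b' *
          ((Rep.pr G j k b σ + Rep.pr G k j b σ) * Rep.jb G j k b' σ)) -
        ∑ b', dd G a b' * ∑ b, dd2 G f'.kern b' b *
          ((Rep.pr G i k b' σ + Rep.pr G k i b' σ) * Rep.jb G i k b σ)) := by
    funext σ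
    have l : ∑ p, f.c p *
        (-β * (∑ b, ∑ b', dd2 G f'.kern b b' * Rep.pairD G i j k (f.g p) (f.h p) b b' σ) -
          -β * ∑ b, ∑ b', dd2 G f'.kern b b' * Rep.pairD G i j k (f.h p) (f.g p) b b' σ) =
        -β * ∑ b, ∑ b', dd2 G f'.kern b b' * ∑ p, f.c p *
          (Rep.pairD G i j k (f.g p) (f.h p) b b' σ - Rep.pairD G i j k (f.h p) (f.g p) b b' σ) := by
      simp only [Finset.mul_sum, ← Finset.sum_sub_distrib]
      rw [Finset.sum_comm]
      refine Finset.sum_congr rfl fun b _ => ?_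
      rw [Finset.sum_comm]
      exact Finset.sum_congr rfl fun b' _ => Finset.sum_congr rfl fun p _ => by ring
    rw [l]
    congr 1
    rw [Finset.sum_congr rfl fun b _ => Finset.sum_congr rfl fun b' _ =>
      (Rep.pairD_sum (i := i) (j := j) (k := k) f f' hb hdec b b' σ).trans (mul_add _ _ _)]
    simp only [Finset.sum_add_distrib]
    rw [sub_eq_add_neg]
    congr 1
    · refine Finset.sum_congr rfl fun b _ => ?_
      rw [Finset.mul_sum]
      exact Finset.sum_congr rfl fun b' _ => by ring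
    · rw [Finset.sum_comm, ← Finset.sum_neg_distrib]
      refine Finset.sum_congr rfl fun b' _ => ?_
      rw [Finset.mul_sum, ← Finset.sum_neg_distrib]
      exact Finset.sum_congr rfl fun b _ => by rw [Rep.dd2_swap f' b b']; ring
  have c1 : ∀ b, Continuous fun σ : V → Spin n => ∑ b', dd2 G f'.kern b b' *
      ((Rep.pr G j k b σ + Rep.pr G k j b σ) * Rep.jb G j k b' σ) := fun b => by fun_prop
  have c2 : ∀ b, Continuous fun σ : V → Spin n => ∑ b', dd2 G f'.kern b b' *
      ((Rep.pr G i k b σ + Rep.pr G k i b σ) * Rep.jb G i k b' σ) := fun b => by fun_prop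
  rw [e, Rep.csmul, Rep.csub (by fun_prop) (by fun_prop),
    Rep.csum _ (fun b _ => (c1 b).const_mul _), Rep.csum _ (fun b _ => (c2 b).const_mul _)] at r
  rw [r]
  have s1 : ∀ b, β * cav G β D η (fun σ => -dd G a b * ∑ b', dd2 G f'.kern b b' *
      ((Rep.pr G j k b σ + Rep.pr G k j b σ) * Rep.jb G j k b' σ)) =
      2 * dd G a b ^ 2 * cav G β D η (fun σ => Rep.pr G j j b σ - Rep.pr G k k b σ) := fun b => by
    rw [Rep.csmul, mul_left_comm, Rep.cav_contact hC hjk f' hD' b
      (Rep.rot_jk_sym hij hik hjk · b), hb']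
    ring
  have s2 : ∀ b, β * cav G β D η (fun σ => dd G a b * ∑ b', dd2 G f'.kern b b' *
      ((Rep.pr G i k b σ + Rep.pr G k i b σ) * Rep.jb G i k b' σ)) =
      -(2 * dd G a b ^ 2 * cav G β D η (fun σ => Rep.pr G i i b σ - Rep.pr G k k b σ)) := fun b => by
    rw [Rep.csmul, mul_left_comm, Rep.cav_contact hC hik f' hD' b
      (Rep.rot_ik_sym hij hik hjk · b), hb']
    ring
  rw [neg_mul, sub_neg_eq_add, mul_sub, Finset.mul_sum, Finset.mul_sum, Finset.mul_sum]
  simp only [s1, s2]
  rw [← Finset.sum_sub_distrib, ← Finset.sum_add_distrib]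
  refine Finset.sum_congr rfl fun b _ => ?_
  rw [Rep.contact_eq, Rep.csub (cp j j b) (cp k k b), Rep.csub (cp i i b) (cp k k b),
    show (fun σ : V → Spin n => co i (G.src b) σ * co i (G.tgt b) σ +
      co j (G.src b) σ * co j (G.tgt b) σ - 2 * (co k (G.src b) σ * co k (G.tgt b) σ)) =
      fun σ => Rep.pr G i i b σ + Rep.pr G j j b σ - 2 * Rep.pr G k k b σ from rfl,
    show cav G β D η (fun σ => Rep.pr G i i b σ + Rep.pr G j j b σ - 2 * Rep.pr G k k b σ) =
      Rep.contact G β D η i j k b from rfl, Rep.contact_eq]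
  ring

end Vale.Agent.P163.Gap
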