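import Vale.Agent.P163.Gap.Spec
import Vale.Agent.P163.Helicity.Model

/-!
Exponential decay from contraction, sign representation and chains.
-/

noncomputable section

namespace Vale.Agent.P163.Gap

open MeasureTheory Metric Helicity Filter
open scoped RealInnerProductSpace Classical Topology

theorem contr_eq (β : ℝ) (k : ℕ) : contr β k = stepC β ^ k / Real.sqrt (k.factorial) := by
  induction k with
  | zero => simp [contr]
  | succ k ih =>
    rw [contr, Finset.prod_Icc_succ_top (by omega), ← contr, ih, Nat.factorial_succ,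
      Nat.cast_mul, Real.sqrt_mul (Nat.cast_nonneg _), pow_succ, div_mul_div_comm, mul_comm (Real.sqrt _)]

theorem contr_nonneg {β : ℝ} (hβ : 0 ≤ β) (k : ℕ) : 0 ≤ contr β k :=
  Finset.prod_nonneg fun K _ => div_nonneg (by unfold stepC; positivity) (Real.sqrt_nonneg _)

/-- The contraction beats the number of chains. -/
theorem exists_scale {β : ℝ} (hβ : 0 ≤ β) :
    ∃ k, (((2 * (3 * rad k + 4) + 1) ^ 2 : ℕ) : ℝ) ^ 2 * contr β k ≤ 1 / 2 := by
  set B : ℝ := 8 ^ 4 * stepC β with hB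
  have hB0 : 0 ≤ B := by rw [hB, stepC]; positivity
  set A : ℝ := 4096 * 80 ^ 4 with hA
  have h1 := (Real.continuous_sqrt.tendsto 0).comp
    (FloorSemiring.tendsto_pow_div_factorial_atTop (B ^ 2))
  rw [Real.sqrt_zero] at h1
  have h2 := h1.const_mul A
  rw [mul_zero] at h2
  obtain ⟨k, hk⟩ := (h2.eventually (eventually_le_nhds (show (0 : ℝ) < 1 / 2 by norm_num))).exists
  refine ⟨k, le_trans ?_ hk⟩
  have hN : (((2 * (3 * rad k + 4) + 1) ^ 2 : ℕ) : ℝ) ≤ 64 * (rad k : ℝ) ^ 2 := by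
    have h8 : 2 * (3 * rad k + 4) + 1 ≤ 8 * rad k := by
      have : 1 ≤ 8 ^ k := Nat.one_le_pow _ _ (by norm_num)
      simp only [rad]; omega
    calc (((2 * (3 * rad k + 4) + 1) ^ 2 : ℕ) : ℝ) ≤ (((8 * rad k) ^ 2 : ℕ) : ℝ) := by
          exact_mod_cast Nat.pow_le_pow_left h8 2
      _ = _ := by push_cast; ring
  have e : Real.sqrt ((B ^ 2) ^ k / (k.factorial : ℝ)) = B ^ k / Real.sqrt (k.factorial) := by
    rw [Real.sqrt_div' _ (Nat.cast_nonneg _), ← pow_mul, mul_comm 2 k, pow_mul,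
      Real.sqrt_sq (pow_nonneg hB0 _)]
  simp only [Function.comp, e]
  calc (((2 * (3 * rad k + 4) + 1) ^ 2 : ℕ) : ℝ) ^ 2 * contr β k
      ≤ (64 * (rad k : ℝ) ^ 2) ^ 2 * contr β k :=
        mul_le_mul_of_nonneg_right (pow_le_pow_left₀ (Nat.cast_nonneg _) hN 2) (contr_nonneg hβ k)
    _ = A * (B ^ k / Real.sqrt (k.factorial)) := by
        rw [contr_eq, hA, hB, rad, mul_pow (8 ^ 4 : ℝ) (stepC β) k, ← pow_mul]
        push_cast
        ring

theorem decay_of_parts (hB : BallStmt) (hP : PeelStmt) (hS : SignStmt) (hK : CompStmt)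
    (hC : ChainStmt) (hQ : SquareStmt) : DecayStmt := by
  intro n _ hn β hβ
  obtain ⟨k, hk⟩ := exists_scale hβ.le
  set ρ := rad k with hρ
  set N := (2 * (3 * ρ + 4) + 1) ^ 2 with hN
  set D := 3 * ρ + 4 with hD
  have hρ1 : 1 ≤ ρ := by
    have : 1 ≤ 8 ^ k := Nat.one_le_pow _ _ (by norm_num)
    simp only [hρ, rad]; omega
  refine ⟨2 * n, Real.log 2 / D, by positivity,
    div_pos (Real.log_pos one_lt_two) (by positivity), D, fun V ι _ _ G d hd x y => ?_⟩
  set Z := av (n := n) G β fun _ => 1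
  have hZ : 0 ≤ Z := av_nonneg fun _ => zero_le_one
  have hn1 : (1 : ℝ) ≤ n := by exact_mod_cast (show 1 ≤ n by omega)
  have hdd : ∀ u, d u u = 0 := fun u => by
    obtain ⟨c, hc⟩ := hd.chart u
    rw [hc u, c.loc_self]; rfl
  rcases Nat.eq_zero_or_pos (d x y) with h0 | hpos
  · rw [h0, Nat.cast_zero, mul_zero, Real.exp_zero, mul_one]
    calc av G β (fun σ : V → Spin n => ⟪(σ x : Euc n), (σ y : Euc n)⟫) ≤ Z :=
          av_mono (by fun_prop) continuous_const fun σ => by
            refine (real_inner_le_norm _ _).trans ?_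
            simp [norm_eq_of_mem_sphere]
      _ ≤ 2 * n * Z := le_mul_of_one_le_left hZ (by linarith)
  set m := (d x y - 1) / D with hm
  have hlt : m * (3 * ρ + 4) < d x y := by
    have : m * D ≤ d x y - 1 := Nat.div_mul_le_self _ _
    show m * D < d x y
    omega
  have hle : d x y ≤ (m + 1) * D := by
    have := Nat.lt_mul_div_succ (d x y - 1) (show 0 < D by omega)
    rw [mul_comm] at this
    simp only [hm]; omega
  obtain ⟨T, hT, hsep, hcov⟩ := hC V ι G d ρ N m hdd hd.symm hd.tri hd.bond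
    (fun u => hQ V ι G d D hd u D le_rfl) x y hlt
  have hq : ∀ u η, |cexp G β {v | d u v < ρ} (sgnCo (0 : Fin n) u) η| ≤ contr β k := fun u η => by
    obtain ⟨c, hc⟩ := hd.chart u
    simp only [hc]
    exact hB n hn V ι G β hβ 0 u D k c (by omega) η
  have hsum : ∑ l ∈ T, av G β (sgnPairs (0 : Fin n) l) ≤ (1 / 2) ^ m * Z := by
    calc ∑ l ∈ T, av G β (sgnPairs (0 : Fin n) l) ≤ ∑ l ∈ T, contr β k ^ m * Z :=
          Finset.sum_le_sum fun l hl => by
            have := hP n V ι G β 0 d ρ _ hρ1 hdd hd.symm hd.tri hd.bond hq l (hsep l hl).2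
            rw [(hsep l hl).1] at this
            exact (le_abs_self _).trans this
      _ = (T.card : ℝ) * (contr β k ^ m * Z) := by rw [Finset.sum_const, nsmul_eq_mul]
      _ ≤ (((N * N) ^ m : ℕ) : ℝ) * (contr β k ^ m * Z) := by
          refine mul_le_mul_of_nonneg_right (by exact_mod_cast hT) ?_
          exact mul_nonneg (pow_nonneg (contr_nonneg hβ.le k) _) hZ
      _ = ((N : ℝ) ^ 2 * contr β k) ^ m * Z := by push_cast; ring
      _ ≤ _ := mul_le_mul_of_nonneg_right
          (pow_le_pow_left₀ (mul_nonneg (sq_nonneg _) (contr_nonneg hβ.le k)) hk _) hZ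
  have hexp : (1 / 2 : ℝ) ^ m ≤ 2 * Real.exp (-(Real.log 2 / D) * d x y) := by
    have e : Real.exp (-Real.log 2 * ((m : ℝ) + 1)) = (1 / 2) ^ (m + 1) := by
      rw [neg_mul, Real.exp_neg, mul_comm, ← Nat.cast_succ, Real.exp_nat_mul,
        Real.exp_log two_pos, one_div, inv_pow]
    have : (1 / 2 : ℝ) ^ (m + 1) ≤ Real.exp (-(Real.log 2 / D) * d x y) := by
      rw [← e]
      refine Real.exp_le_exp.2 ?_
      have h1 : ((d x y : ℝ)) ≤ ((m : ℝ) + 1) * D := by exact_mod_cast hle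
      have h2 : Real.log 2 / (D : ℝ) * d x y ≤ Real.log 2 / D * (((m : ℝ) + 1) * D) :=
        mul_le_mul_of_nonneg_left h1 (by positivity)
      have h3 : Real.log 2 / (D : ℝ) * (((m : ℝ) + 1) * D) = Real.log 2 * ((m : ℝ) + 1) := by
        have : (D : ℝ) ≠ 0 := by positivity
        field_simp
      linarith
    rw [pow_succ] at this
    linarith
  rw [hK n V ι G β 0 x y]
  calc (n : ℝ) * av G β (fun σ => co (0 : Fin n) x σ * co 0 y σ)
      ≤ n * ((1 / 2) ^ m * Z) := mul_le_mul_of_nonneg_left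
        ((hS n V ι G β hβ.le 0 x y T hcov).trans hsum) (Nat.cast_nonneg _)
    _ ≤ n * (2 * Real.exp (-(Real.log 2 / D) * d x y) * Z) :=
        mul_le_mul_of_nonneg_left (mul_le_mul_of_nonneg_right hexp hZ) (Nat.cast_nonneg _)
    _ = _ := by ring

end Vale.Agent.P163.Gap
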