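import Vale.Agent.P163.Gap.PackWard
import Vale.Agent.P163.Helicity.Bound

/-!
The second moment of one representative of the current, with frozen boundary spins.
-/

noncomputable section

namespace Vale.Agent.P163.Gap.Pack

open MeasureTheory Metric Helicity
open scoped Classical

variable {n : ℕ} [NeZero n] {V ι : Type} [Fintype V] [Fintype ι] {G : Helicity.Graph V ι} {β : ℝ}
  {D : Set V} {η : V → Spin n}

/-- The expectations of a product are at most the mean of those of the squares. -/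
lemma abs_mul_le {X Y : (V → Spin n) → ℝ} (hX : Continuous X) (hY : Continuous Y) :
    |cav G β D η (fun σ => X σ * Y σ)| ≤
      (cav G β D η (fun σ => X σ ^ 2) + cav G β D η (fun σ => Y σ ^ 2)) / 2 := by
  have c1 : Continuous fun σ => (1 / 2 : ℝ) * X σ ^ 2 := continuous_const.mul (hX.pow 2)
  have c2 : Continuous fun σ => (1 / 2 : ℝ) * Y σ ^ 2 := continuous_const.mul (hY.pow 2)
  have e : cav G β D η (fun σ => (1 / 2 : ℝ) * X σ ^ 2 + (1 / 2) * Y σ ^ 2) =
      (cav G β D η (fun σ => X σ ^ 2) + cav G β D η (fun σ => Y σ ^ 2)) / 2 := by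
    rw [add c1 c2, const_mul, const_mul]; ring
  rw [← e, abs_le, neg_le, ← neg]
  refine ⟨mono (hX.mul hY).neg (c1.fun_add c2) fun σ => ?_,
    mono (hX.mul hY) (c1.fun_add c2) fun σ => ?_⟩
  · nlinarith [sq_nonneg (X σ + Y σ)]
  · nlinarith [sq_nonneg (X σ - Y σ)]

omit [NeZero n] in
/-- An invariant observable has zero derivative. -/
lemma hasRot_zero {i j : Fin n} {h : i ≠ j} {g : V → ℝ} {F : (V → Spin n) → ℝ} (hF : Continuous F)
    (inv : ∀ t σ, F (rot h g t σ) = F σ) : HasRot h g F (fun _ => 0) :=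
  ⟨hF, continuous_const, fun σ => by simp only [inv]; exact hasDerivAt_const _ _⟩

omit [NeZero n] [Fintype V] in
/-- Currents are invariant under rotations which vanish at their bonds. -/
lemma cur_inv {a c : Fin n} {A : ι → ℝ} {i j : Fin n} (h : i ≠ j) {g : V → ℝ}
    (hA : ∀ b, A b ≠ 0 → g (G.src b) = 0 ∧ g (G.tgt b) = 0) (t : ℝ) (σ : V → Spin n) :
    cur G a c A (rot h g t σ) = cur G a c A σ := by
  refine loc_cur (G := G) (S := {x | g x = 0}) a c hA _ _ fun x hx => Subtype.ext ?_
  simp only [rot, rotF_coe, show g x = 0 from hx, mul_zero, Plane.rot_zero]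

/-- Bonds at a set avoid a function supported far from it. -/
lemma far_zero {S T : Set V} {g : V → ℝ} (hg : ∀ x, x ∉ S → g x = 0)
    (hfar : ∀ u ∈ S, ∀ v ∈ T, ¬(u = v ∨ Adj G u v)) {b : ι}
    (hb : G.src b ∈ T ∨ G.tgt b ∈ T) : g (G.src b) = 0 ∧ g (G.tgt b) = 0 := by
  constructor <;> refine hg _ fun hu => ?_
  · rcases hb with hb | hb
    · exact hfar _ hu _ hb (Or.inl rfl)
    · exact hfar _ hu _ hb (Or.inr ⟨b, Or.inl ⟨rfl, rfl⟩⟩)
  · rcases hb with hb | hb
    · exact hfar _ hu _ hb (Or.inr ⟨b, Or.inr ⟨rfl, rfl⟩⟩)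
    · exact hfar _ hu _ hb (Or.inl rfl)

lemma mem_of_dd {T : Set V} {g : V → ℝ} (hg : ∀ x, x ∉ T → g x = 0) {b : ι} (hb : dd G g b ≠ 0) :
    G.src b ∈ T ∨ G.tgt b ∈ T := by
  by_contra hc
  rw [not_or] at hc
  simp [dd, hg _ hc.1, hg _ hc.2] at hb

lemma mem_of_kw {T : Set V} {g h : V → ℝ} (hg : ∀ x, x ∉ T → g x = 0) (hh : ∀ x, x ∉ T → h x = 0)
    {b : ι} (hb : kw G g h b ≠ 0) : G.src b ∈ T ∨ G.tgt b ∈ T := by
  by_contra hc
  rw [not_or] at hc
  simp [kw, hg _ hc.1, hh _ hc.1] at hb

lemma sum_abs_sq (A : ι → ℝ) : ∑ b, |A b * A b| = ∑ b, A b ^ 2 :=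
  Finset.sum_congr rfl fun b _ => by rw [abs_mul_self, pow_two]

/-- The second moment of a gradient current. -/
lemma grad_sq (hC : CondStmt) (hβ : 0 < β) {i j : Fin n} (h : i ≠ j) {g : V → ℝ} (hg : Supp g D) :
    cav G β D η (fun σ => cur G i j (dd G g) σ ^ 2) ≤
      (∑ b, dd G g b ^ 2) / β * cav G β D η fun _ => 1 := by
  have w := ward (G := G) (β := β) (η := η) hC hg (hasRot_cur_same (G := G) h g (dd G g))
  rw [neg, show (fun σ => cur G i j (dd G g) σ * cur G i j (dd G g) σ) =
    fun σ => cur G i j (dd G g) σ ^ 2 by funext σ; ring] at w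
  have h2 : cav G β D η (pen G i j fun b => dd G g b * dd G g b) ≤
      (∑ b, dd G g b ^ 2) * cav G β D η fun _ => 1 := by
    rw [← const_mul]
    refine mono (continuous_pen i j _) (continuous_const.mul continuous_const) fun σ => ?_
    rw [mul_one, ← sum_abs_sq]
    exact (le_abs_self _).trans (abs_pen_le h _ σ)
  rw [div_mul_eq_mul_div, le_div_iff₀ hβ]
  linarith

/-- The fourth moment of a gradient current. -/
lemma grad_fourth (hC : CondStmt) (hβ : 0 < β) {i j : Fin n} (h : i ≠ j) {g : V → ℝ}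
    (hg : Supp g D) :
    cav G β D η (fun σ => cur G i j (dd G g) σ ^ 4) ≤
      3 * (∑ b, dd G g b ^ 2) ^ 2 / β ^ 2 * cav G β D η fun _ => 1 := by
  have hR := hasRot_cur_same (G := G) (n := n) h g (dd G g)
  have w := ward (G := G) (β := β) (η := η) hC hg ((hR.mul hR).mul hR)
  set J := cur (n := n) G i j (dd G g) with hJ
  set P := pen (n := n) G i j fun b => dd G g b * dd G g b with hP
  rw [show (fun σ => (-P σ * J σ + J σ * -P σ) * J σ + J σ * J σ * -P σ) =
      fun σ => (-3) * (P σ * J σ ^ 2) by funext σ; ring,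
    show (fun σ => J σ * J σ * J σ * J σ) = fun σ => J σ ^ 4 by funext σ; ring, const_mul] at w
  have h2 : cav G β D η (fun σ => P σ * J σ ^ 2) ≤
      (∑ b, dd G g b ^ 2) * ((∑ b, dd G g b ^ 2) / β * cav G β D η fun _ => 1) := by
    refine le_trans ?_ (mul_le_mul_of_nonneg_left (grad_sq hC hβ h hg)
      (Finset.sum_nonneg fun b _ => sq_nonneg _))
    rw [← const_mul]
    refine mono ((continuous_pen i j _).mul ((continuous_cur i j _).pow 2))
      (continuous_const.mul ((continuous_cur i j _).pow 2)) fun σ => ?_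
    refine mul_le_mul_of_nonneg_right ?_ (sq_nonneg _)
    rw [← sum_abs_sq]
    exact (le_abs_self _).trans (abs_pen_le h _ σ)
  set S := ∑ b, dd G g b ^ 2
  set Z := cav G β D η fun _ => 1
  have h3 : cav G β D η (fun σ => J σ ^ 4) ≤ 3 * (S * (S / β * Z)) / β := by
    rw [le_div_iff₀ hβ]; linarith
  exact h3.trans (le_of_eq (by field_simp))

lemma cE_nonneg : 0 ≤ cE := by unfold cE; positivity

variable {i j k : Fin n} {g h : V → ℝ}

/-- The second moment of a packet. -/
lemma pk_sq (hC : CondStmt) (hβ : 0 < β) (hik : i ≠ k) (hjk : j ≠ k) (hg : Supp g D)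
    (hh : Supp h D) (ng : ∑ b, dd G g b ^ 2 ≤ cE) (nh : ∑ b, dd G h b ^ 2 ≤ cE) :
    β ^ 2 * cav G β D η (fun σ => pk G i j k g h σ ^ 2) ≤
      12 * cE ^ 2 * cav G β D η fun _ => 1 := by
  have hZ : 0 ≤ cav G β D η fun _ => 1 := nonneg fun _ => zero_le_one
  have hb : ∀ (a : Fin n) (_ : a ≠ k) (u : V → ℝ), Supp u D → ∑ b, dd G u b ^ 2 ≤ cE →
      cav G β D η (fun σ => cur G a k (dd G u) σ ^ 4) ≤
        3 * cE ^ 2 / β ^ 2 * cav G β D η fun _ => 1 := by
    intro a ha u hu nu
    refine (grad_fourth hC hβ ha hu).trans (mul_le_mul_of_nonneg_right ?_ hZ)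
    gcongr
  set X := cur (n := n) G i k (dd G g)
  set Y := cur (n := n) G j k (dd G h)
  set X' := cur (n := n) G i k (dd G h)
  set Y' := cur (n := n) G j k (dd G g)
  have c : ∀ a A, Continuous fun σ : V → Spin n => cur G a k A σ ^ 4 := fun a A =>
    (continuous_cur a k A).pow 4
  have hpt : ∀ σ, pk G i j k g h σ ^ 2 ≤ (X σ ^ 4 + Y σ ^ 4) + (X' σ ^ 4 + Y' σ ^ 4) := by
    intro σ
    rw [pk_eq]
    nlinarith [sq_nonneg (X σ * Y σ + X' σ * Y' σ), sq_nonneg (X σ ^ 2 - Y σ ^ 2),
      sq_nonneg (X' σ ^ 2 - Y' σ ^ 2)]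
  have h1 := mono (G := G) (β := β) (D := D) (η := η) ((continuous_pk i j k g h).pow 2)
    (((c i _).fun_add (c j _)).fun_add ((c i _).fun_add (c j _))) hpt
  rw [add ((c i _).fun_add (c j _)) ((c i _).fun_add (c j _)), add (c i _) (c j _),
    add (c i _) (c j _)] at h1
  have h2 := hb i hik g hg ng
  have h3 := hb j hjk h hh nh
  have h4 := hb i hik h hh nh
  have h5 := hb j hjk g hg ng
  rw [← le_div_iff₀' (by positivity)]
  refine h1.trans (le_trans (add_le_add (add_le_add h2 h3) (add_le_add h4 h5)) (le_of_eq ?_))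
  ring

/-- The derivative of a current in the plane `(i,j)` by two potentials. -/
lemma hasRot_cur_twice (hij : i ≠ j) (hik : i ≠ k) (hjk : j ≠ k) (A : ι → ℝ) (g h : V → ℝ) :
    HasRot hjk h (fun σ => cur G j k (fun b => A b * mid G g b) σ -
        sym G j k (fun b => A b * dd G g b) σ / 2)
      (fun σ => -pen G j k (fun b => A b * mid G g b * dd G h b) σ -
        adiff G j k (fun b => A b * dd G g b * (2 * mid G h b)) σ / 2) := by
  have := ((hasRot_cur_same (G := G) hjk h fun b => A b * mid G g b).sub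
    ((hasRot_sym_same (G := G) hjk h fun b => A b * dd G g b).const_mul (1 / 2 : ℝ)))
  exact (this.congr_fun fun σ => by ring).congr_deriv fun σ => by ring

/-- The second moment of the current of the bond field of a packet. -/
lemma jw_sq (hC : CondStmt) (hβ : 0 < β) (hij : i ≠ j) (hik : i ≠ k) (hjk : j ≠ k) (hg : Supp g D)
    (hh : Supp h D) (ng : ∑ b, dd G g b ^ 2 ≤ cE) (nh : ∑ b, dd G h b ^ 2 ≤ cE)
    (nw : ∑ b, kw G g h b ^ 2 ≤ cE) :
    cav G β D η (fun σ => cur G i j (kw G g h) σ ^ 2) ≤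
      (12 * cE ^ 2 + 4 * cE / β) * cav G β D η fun _ => 1 := by
  set A := kw G g h with hA
  set P := fun σ : V → Spin n => -pen G j k (fun b => A b * mid G g b * dd G h b) σ -
    adiff G j k (fun b => A b * dd G g b * (2 * mid G h b)) σ / 2 with hP
  set Q := fun σ : V → Spin n => -pen G j k (fun b => A b * mid G h b * dd G g b) σ -
    adiff G j k (fun b => A b * dd G h b * (2 * mid G g b)) σ / 2 with hQ
  have w := packWard_stmt hC n V ι G β i j k hij hik hjk D η g h hg hh (cur G i j A) _ _ P Q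
    (hasRot_cur_left hij hik hjk g A) (hasRot_cur_left hij hik hjk h A)
    (hasRot_cur_twice hij hik hjk A g h) (hasRot_cur_twice hij hik hjk A h g)
  have hPQ : ∀ σ : V → Spin n, P σ - Q σ ≤ 2 * cE := by
    intro σ
    simp only [hP, hQ, pen, adiff, Finset.sum_div, ← Finset.sum_neg_distrib,
      ← Finset.sum_sub_distrib]
    refine le_trans (Finset.sum_le_sum fun b _ => ?_)
      (le_trans (le_of_eq (Finset.mul_sum Finset.univ (fun b => A b ^ 2) 2).symm)
        (mul_le_mul_of_nonneg_left nw zero_le_two))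
    have h1 := co_sq_add_sq_le (n := n) hjk (G.src b) σ
    have h2 := co_sq_add_sq_le (n := n) hjk (G.tgt b) σ
    have hle : co k (G.src b) σ * co k (G.tgt b) σ ≤ 1 := by
      nlinarith [sq_nonneg (co k (G.src b) σ - co k (G.tgt b) σ), sq_nonneg (co j (G.src b) σ),
        sq_nonneg (co j (G.tgt b) σ)]
    refine le_trans (le_of_eq ?_) (mul_le_of_le_one_right
      (show 0 ≤ 2 * A b ^ 2 by positivity) hle)
    simp only [hA, kw, dd, mid]
    ring
  set J := cur (n := n) G i j A with hJ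
  have hJc : Continuous J := continuous_cur i j A
  have hPc : Continuous P := by
    have := continuous_pen (G := G) (n := n) j k fun b => A b * mid G g b * dd G h b
    have := continuous_adiff (G := G) (n := n) j k fun b => A b * dd G g b * (2 * mid G h b)
    fun_prop
  have hQc : Continuous Q := by
    have := continuous_pen (G := G) (n := n) j k fun b => A b * mid G h b * dd G g b
    have := continuous_adiff (G := G) (n := n) j k fun b => A b * dd G h b * (2 * mid G g b)
    fun_prop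
  have hsub : cav G β D η P - cav G β D η Q ≤ 2 * cE * cav G β D η fun _ => 1 := by
    rw [← sub hPc hQc, ← const_mul]
    exact mono (hPc.sub hQc) (continuous_const.mul continuous_const) fun σ => by
      rw [mul_one]; exact hPQ σ
  have hO : Continuous fun σ => β * pk G i j k g h σ :=
    continuous_const.mul (continuous_pk i j k g h)
  have hcs := abs_mul_le (G := G) (β := β) (D := D) (η := η) hJc hO
  rw [show (fun σ => J σ * (β * pk G i j k g h σ)) = fun σ => β * (J σ * pk G i j k g h σ) by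
      funext σ; ring,
    show (fun σ => (β * pk G i j k g h σ) ^ 2) = fun σ => β ^ 2 * pk G i j k g h σ ^ 2 by
      funext σ; ring, const_mul, const_mul] at hcs
  have hcs' := mul_le_mul_of_nonneg_left (neg_le_of_abs_le hcs) hβ.le
  have h12 := mul_le_mul_of_nonneg_left (pk_sq (G := G) (η := η) hC hβ hik hjk hg hh ng nh) hβ.le
  rw [show (fun σ => J σ * cur G i j (kw G g h) σ) = fun σ => J σ ^ 2 by funext σ; ring] at w
  rw [show (12 * cE ^ 2 + 4 * cE / β) * cav G β D η (fun _ => 1) =
    ((12 * cE ^ 2 * β + 4 * cE) * cav G β D η fun _ => 1) / β by field_simp, le_div_iff₀ hβ]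
  nlinarith [hcs', h12, hsub, w]

theorem diag_stmt (hC : CondStmt) : DiagStmt := by
  intro n _ V ι _ _ G β hβ i j k hij hik hjk D η a f c₀ ha hf
  set Z := cav G β D η fun _ => 1
  have hZ : 0 ≤ Z := nonneg fun _ => zero_le_one
  set O := fun p => pk (n := n) G i j k (f.g p) (f.h p)
  set J := fun p => cur (n := n) G i j (kw G (f.g p) (f.h p))
  have hOc : ∀ p, Continuous (O p) := fun p => continuous_pk i j k _ _
  have hJc : ∀ p, Continuous (J p) := fun p => continuous_cur i j _
  have hgD : ∀ p, Supp (f.g p) D ∧ Supp (f.h p) D := fun p =>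
    ⟨fun x hx => (hf.supp p x fun hx' => hx (hf.sub p hx')).1,
      fun x hx => (hf.supp p x fun hx' => hx (hf.sub p hx')).2⟩
  set T := fun p q => β ^ 2 * cav G β D η (fun σ => O p σ * O q σ) -
    cav G β D η (fun σ => J p σ * J q σ) with hT
  have hfar : ∀ p q, ¬ f.Near G p q → T p q = 0 := by
    intro p q hn
    have hpq : ∀ u ∈ f.sp p, ∀ v ∈ f.sp q, ¬(u = v ∨ Adj G u v) := fun u hu v hv h =>
      hn ⟨u, hu, v, hv, h⟩
    have hqp : ∀ u ∈ f.sp q, ∀ v ∈ f.sp p, ¬(u = v ∨ Adj G u v) := by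
      rintro u hu v hv (rfl | ⟨b, hb⟩)
      · exact hpq u hv u hu (Or.inl rfl)
      · exact hpq v hv u hu (Or.inr ⟨b, hb.symm⟩)
    have sg := fun r x hx => (hf.supp r x hx).1
    have sh := fun r x hx => (hf.supp r x hx).2
    have dO : ∀ u : V → ℝ, (∀ x, x ∉ f.sp p → u x = 0) → ∀ (a c : Fin n) (hac : a ≠ c),
        HasRot hac u (O q) fun _ => 0 := by
      intro u hu a c hac
      refine hasRot_zero (hOc q) fun t σ => ?_
      have e : ∀ (r s : Fin n) (v : V → ℝ), (∀ x, x ∉ f.sp q → v x = 0) →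
          cur G r s (dd G v) (rot hac u t σ) = cur G r s (dd G v) σ := fun r s v hv =>
        cur_inv hac (fun b hb => far_zero hu hpq (mem_of_dd hv hb)) t σ
      simp only [O, pk_eq, e _ _ _ (sg q), e _ _ _ (sh q)]
    have dJ : ∀ u : V → ℝ, (∀ x, x ∉ f.sp q → u x = 0) → ∀ (a c : Fin n) (hac : a ≠ c),
        HasRot hac u (J p) fun _ => 0 := fun u hu a c hac =>
      hasRot_zero (hJc p) fun t σ =>
        cur_inv hac (fun b hb => far_zero hu hqp (mem_of_kw (sg p) (sh p) hb)) t σ
    have w1 := packWard_stmt hC n V ι G β i j k hij hik hjk D η (f.g p) (f.h p) (hgD p).1 (hgD p).2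
      (O q) _ _ (fun _ => 0) (fun _ => 0) (dO _ (sg p) i k hik) (dO _ (sh p) i k hik)
      (HasRot.const 0) (HasRot.const 0)
    have w2 := packWard_stmt hC n V ι G β i j k hij hik hjk D η (f.g q) (f.h q) (hgD q).1 (hgD q).2
      (J p) _ _ (fun _ => 0) (fun _ => 0) (dJ _ (sg q) i k hik) (dJ _ (sh q) i k hik)
      (HasRot.const 0) (HasRot.const 0)
    rw [zero, show (fun σ => O q σ * pk G i j k (f.g p) (f.h p) σ) = fun σ => O p σ * O q σ by
        funext σ; exact mul_comm _ _,
      show (fun σ => O q σ * cur G i j (kw G (f.g p) (f.h p)) σ) = fun σ => J p σ * O q σ by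
        funext σ; exact mul_comm _ _] at w1
    rw [zero] at w2
    change β ^ 2 * cav G β D η (fun σ => J p σ * O q σ) - 0 + 0 +
      β * cav G β D η (fun σ => J p σ * J q σ) = 0 at w2
    have h1 : β * (β * cav G β D η (fun σ => J p σ * O q σ) +
        cav G β D η (fun σ => J p σ * J q σ)) = 0 := by linear_combination w2
    have h2 := (mul_eq_zero.1 h1).resolve_left hβ.ne'
    simp only [hT]
    linear_combination w1 - h2
  have hK : ∀ p q, |T p q| ≤ (24 * cE ^ 2 + 4 * cE / β) * Z := by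
    intro p q
    have o : ∀ r, β ^ 2 * cav G β D η (fun σ => O r σ ^ 2) ≤ 12 * cE ^ 2 * Z := fun r =>
      pk_sq hC hβ hik hjk (hgD r).1 (hgD r).2 (hf.nrm_g r) (hf.nrm_h r)
    have w : ∀ r, cav G β D η (fun σ => J r σ ^ 2) ≤ (12 * cE ^ 2 + 4 * cE / β) * Z := fun r =>
      jw_sq hC hβ hij hik hjk (hgD r).1 (hgD r).2 (hf.nrm_g r) (hf.nrm_h r) (hf.nrm_w r)
    have h1 := mul_le_mul_of_nonneg_left
      (abs_mul_le (G := G) (β := β) (D := D) (η := η) (hOc p) (hOc q)) (sq_nonneg β)
    have h2 := abs_mul_le (G := G) (β := β) (D := D) (η := η) (hJc p) (hJc q)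
    refine (abs_sub _ _).trans ?_
    rw [abs_mul, abs_of_nonneg (sq_nonneg β)]
    nlinarith [o p, o q, w p, w q]
  have hc2 : ∀ p q, |f.c p * f.c q| ≤ c₀ ^ 2 := fun p q => by
    rw [abs_mul, pow_two]
    exact mul_le_mul (hf.coef p) (hf.coef q) (abs_nonneg _) ((abs_nonneg _).trans (hf.coef p))
  have hJa : ∀ σ : V → Spin n, cur G i j (dd G a) σ = ∑ p, f.c p * J p σ := by
    intro σ
    simp only [J, ← cur_smul, ← cur_sum]
    refine congrArg (fun A => cur G i j A σ) (funext fun b => ?_)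
    rw [← hf.bond b, Fam.kern]
    rfl
  have hmain : cav G β D η (fun σ => fX G β i j k f σ ^ 2) =
      cav G β D η (fun σ => cur G i j (dd G a) σ ^ 2) + ∑ p, ∑ q, f.c p * f.c q * T p q := by
    have e1 : (fun σ => fX G β i j k f σ ^ 2) =
        fun σ => β ^ 2 * ∑ p, ∑ q, f.c p * f.c q * (O p σ * O q σ) := by
      funext σ
      rw [fX, mul_pow, neg_sq, pow_two (∑ p, _), Finset.sum_mul_sum]
      exact congrArg _ (Finset.sum_congr rfl fun p _ => Finset.sum_congr rfl fun q _ => by
        simp only [O]; ring)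
    have e2 : (fun σ => cur G i j (dd G a) σ ^ 2) =
        fun σ => ∑ p, ∑ q, f.c p * f.c q * (J p σ * J q σ) := by
      funext σ
      rw [hJa, pow_two, Finset.sum_mul_sum]
      exact Finset.sum_congr rfl fun p _ => Finset.sum_congr rfl fun q _ => by ring
    have c1 : ∀ p q, Continuous fun σ => f.c p * f.c q * (O p σ * O q σ) := fun p q =>
      continuous_const.mul ((hOc p).mul (hOc q))
    have c2 : ∀ p q, Continuous fun σ => f.c p * f.c q * (J p σ * J q σ) := fun p q =>
      continuous_const.mul ((hJc p).mul (hJc q))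
    rw [e1, e2, const_mul, sum _ fun p _ => continuous_finsetSum _ fun q _ => c1 p q,
      sum _ fun p _ => continuous_finsetSum _ fun q _ => c2 p q, Finset.mul_sum,
      ← Finset.sum_add_distrib]
    refine Finset.sum_congr rfl fun p _ => ?_
    rw [sum _ fun q _ => c1 p q, sum _ fun q _ => c2 p q, Finset.mul_sum, ← Finset.sum_add_distrib]
    refine Finset.sum_congr rfl fun q _ => ?_
    simp only [hT, const_mul]
    ring
  set K := (24 * cE ^ 2 + 4 * cE / β) * Z
  have hE : (0 : ℝ) ≤ cE := cE_nonneg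
  have hK0 : 0 ≤ K := by positivity
  have hnear : ∑ p, ∑ q, f.c p * f.c q * T p q ≤ cE ^ 2 * K := by
    calc ∑ p, ∑ q, f.c p * f.c q * T p q
        ≤ ∑ p, ∑ q ∈ Finset.univ.filter (fun q => f.Near G p q), c₀ ^ 2 * K := by
          refine Finset.sum_le_sum fun p _ => ?_
          rw [← Finset.sum_filter_add_sum_filter_not Finset.univ (fun q => f.Near G p q),
            Finset.sum_eq_zero (s := Finset.univ.filter fun q => ¬ f.Near G p q) fun q hq => by
              rw [hfar p q (Finset.mem_filter.1 hq).2, mul_zero], add_zero]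
          refine Finset.sum_le_sum fun q _ => ?_
          refine (le_abs_self _).trans ?_
          rw [abs_mul]
          exact mul_le_mul (hc2 p q) (hK p q) (abs_nonneg _) (sq_nonneg _)
      _ ≤ ∑ p : f.idx, cE * (c₀ ^ 2 * K) := by
          refine Finset.sum_le_sum fun p _ => ?_
          rw [Finset.sum_const, nsmul_eq_mul]
          exact mul_le_mul_of_nonneg_right (hf.near p) (by positivity)
      _ = cE * ((Fintype.card f.idx : ℝ) * c₀ ^ 2) * K := by
          rw [Finset.sum_const, Finset.card_univ, nsmul_eq_mul]; ring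
      _ ≤ cE * cE * K := by gcongr; exact hf.card
      _ = cE ^ 2 * K := by ring
  rw [hmain]
  refine le_trans (add_le_add (grad_sq hC hβ hij ha) hnear) ?_
  have : 4 * cE / β ≤ 8 * cE / β := by gcongr; norm_num
  rw [show K = (24 * cE ^ 2 + 4 * cE / β) * Z from rfl]
  nlinarith [mul_le_mul_of_nonneg_left this (mul_nonneg (sq_nonneg cE) hZ)]

end Vale.Agent.P163.Gap.Pack
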