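import Vale.Agent.P163.Gap.Goal

/-!
From decay on spaces to free boxes and infinite-volume states.
-/

noncomputable section

namespace Vale.Agent.P163.Gap

open MeasureTheory Metric Helicity Filter
open scoped RealInnerProductSpace Classical

lemma en_ofBonds {n : ℕ} {V : Type} [Fintype V] (E : Finset (V × V)) (σ : V → Spin n) :
    en (ofBonds E) σ = bondSum E σ := by
  simp only [en, bondSum, ofBonds]
  exact Finset.sum_coe_sort E fun b => ⟪(σ b.1 : Euc n), (σ b.2 : Euc n)⟫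

/-- Decay of the quotient from decay of the integral. -/
lemma quot_le {n : ℕ} [NeZero n] {V : Type} [Fintype V] {β K : ℝ} {E : Finset (V × V)} (x y : V)
    (h : av (ofBonds E) β (fun σ : V → Spin n => ⟪(σ x : Euc n), (σ y : Euc n)⟫) ≤
      K * av (n := n) (ofBonds E) β fun _ => 1) :
    twoPoint n β E x y ≤ K := by
  simp only [av, en_ofBonds, one_mul] at h
  rw [twoPoint, div_le_iff₀ (by simpa [Ex] using Ex_one_pos (n := n) β E)]
  exact h

lemma siteDist_le (x y : ℤ × ℤ) : siteDist x y ≤ 2 * (nrmZ (y - x) : ℝ) := by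
  have h1 : |(x.1 : ℝ) - y.1| ≤ (nrmZ (y - x) : ℝ) := by
    have h : |x.1 - y.1| ≤ (nrmZ (y - x) : ℤ) := by
      simp only [nrmZ, Prod.fst_sub, Prod.snd_sub, abs_le]
      omega
    exact_mod_cast h
  have h2 : |(x.2 : ℝ) - y.2| ≤ (nrmZ (y - x) : ℝ) := by
    have h : |x.2 - y.2| ≤ (nrmZ (y - x) : ℤ) := by
      simp only [nrmZ, Prod.fst_sub, Prod.snd_sub, abs_le]
      omega
    exact_mod_cast h
  rw [siteDist, Real.sqrt_le_left (by positivity)]
  nlinarith [abs_nonneg ((x.1 : ℝ) - y.1), abs_nonneg ((x.2 : ℝ) - y.2),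
    sq_abs ((x.1 : ℝ) - y.1), sq_abs ((x.2 : ℝ) - y.2)]

lemma valMinAbs_of_small {a : ℕ} [NeZero a] {z : ℤ} (h : 2 * z.natAbs < a) :
    ((z : ZMod a)).valMinAbs = z :=
  (ZMod.valMinAbs_spec _ _).2 ⟨rfl, by simp only [Set.mem_Ioc]; omega⟩

/-- The goal follows from decay on spaces. -/
theorem final_stmt (hD : DecayStmt) (hS : SpacesStmt) : FinalGoal := by
  intro n _ hn β hβ
  obtain ⟨C, m, hC, hm, L, hdec⟩ := hD n hn β hβ
  have hexp : ∀ x y : ℤ × ℤ, C * Real.exp (-m * (nrmZ (y - x) : ℝ)) ≤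
      C * Real.exp (-(m / 2) * siteDist x y) := fun x y => by
    refine mul_le_mul_of_nonneg_left (Real.exp_le_exp.2 ?_) hC.le
    linarith [mul_le_mul_of_nonneg_left (siteDist_le x y) (half_pos hm).le]
  have hbox : ∀ (Λ : Finset (ℤ × ℤ)) (x y : ↥Λ),
      twoPoint n β (boxBonds Λ) x y ≤ C * Real.exp (-(m / 2) * siteDist x y) := fun Λ x y =>
    (quot_le x y (hdec _ _ _ _ (hS.1 Λ L) x y)).trans (hexp x y)
  refine ⟨C, m / 2, hC, half_pos hm, hbox, fun μ hμ x y => ?_⟩
  set F : (ℤ × ℤ → Spin n) → ℝ := fun σ => ⟪(σ x : Euc n), (σ y : Euc n)⟫ with hFdef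
  have hF : IsLocal F := by
    refine ⟨?_, {x, y}, fun σ τ h => ?_⟩
    · exact Continuous.inner (continuous_subtype_val.comp (continuous_apply x))
        (continuous_subtype_val.comp (continuous_apply y))
    · simp only [hFdef, h x (by simp), h y (by simp)]
  obtain ⟨-, ⟨Λ, hΛ, hlim⟩ | ⟨a, b, ha, hb, hlim⟩⟩ := hμ
  · refine le_of_tendsto (hlim F hF) ((hΛ {x, y}).mono fun k hk => ?_)
    have hx : x ∈ Λ k := hk (by simp)
    have hy : y ∈ Λ k := hk (by simp)
    have e : boxExpect n β (Λ k) F = twoPoint n β (boxBonds (Λ k)) ⟨x, hx⟩ ⟨y, hy⟩ := by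
      simp only [boxExpect, twoPoint, hFdef, boxExtend, dif_pos hx, dif_pos hy]
    rw [e]
    exact hbox _ _ _
  · refine le_of_tendsto (hlim F hF) ?_
    filter_upwards [ha.eventually_ge_atTop (2 * (L + 2) + 2 * nrmZ (y - x)),
      hb.eventually_ge_atTop (2 * (L + 2) + 2 * nrmZ (y - x))] with k hka hkb
    have hsp := hS.2 (a k + 1) (b k + 1) L (by omega) (by omega)
    set x' : ZMod (a k + 1) × ZMod (b k + 1) := ((x.1 : ZMod (a k + 1)), (x.2 : ZMod (b k + 1)))
      with hx'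
    set y' : ZMod (a k + 1) × ZMod (b k + 1) := ((y.1 : ZMod (a k + 1)), (y.2 : ZMod (b k + 1)))
      with hy'
    have hd : max (y' - x').1.valMinAbs.natAbs (y' - x').2.valMinAbs.natAbs = nrmZ (y - x) := by
      have h1 : (y - x).1.natAbs ≤ nrmZ (y - x) := le_max_left _ _
      have h2 : (y - x).2.natAbs ≤ nrmZ (y - x) := le_max_right _ _
      rw [show (y' - x').1 = (((y - x).1 : ℤ) : ZMod (a k + 1)) by simp [hx', hy'],
        show (y' - x').2 = (((y - x).2 : ℤ) : ZMod (b k + 1)) by simp [hx', hy'],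
        valMinAbs_of_small (by omega), valMinAbs_of_small (by omega)]
      rfl
    have e : torusExpect n β (a k + 1) (b k + 1) F =
        twoPoint n β (rectBonds (a k + 1) (b k + 1)) x' y' := rfl
    rw [e]
    refine (quot_le x' y' (hdec _ _ _ _ hsp x' y')).trans ((le_of_eq ?_).trans (hexp x y))
    rw [hd]

end Vale.Agent.P163.Gap
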