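import Vale.Agent.P163.Gap.Spec

/-!
The first moment of a representative of a current.
-/

noncomputable section

namespace Vale.Agent.P163.Gap

open MeasureTheory Metric Helicity
open scoped RealInnerProductSpace Classical

namespace Rep

variable {n : ℕ} {V ι : Type} [Fintype V] [Fintype ι] {G : Helicity.Graph V ι} {β : ℝ}
  {D : Set V} {η : V → Spin n}

omit [Fintype V] in
lemma continuous_glue' (D : Set V) (η : V → Spin n) : Continuous (glue D η) :=
  continuous_pi fun x => by
    unfold glue
    split_ifs
    · exact continuous_apply x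
    · exact continuous_const

lemma integrable_cav [NeZero n] {F : (V → Spin n) → ℝ} (hF : Continuous F) :
    Integrable (fun σ => F (glue D η σ) * Real.exp (β * en G (glue D η σ))) (freeLaw V n) := by
  have hg := continuous_glue' D η
  have he : Continuous (en (n := n) G) := continuous_en
  exact integ ((hF.comp hg).mul (Real.continuous_exp.comp (continuous_const.mul (he.comp hg))))

lemma cadd [NeZero n] {F K : (V → Spin n) → ℝ} (hF : Continuous F) (hK : Continuous K) :
    cav G β D η (fun σ => F σ + K σ) = cav G β D η F + cav G β D η K := by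
  simp only [cav, add_mul]
  exact integral_add (integrable_cav hF) (integrable_cav hK)

lemma csub [NeZero n] {F K : (V → Spin n) → ℝ} (hF : Continuous F) (hK : Continuous K) :
    cav G β D η (fun σ => F σ - K σ) = cav G β D η F - cav G β D η K := by
  simp only [cav, sub_mul]
  exact integral_sub (integrable_cav hF) (integrable_cav hK)

lemma csmul (c : ℝ) (F : (V → Spin n) → ℝ) :
    cav G β D η (fun σ => c * F σ) = c * cav G β D η F := by
  simp only [cav, mul_assoc, integral_const_mul]

lemma csum [NeZero n] {κ : Type} (s : Finset κ) {f : κ → (V → Spin n) → ℝ}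
    (hf : ∀ k ∈ s, Continuous (f k)) :
    cav G β D η (fun σ => ∑ k ∈ s, f k σ) = ∑ k ∈ s, cav G β D η (f k) := by
  simp only [cav, Finset.sum_mul]
  exact integral_finsetSum _ fun k hk => integrable_cav (hf k hk)

lemma continuous_cur' (i j : Fin n) (A : ι → ℝ) : Continuous (cur (n := n) G i j A) := by
  have h := fun (a : Fin n) (x : V) => Helicity.continuous_co (n := n) a x
  unfold cur; fun_prop

lemma continuous_pk (i j k : Fin n) (g h : V → ℝ) : Continuous (pk (n := n) G i j k g h) := by
  have h := fun a c A => continuous_cur' (G := G) (n := n) a c A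
  unfold pk; fun_prop

omit [Fintype V] [Fintype ι] in
lemma kern_swap (f : Fam V) (u v : V) : f.kern u v = -f.kern v u := by
  simp only [Fam.kern, ← Finset.sum_neg_distrib]
  exact Finset.sum_congr rfl fun p _ => by ring

omit [Fintype V] in
lemma cur_kern (f : Fam V) (i j : Fin n) (σ : V → Spin n) :
    cur G i j (fun b => f.kern (G.src b) (G.tgt b)) σ =
      ∑ p, f.c p * cur G i j (kw G (f.g p) (f.h p)) σ := by
  simp only [cur, Fam.kern, kw, Finset.sum_mul, Finset.mul_sum]
  rw [Finset.sum_comm]
  exact Finset.sum_congr rfl fun p _ => Finset.sum_congr rfl fun b _ => by ring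

/-- A representative against an observable. -/
lemma rep_identity [NeZero n] (hP : PackWardStmt) {i j k : Fin n} (hij : i ≠ j)
    (hik : i ≠ k) (hjk : j ≠ k) (f : Fam V) (hD : ∀ p, Supp (f.g p) D ∧ Supp (f.h p) D)
    {K : (V → Spin n) → ℝ} {Kg Kh Kgh Khg : f.idx → (V → Spin n) → ℝ}
    (hg : ∀ p, HasRot hik (f.g p) K (Kg p)) (hh : ∀ p, HasRot hik (f.h p) K (Kh p))
    (hgh : ∀ p, HasRot hjk (f.h p) (Kg p) (Kgh p))
    (hhg : ∀ p, HasRot hjk (f.g p) (Kh p) (Khg p)) (hK : Continuous K) :
    β * cav G β D η (fun σ => K σ * fX G β i j k f σ) =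
      β * cav G β D η (fun σ => K σ * cur G i j (fun b => f.kern (G.src b) (G.tgt b)) σ) -
        cav G β D η fun σ => ∑ p, f.c p * (Kgh p σ - Khg p σ) := by
  have cpk : ∀ p, Continuous fun σ => K σ * pk G i j k (f.g p) (f.h p) σ :=
    fun p => hK.mul (continuous_pk (G := G) i j k (f.g p) (f.h p))
  have ckw : ∀ p, Continuous fun σ => K σ * cur G i j (kw G (f.g p) (f.h p)) σ :=
    fun p => hK.mul (continuous_cur' (G := G) i j (kw G (f.g p) (f.h p)))
  have e1 : (fun σ => K σ * fX G β i j k f σ) =
      fun σ => ∑ p, -(β * f.c p) * (K σ * pk G i j k (f.g p) (f.h p) σ) := by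
    funext σ
    simp only [fX, Finset.mul_sum]
    exact Finset.sum_congr rfl fun p _ => by ring
  have e2 : (fun σ => K σ * cur G i j (fun b => f.kern (G.src b) (G.tgt b)) σ) =
      fun σ => ∑ p, f.c p * (K σ * cur G i j (kw G (f.g p) (f.h p)) σ) := by
    funext σ
    simp only [cur_kern, Finset.mul_sum]
    exact Finset.sum_congr rfl fun p _ => by ring
  rw [e1, e2, csum _ (fun p _ => (cpk p).const_mul _), csum _ (fun p _ => (ckw p).const_mul _),
    csum _ (fun p _ => ((hgh p).cont'.fun_sub (hhg p).cont').const_mul _), Finset.mul_sum,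
    Finset.mul_sum, ← Finset.sum_sub_distrib]
  refine Finset.sum_congr rfl fun p _ => ?_
  have w := hP n V ι G β i j k hij hik hjk D η (f.g p) (f.h p) (hD p).1 (hD p).2 K (Kg p) (Kh p)
    (Kgh p) (Khg p) (hg p) (hh p) (hgh p) (hhg p)
  rw [csmul, csmul, csmul, csub (hgh p).cont' (hhg p).cont']
  linear_combination (-f.c p) * w

end Rep

/-- The first moment of a representative. -/
theorem mean_stmt (hP : PackWardStmt) : MeanStmt := by
  intro n _ V ι _ _ G β hβ i j k hij hik hjk D η f hD
  have h := Rep.rep_identity (η := η) (G := G) (β := β) hP hij hik hjk f hD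
    (K := fun _ => (1 : ℝ)) (Kg := fun _ _ => 0) (Kh := fun _ _ => 0) (Kgh := fun _ _ => 0)
    (Khg := fun _ _ => 0) (fun p => HasRot.const 1) (fun p => HasRot.const 1)
    (fun p => HasRot.const 0) (fun p => HasRot.const 0) continuous_const
  simp only [one_mul, sub_self, mul_zero, Finset.sum_const_zero] at h
  have h0 : cav G β D η (fun _ : V → Spin n => (0 : ℝ)) = 0 := by simp [cav]
  rw [h0, sub_zero] at h
  exact mul_left_cancel₀ hβ.ne' h

end Vale.Agent.P163.Gap
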