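import Vale.Agent.P163.Gap.Spec
import Vale.Agent.P163.Helicity.Algebra

/-!
The double Ward identity of a packet with frozen boundary spins.
-/

noncomputable section

namespace Vale.Agent.P163.Gap.Pack

open MeasureTheory Metric Helicity
open scoped Classical

variable {n : ℕ} [NeZero n] {V ι : Type} [Fintype V] [Fintype ι] {G : Helicity.Graph V ι} {β : ℝ}
  {D : Set V} {η : V → Spin n}

omit [NeZero n] [Fintype V] in
lemma continuous_glue (D : Set V) (η : V → Spin n) : Continuous (glue D η) := by
  refine continuous_pi fun x => ?_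
  simp only [glue]
  split_ifs
  · exact continuous_apply x
  · exact continuous_const

lemma integrable {F : (V → Spin n) → ℝ} (hF : Continuous F) :
    Integrable (fun σ => F (glue D η σ) * Real.exp (β * en G (glue D η σ))) (freeLaw V n) := by
  have h : Continuous fun τ : V → Spin n => F τ * Real.exp (β * en G τ) := by fun_prop
  exact integ (h.comp (continuous_glue D η))

lemma add {F K : (V → Spin n) → ℝ} (hF : Continuous F) (hK : Continuous K) :
    cav G β D η (fun σ => F σ + K σ) = cav G β D η F + cav G β D η K := by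
  simp only [cav, add_mul]
  exact integral_add (integrable hF) (integrable hK)

lemma sub {F K : (V → Spin n) → ℝ} (hF : Continuous F) (hK : Continuous K) :
    cav G β D η (fun σ => F σ - K σ) = cav G β D η F - cav G β D η K := by
  simp only [cav, sub_mul]
  exact integral_sub (integrable hF) (integrable hK)

omit [NeZero n] in
lemma const_mul (c : ℝ) (F : (V → Spin n) → ℝ) :
    cav G β D η (fun σ => c * F σ) = c * cav G β D η F := by
  simp only [cav, mul_assoc, integral_const_mul]

omit [NeZero n] in
lemma neg (F : (V → Spin n) → ℝ) : cav G β D η (fun σ => -F σ) = -cav G β D η F := by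
  simp only [cav, neg_mul, integral_neg]

omit [NeZero n] in
lemma zero : cav G β D η (fun _ => (0 : ℝ)) = 0 := by simp [cav]

lemma sum {κ : Type*} (s : Finset κ) {f : κ → (V → Spin n) → ℝ}
    (hf : ∀ k ∈ s, Continuous (f k)) :
    cav G β D η (fun σ => ∑ k ∈ s, f k σ) = ∑ k ∈ s, cav G β D η (f k) := by
  simp only [cav, Finset.sum_mul]
  exact integral_finsetSum _ fun k hk => integrable (hf k hk)

lemma mono {F K : (V → Spin n) → ℝ} (hF : Continuous F) (hK : Continuous K)
    (h : ∀ σ, F σ ≤ K σ) : cav G β D η F ≤ cav G β D η K :=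
  integral_mono (integrable hF) (integrable hK) fun σ =>
    mul_le_mul_of_nonneg_right (h _) (Real.exp_pos _).le

omit [NeZero n] in
lemma nonneg {F : (V → Spin n) → ℝ} (h : ∀ σ, 0 ≤ F σ) : 0 ≤ cav G β D η F :=
  integral_nonneg fun σ => mul_nonneg (h _) (Real.exp_pos _).le

/-- The Ward identity with frozen spins outside `D`. -/
lemma ward (hC : CondStmt) {i j : Fin n} {h : i ≠ j} {g : V → ℝ} {F F' : (V → Spin n) → ℝ}
    (hs : Supp g D) (hF : HasRot h g F F') :
    cav G β D η F' + β * cav G β D η (fun σ => F σ * cur G i j (dd G g) σ) = 0 :=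
  (hC n V ι G β).1 i j h g D η F F' hs hF

omit [NeZero n] [Fintype V] in
lemma pk_eq (i j k : Fin n) (g h : V → ℝ) (σ : V → Spin n) :
    pk G i j k g h σ = cur G i k (dd G g) σ * cur G j k (dd G h) σ -
      cur G i k (dd G h) σ * cur G j k (dd G g) σ := rfl

omit [NeZero n] in
lemma continuous_pk (i j k : Fin n) (g h : V → ℝ) : Continuous (pk (n := n) G i j k g h) := by
  have hc := fun a c A => continuous_cur (G := G) (n := n) a c A
  unfold pk; fun_prop

variable {i j k : Fin n}

/-- Two Ward steps for one ordered pair of potentials. -/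
lemma two_steps (hC : CondStmt) (hij : i ≠ j) (hik : i ≠ k) (hjk : j ≠ k) {g h : V → ℝ}
    (hg : Supp g D) (hh : Supp h D) {F Fg Fgh : (V → Spin n) → ℝ}
    (hF : HasRot hik g F Fg) (hFg : HasRot hjk h Fg Fgh) :
    β ^ 2 * cav G β D η (fun σ => F σ * (cur G i k (dd G g) σ * cur G j k (dd G h) σ)) =
      cav G β D η Fgh + β * cav G β D η (fun σ => F σ * cur G i j (fun b => dd G h b * mid G g b) σ) +
        β / 2 * cav G β D η (fun σ => F σ * sym G i j (fun b => dd G h b * dd G g b) σ) := by
  have w := ward (G := G) (β := β) (η := η) hC hg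
    (hF.mul (hasRot_cur_right (G := G) hij hik hjk g (dd G h)))
  have w2 := ward (G := G) (β := β) (η := η) hC hh hFg
  have c1 : Continuous fun σ => Fg σ * cur G j k (dd G h) σ := hF.cont'.mul (continuous_cur j k _)
  have c2 : Continuous fun σ => F σ * cur G i j (fun b => dd G h b * mid G g b) σ :=
    hF.cont.mul (continuous_cur i j _)
  have c3 : Continuous fun σ =>
      (1 / 2 : ℝ) * (F σ * sym G i j (fun b => dd G h b * dd G g b) σ) :=
    continuous_const.mul (hF.cont.mul (continuous_sym i j _))
  rw [show (fun σ => Fg σ * cur G j k (dd G h) σ + F σ *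
      (-cur G i j (fun b => dd G h b * mid G g b) σ - sym G i j (fun b => dd G h b * dd G g b) σ / 2)) =
      fun σ => Fg σ * cur G j k (dd G h) σ - (F σ * cur G i j (fun b => dd G h b * mid G g b) σ +
        (1 / 2) * (F σ * sym G i j (fun b => dd G h b * dd G g b) σ)) by funext σ; ring,
    sub c1 (c2.fun_add c3), add c2 c3, const_mul,
    show (fun σ => F σ * cur G j k (dd G h) σ * cur G i k (dd G g) σ) =
      fun σ => F σ * (cur G i k (dd G g) σ * cur G j k (dd G h) σ) by funext σ; ring] at w
  linear_combination β * w - w2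

theorem packWard_stmt (hC : CondStmt) : PackWardStmt := by
  intro n _ V ι _ _ G β i j k hij hik hjk D η g h hg hh F Fg Fh Fgh Fhg hFg hFh hFgh hFhg
  have k1 := two_steps (G := G) (β := β) (η := η) hC hij hik hjk hg hh hFg hFgh
  have k2 := two_steps (G := G) (β := β) (η := η) hC hij hik hjk hh hg hFh hFhg
  rw [show (fun b => dd G g b * dd G h b) = fun b => dd G h b * dd G g b from
    funext fun b => mul_comm _ _] at k2
  have c4 : ∀ A B, Continuous fun σ => F σ * (cur G i k A σ * cur G j k B σ) := fun A B =>
    hFg.cont.mul ((continuous_cur i k A).mul (continuous_cur j k B))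
  have c2 : ∀ A, Continuous fun σ => F σ * cur G i j A σ := fun A =>
    hFg.cont.mul (continuous_cur i j A)
  have e : kw G g h = fun b => dd G g b * mid G h b - dd G h b * mid G g b := by
    funext b; simp only [kw, dd, mid]; ring
  rw [show (fun σ => F σ * pk G i j k g h σ) = fun σ =>
      F σ * (cur G i k (dd G g) σ * cur G j k (dd G h) σ) -
        F σ * (cur G i k (dd G h) σ * cur G j k (dd G g) σ) by funext σ; rw [pk_eq]; ring,
    show (fun σ => F σ * cur G i j (kw G g h) σ) = fun σ =>
      F σ * cur G i j (fun b => dd G g b * mid G h b) σ -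
        F σ * cur G i j (fun b => dd G h b * mid G g b) σ by funext σ; rw [e, cur_sub, mul_sub],
    sub (c4 _ _) (c4 _ _), sub (c2 _) (c2 _)]
  linear_combination k1 - k2

end Vale.Agent.P163.Gap.Pack
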