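import Vale.Agent.P163.Gap.Ball

/-!
Signs at separated pairs of sites factorise up to the one-point bound.
-/

noncomputable section

namespace Vale.Agent.P163.Gap

open MeasureTheory Metric Helicity
open scoped RealInnerProductSpace Classical

variable {n : ℕ} {V : Type}

lemma measurable_sgnPairs [Fintype V] (i : Fin n) :
    ∀ l : List (V × V), Measurable (sgnPairs (n := n) i l)
  | [] => measurable_const (a := (1 : ℝ))
  | p :: l => by
      have h := measurable_sgnPairs i l
      exact ((measurable_sgnCo i p.1).mul (measurable_sgnCo i p.2)).mul h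

lemma abs_sgnPairs_le (i : Fin n) : ∀ (l : List (V × V)) σ, |sgnPairs i l σ| ≤ 1
  | [], _ => by simp [sgnPairs]
  | p :: l, σ => by
      have h := abs_sgnPairs_le i l σ
      simp only [sgnPairs, List.map_cons, List.prod_cons] at h ⊢
      rw [abs_mul, abs_mul]
      exact mul_le_one₀ (mul_le_one₀ (abs_sgnCo_le i _ σ) (abs_nonneg _) (abs_sgnCo_le i _ σ))
        (abs_nonneg _) h

lemma loc_sgnPairs (i : Fin n) : ∀ (l : List (V × V)),
    Loc {u | ∃ p ∈ l, u = p.1 ∨ u = p.2} (sgnPairs i l)
  | [] => fun _ _ _ => rfl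
  | p :: l => fun σ τ h => by
      have := loc_sgnPairs i l σ τ fun u ⟨q, hq, hu⟩ => h u ⟨q, List.mem_cons_of_mem _ hq, hu⟩
      simp only [sgnPairs, List.map_cons, List.prod_cons] at this ⊢
      rw [this, loc_sgnCo i p.1 σ τ fun u hu => h u ⟨p, List.mem_cons_self, Or.inl hu⟩,
        loc_sgnCo i p.2 σ τ fun u hu => h u ⟨p, List.mem_cons_self, Or.inr hu⟩]

theorem peel_stmt (hC : CondStmt) : PeelStmt := by
  intro n _ V ι _ _ G β i d ρ q hρ h0 hsymm htri hbond hq
  obtain ⟨-, tower, -, huniv, hloc, -, hobs⟩ := hC n V ι G β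
  set η : V → Spin n := fun _ => spinOne n
  suffices H : ∀ (l : List (V × V)), Separated d ρ l → ∀ (M : ℝ) (K : (V → Spin n) → ℝ),
      Obs M K → (∀ p ∈ l, Loc {u | d p.1 u < ρ}ᶜ K) →
        |cav G β Set.univ η (fun σ => K σ * sgnPairs i l σ)| ≤
          M * q ^ l.length * cav G β Set.univ η fun _ => 1 by
    intro l hl
    have := H l hl 1 (fun _ => 1) ⟨measurable_const, fun _ => by simp⟩ fun _ _ _ _ _ => rfl
    simp only [one_mul] at this
    rwa [huniv, huniv] at this
  intro l
  induction l with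
  | nil =>
    intro _ M K hK _
    simp only [sgnPairs, List.map_nil, List.prod_nil, mul_one, List.length_nil, pow_zero]
    rw [huniv, huniv]
    unfold av
    rw [← integral_const_mul, ← Real.norm_eq_abs]
    refine norm_integral_le_of_norm_le ((integrable_av (G := G) continuous_const).const_mul M)
      (Filter.Eventually.of_forall fun σ => ?_)
    rw [Real.norm_eq_abs, abs_mul, Real.abs_exp, one_mul]
    exact mul_le_mul_of_nonneg_right (hK.2 σ) (Real.exp_pos _).le
  | cons p l ih =>
    intro hsep M K hK hKloc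
    obtain ⟨⟨hp, hl'⟩, hlen⟩ := And.intro (List.pairwise_cons.1 hsep.1) hsep.2
    set D : Set V := {u | d p.1 u < ρ} with hDdef
    have hself : p.1 ∈ D := by simp only [hDdef, Set.mem_ofPred_eq, h0]; omega
    have hp2 : p.2 ∉ D := fun (hh : d p.1 p.2 < ρ) =>
      absurd (hlen p List.mem_cons_self) (by omega)
    set K' : (V → Spin n) → ℝ := fun σ => K σ * sgnCo i p.2 σ * sgnPairs i l σ
    have hM : 0 ≤ M := (abs_nonneg _).trans (hK.2 η)
    have hK' : Obs M K' := by
      refine ⟨(hK.1.mul (measurable_sgnCo i _)).mul (measurable_sgnPairs i l), fun σ => ?_⟩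
      simp only [K', abs_mul]
      exact (mul_le_of_le_one_right (by positivity) (abs_sgnPairs_le i l σ)).trans
        ((mul_le_of_le_one_right (abs_nonneg _) (abs_sgnCo_le i _ σ)).trans (hK.2 σ))
    have hK'loc : Loc Dᶜ K' := fun σ τ h => by
      simp only [K']
      rw [hKloc p List.mem_cons_self σ τ h, loc_sgnCo i p.2 σ τ (fun u hu => h u (by
          rw [Set.mem_singleton_iff] at hu; subst hu; exact hp2)),
        loc_sgnPairs i l σ τ (fun u ⟨r, hr, hu⟩ => h u (by
          intro (hh : d p.1 u < ρ)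
          obtain ⟨h1, h2, -⟩ := hp r hr
          rcases hu with rfl | rfl <;> omega))]
    have e := tower D Set.univ η 1 M (sgnCo i p.1) K' (Set.subset_univ _) (obs_sgnCo i _) hK' hK'loc
    have efun : (fun σ => K σ * sgnPairs i (p :: l) σ) = fun σ => K' σ * sgnCo i p.1 σ := by
      funext σ; simp only [K', sgnPairs, List.map_cons, List.prod_cons]; ring
    rw [efun, e]
    set g := cexp G β D (sgnCo i p.1)
    have hg : Obs q g := ⟨(hobs D 1 _ (obs_sgnCo i _)).1, fun σ => hq p.1 σ⟩
    have hq0 : 0 ≤ q := (abs_nonneg _).trans (hg.2 η)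
    set K'' : (V → Spin n) → ℝ := fun σ => K σ * (sgnCo i p.2 σ * g σ)
    have hK'' : Obs (M * q) K'' := by
      refine ⟨hK.1.mul ((measurable_sgnCo i _).mul hg.1), fun σ => ?_⟩
      simp only [K'', abs_mul]
      refine mul_le_mul (hK.2 σ) ?_ (by positivity) hM
      exact (mul_le_mul (abs_sgnCo_le i _ σ) (hg.2 σ) (abs_nonneg _) zero_le_one).trans (by simp)
    have hloc'' : ∀ r ∈ l, Loc {u | d r.1 u < ρ}ᶜ K'' := fun r hr σ τ h => by
      obtain ⟨h1, -, h3⟩ := hp r hr
      simp only [K'']
      rw [hKloc r (List.mem_cons_of_mem _ hr) σ τ h, loc_sgnCo i p.2 σ τ (fun u hu => h u (by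
          rw [Set.mem_singleton_iff] at hu; subst hu
          intro (hh : d r.1 p.2 < ρ); omega)),
        show g σ = g τ from hloc D {p.1} _ (by simpa using hself) (loc_sgnCo i p.1) σ τ ?_]
      rintro u ⟨-, v, hv, b, hb⟩
      refine h u fun (hh : d r.1 u < ρ) => ?_
      have hv' : d p.1 v < ρ := hv
      have huv : d v u ≤ 1 := by
        rcases hb with ⟨rfl, rfl⟩ | ⟨rfl, rfl⟩
        · rw [hsymm]; exact hbond b
        · exact hbond b
      have := htri p.1 v u
      have := htri p.1 u r.1
      have := hsymm r.1 u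
      omega
    have e2 : (fun σ => K' σ * g σ) = fun σ => K'' σ * sgnPairs i l σ := by
      funext σ; simp only [K', K'']; ring
    rw [e2]
    refine (ih ⟨hl', fun r hr => hlen r (List.mem_cons_of_mem _ hr)⟩ (M * q) K'' hK'' hloc'').trans
      (le_of_eq ?_)
    rw [List.length_cons, pow_succ]
    ring

end Vale.Agent.P163.Gap
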