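import Vale.Agent.P163.Gap.Spec

/-!
The sign representation: given the moduli, the signs of one component are a ferromagnetic Ising
model, whose bond expansion has only nonnegative terms.
-/

noncomputable section

namespace Vale.Agent.P163.Gap

open MeasureTheory Metric Helicity
open scoped RealInnerProductSpace Classical

namespace SignRep

variable {n : ℕ} {V ι : Type} [Fintype V] [Fintype ι]

/-- The sign carried by a reflect. -/
def chi (b : Bool) : ℝ := if b then -1 else 1

lemma chi_xor (a b : Bool) : chi (xor a b) = chi a * chi b := by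
  cases a <;> cases b <;> simp [chi]

/-- Reflection of one coordinate. -/
def flipEquiv (i : Fin n) (b : Bool) : Euc n ≃ₗᵢ[ℝ] Euc n :=
  LinearIsometryEquiv.piLpCongrRight 2 fun a =>
    if a = i ∧ b = true then LinearIsometryEquiv.neg ℝ else LinearIsometryEquiv.refl ℝ ℝ

lemma flipEquiv_apply (i : Fin n) (b : Bool) (v : Euc n) (a : Fin n) :
    flipEquiv i b v a = (if a = i then chi b else 1) * v a := by
  cases b <;> by_cases h : a = i <;> simp [flipEquiv, chi, h]

/-- Reflection of one coordinate at the marked sites. -/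
def reflect (i : Fin n) (ε : V → Bool) (σ : V → Spin n) : V → Spin n :=
  fun x => sphereMap (flipEquiv i (ε x)) (σ x)

omit [Fintype V] in
lemma co_flip (i : Fin n) (ε : V → Bool) (σ : V → Spin n) (a : Fin n) (x : V) :
    co a x (reflect i ε σ) = (if a = i then chi (ε x) else 1) * co a x σ :=
  flipEquiv_apply i (ε x) _ a

omit [Fintype V] in
lemma reflect_reflect (i : Fin n) (ε ε' : V → Bool) (σ : V → Spin n) :
    reflect i ε (reflect i ε' σ) = reflect i (fun x => xor (ε x) (ε' x)) σ := by
  funext x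
  apply Subtype.ext
  ext a
  show co a x (reflect i ε (reflect i ε' σ)) = co a x (reflect i _ σ)
  rw [co_flip, co_flip, co_flip, chi_xor]
  split_ifs <;> ring

lemma map_flip [NeZero n] (i : Fin n) (ε : V → Bool) :
    (freeLaw V n).map (reflect i ε) = freeLaw V n :=
  (measurePreserving_pi _ _ fun _ =>
    ⟨(continuous_sphereMap _).measurable, map_sphereUnif _⟩).map_eq

omit [Fintype V] in
lemma continuous_flip (i : Fin n) (ε : V → Bool) : Continuous (reflect (n := n) i ε) :=
  continuous_pi fun x => (continuous_sphereMap _).comp (continuous_apply x)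

lemma sign_chi_mul (b : Bool) (r : ℝ) : Real.sign (chi b * r) = chi b * Real.sign r := by
  cases b <;> simp [chi, Real.sign_neg]

lemma sign_nonneg {r : ℝ} (h : 0 ≤ r) : 0 ≤ Real.sign r := by
  rcases h.eq_or_lt with h | h
  · simp [← h]
  · simp [Real.sign_of_pos h]

lemma abs_sign_le (r : ℝ) : |Real.sign r| ≤ 1 := by
  rcases Real.sign_apply_eq r with h | h | h <;> simp [h]

lemma measurable_sgnCo (i : Fin n) (x : V) : Measurable (sgnCo i x : (V → Spin n) → ℝ) := by
  have h : Measurable Real.sign := by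
    unfold Real.sign
    exact Measurable.ite measurableSet_Iio measurable_const
      (Measurable.ite measurableSet_Ioi measurable_const measurable_const)
  exact h.comp (continuous_co i x).measurable

lemma measurable_sgnPairs (i : Fin n) (l : List (V × V)) :
    Measurable (sgnPairs i l : (V → Spin n) → ℝ) := by
  induction l with
  | nil => exact measurable_const
  | cons p l ih =>
    exact ((measurable_sgnCo i p.1).mul (measurable_sgnCo i p.2)).mul ih

omit [Fintype V] in
lemma abs_sgnPairs_le (i : Fin n) (l : List (V × V)) (σ : V → Spin n) :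
    |sgnPairs i l σ| ≤ 1 := by
  induction l with
  | nil => simp [sgnPairs]
  | cons p l ih =>
    simp only [sgnPairs, List.map_cons, List.prod_cons, abs_mul] at ih ⊢
    exact mul_le_one₀ (mul_le_one₀ (abs_sign_le _) (abs_nonneg _) (abs_sign_le _)) (abs_nonneg _) ih

omit [Fintype V] in
lemma abs_co_le (i : Fin n) (x : V) (σ : V → Spin n) : |co i x σ| ≤ 1 := by
  have h := PiLp.norm_apply_le (σ x : Euc n) i
  rwa [norm_eq_of_mem_sphere, Real.norm_eq_abs] at h

/-- The character of a list of pairs. -/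
def pairChi (l : List (V × V)) (ε : V → Bool) : ℝ :=
  (l.map fun p => chi (ε p.1) * chi (ε p.2)).prod

omit [Fintype V] in
lemma sgnPairs_flip (i : Fin n) (l : List (V × V)) (ε : V → Bool) (σ : V → Spin n) :
    sgnPairs i l (reflect i ε σ) = pairChi l ε * sgnPairs i l σ := by
  induction l with
  | nil => simp [sgnPairs, pairChi]
  | cons p l ih =>
    simp only [sgnPairs, pairChi] at ih ⊢
    simp only [List.map_cons, List.prod_cons]
    rw [ih]
    simp only [sgnCo, co_flip, if_pos, sign_chi_mul]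
    ring

omit [Fintype V] in
lemma sgnPairs_nonneg (i : Fin n) (l : List (V × V)) {σ : V → Spin n}
    (h : ∀ x, 0 ≤ co i x σ) : 0 ≤ sgnPairs i l σ :=
  List.prod_nonneg fun a ha => by
    obtain ⟨p, _, rfl⟩ := List.mem_map.1 ha
    exact mul_nonneg (sign_nonneg (h _)) (sign_nonneg (h _))

omit [Fintype V] in
lemma pairChi_xor (l : List (V × V)) (a b : V → Bool) :
    pairChi l (fun x => xor (a x) (b x)) = pairChi l a * pairChi l b := by
  induction l with
  | nil => simp [pairChi]
  | cons p l ih =>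
    simp only [pairChi, List.map_cons, List.prod_cons, chi_xor] at ih ⊢
    rw [ih]; ring

omit [Fintype V] in
lemma pairChi_cases (l : List (V × V)) (a : V → Bool) :
    pairChi l a = 1 ∨ pairChi l a = -1 := by
  induction l with
  | nil => simp [pairChi]
  | cons p l ih =>
    simp only [pairChi, List.map_cons, List.prod_cons] at ih ⊢
    rcases ih with h | h <;> rw [h] <;> cases a p.1 <;> cases a p.2 <;> simp [chi]

omit [Fintype V] in
/-- A sum of a character over a group of flips vanishes if the character is not trivial. -/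
lemma sum_char_eq_zero (S : Finset (V → Bool)) (f : (V → Bool) → ℝ) {e : V → Bool}
    (hS : ∀ a ∈ S, (fun x => xor (e x) (a x)) ∈ S)
    (hf : ∀ a, f (fun x => xor (e x) (a x)) = -f a) : ∑ a ∈ S, f a = 0 := by
  have h : ∑ a ∈ S, f a = ∑ a ∈ S, -f a :=
    Finset.sum_nbij' (fun a x => xor (e x) (a x)) (fun a x => xor (e x) (a x)) hS hS
      (fun a _ => by funext x; dsimp only; cases e x <;> cases a x <;> rfl)
      (fun a _ => by funext x; dsimp only; cases e x <;> cases a x <;> rfl)
      fun a _ => by rw [hf, neg_neg]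
  rw [Finset.sum_neg_distrib] at h
  linarith

variable (G : Helicity.Graph V ι)

/-- Flips constant along the chosen bonds. -/
def compat (ω : Finset ι) : Finset (V → Bool) :=
  Finset.univ.filter fun ε => ∀ b ∈ ω, ε (G.src b) = ε (G.tgt b)

lemma mem_compat {ω : Finset ι} {ε : V → Bool} :
    ε ∈ compat G ω ↔ ∀ b ∈ ω, ε (G.src b) = ε (G.tgt b) := by
  simp [compat]

lemma xor_mem_compat {ω : Finset ι} {a b : V → Bool} (ha : a ∈ compat G ω) (hb : b ∈ compat G ω) :
    (fun x => xor (a x) (b x)) ∈ compat G ω := by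
  rw [mem_compat] at ha hb ⊢
  exact fun c hc => by simp only [ha c hc, hb c hc]

lemma sum_pairChi_nonneg (ω : Finset ι) (l : List (V × V)) :
    0 ≤ ∑ ε ∈ compat G ω, pairChi l ε := by
  by_cases h : ∃ e ∈ compat G ω, pairChi l e = -1
  · obtain ⟨e, he, he1⟩ := h
    rw [sum_char_eq_zero _ _ (fun a ha => xor_mem_compat G he ha)
      fun a => by rw [pairChi_xor, he1]; ring]
  · exact Finset.sum_nonneg fun ε hε => by
      rcases pairChi_cases l ε with h1 | h1
      · rw [h1]; exact zero_le_one
      · exact absurd ⟨ε, hε, h1⟩ h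

/-- Joined by a chosen bond. -/
def Link (ω : Finset ι) (u v : V) : Prop :=
  ∃ b ∈ ω, (G.src b = u ∧ G.tgt b = v) ∨ (G.src b = v ∧ G.tgt b = u)

lemma chain_props {ω : Finset ι} {r : V → ℝ}
    (hω : ∀ b ∈ ω, 0 < r (G.src b) ∧ 0 < r (G.tgt b)) :
    ∀ (l : List V) (a : V), List.IsChain (Link G ω) (a :: l) → 0 < r a →
      ∀ v ∈ a :: l, 0 < r v ∧ ∀ ε ∈ compat G ω, ε v = ε a := by
  intro l
  induction l with
  | nil =>
    intro a _ ha v hv
    rw [List.mem_singleton] at hv
    subst hv
    exact ⟨ha, fun _ _ => rfl⟩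
  | cons c l ih =>
    intro a hc ha v hv
    rw [List.isChain_cons_cons] at hc
    obtain ⟨⟨b, hb, hbe⟩, hl⟩ := hc
    rcases List.mem_cons.1 hv with rfl | hv
    · exact ⟨ha, fun _ _ => rfl⟩
    · have hrc : 0 < r c := by
        rcases hbe with ⟨_, h⟩ | ⟨h, _⟩ <;> rw [← h]
        exacts [(hω b hb).2, (hω b hb).1]
      obtain ⟨h1, h2⟩ := ih c hl hrc v hv
      refine ⟨h1, fun ε hε => (h2 ε hε).trans ?_⟩
      have := (mem_compat G).1 hε b hb
      rcases hbe with ⟨h, h'⟩ | ⟨h, h'⟩ <;> rw [h, h'] at this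
      exacts [this.symm, this]

/-- The inequality for one bond set. -/
lemma bondSet_le {x y : V} {T : Finset (List (V × V))} (hT : Covers G T x y) {i : Fin n}
    {τ : V → Spin n} (hτ : ∀ u, 0 ≤ co i u τ) {ω : Finset ι}
    (hω : ∀ b ∈ ω, 0 < co i (G.src b) τ ∧ 0 < co i (G.tgt b) τ) :
    ∑ ε ∈ compat G ω, chi (ε x) * co i x τ * (chi (ε y) * co i y τ) ≤
      ∑ ε ∈ compat G ω, ∑ l ∈ T, pairChi l ε * sgnPairs i l τ := by
  have hnn : ∀ l, 0 ≤ ∑ ε ∈ compat G ω, pairChi l ε * sgnPairs i l τ := fun l => by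
    rw [← Finset.sum_mul]
    exact mul_nonneg (sum_pairChi_nonneg G ω l) (sgnPairs_nonneg i l hτ)
  have hR : 0 ≤ ∑ ε ∈ compat G ω, ∑ l ∈ T, pairChi l ε * sgnPairs i l τ := by
    rw [Finset.sum_comm]; exact Finset.sum_nonneg fun l _ => hnn l
  by_cases hc : Relation.ReflTransGen (Link G ω) x y
  swap
  · have he : (fun u => decide (Relation.ReflTransGen (Link G ω) x u)) ∈ compat G ω := by
      rw [mem_compat]
      intro b hb
      rw [decide_eq_decide]
      exact ⟨fun h => h.tail ⟨b, hb, Or.inl ⟨rfl, rfl⟩⟩, fun h => h.tail ⟨b, hb, Or.inr ⟨rfl, rfl⟩⟩⟩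
    refine le_trans (le_of_eq (sum_char_eq_zero _ _ (fun a ha => xor_mem_compat G he ha) fun a => ?_)) hR
    have h1 : Relation.ReflTransGen (Link G ω) x x := Relation.ReflTransGen.refl
    simp only [chi_xor, decide_eq_true h1, decide_eq_false hc]
    cases a x <;> cases a y <;> simp [chi]
  by_cases hx : co i x τ = 0
  · refine le_trans (le_of_eq ?_) hR
    simp [hx]
  have hx' : 0 < co i x τ := lt_of_le_of_ne (hτ x) (Ne.symm hx)
  obtain ⟨l, hl, hlast⟩ := List.exists_isChain_cons_of_relationReflTransGen hc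
  obtain ⟨q, hq, hqw⟩ := hT (x :: l) ⟨hl.imp fun u v ⟨b, _, h⟩ => ⟨b, h⟩, rfl,
    by rw [List.getLast?_eq_some_getLast (List.cons_ne_nil _ _), hlast]⟩
  have hprop := chain_props G (r := fun u => co i u τ) hω l x hl hx'
  have hone : ∀ ε ∈ compat G ω, pairChi q ε * sgnPairs i q τ = 1 := by
    intro ε hε
    rw [pairChi, sgnPairs, List.prod_eq_one, List.prod_eq_one, mul_one]
    · intro a ha
      obtain ⟨p, hp, rfl⟩ := List.mem_map.1 ha
      simp [sgnCo, Real.sign_of_pos (hprop _ (hqw p hp).1).1,
        Real.sign_of_pos (hprop _ (hqw p hp).2).1]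
    · intro a ha
      obtain ⟨p, hp, rfl⟩ := List.mem_map.1 ha
      rw [(hprop _ (hqw p hp).1).2 ε hε, (hprop _ (hqw p hp).2).2 ε hε]
      cases ε x <;> simp [chi]
  rw [Finset.sum_comm (t := T)]
  refine le_trans ?_ (Finset.single_le_sum (fun l _ => hnn l) hq)
  refine Finset.sum_le_sum fun ε hε => ?_
  rw [hone ε hε]
  calc chi (ε x) * co i x τ * (chi (ε y) * co i y τ)
      ≤ |chi (ε x) * co i x τ * (chi (ε y) * co i y τ)| := le_abs_self _
    _ ≤ 1 * 1 := by
        rw [abs_mul]
        refine mul_le_mul ?_ ?_ (abs_nonneg _) zero_le_one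
        · cases ε x <;> simp [chi, abs_co_le]
        · cases ε y <;> simp [chi, abs_co_le]
    _ = 1 := one_mul 1

omit [Fintype V] in
lemma en_flip (i : Fin n) (ε : V → Bool) (τ : V → Spin n) :
    en G (reflect i ε τ) = ∑ b, ((⟪(τ (G.src b) : Euc n), (τ (G.tgt b) : Euc n)⟫ -
        co i (G.src b) τ * co i (G.tgt b) τ) +
      co i (G.src b) τ * co i (G.tgt b) τ * (chi (ε (G.src b)) * chi (ε (G.tgt b)))) := by
  refine Finset.sum_congr rfl fun b _ => ?_
  rw [Helicity.inner_eq_sum, Helicity.inner_eq_sum,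
    ← Finset.add_sum_erase _ _ (Finset.mem_univ i), ← Finset.add_sum_erase _ _ (Finset.mem_univ i)]
  have h : ∀ a, ((reflect i ε τ (G.src b) : Euc n) a) * ((reflect i ε τ (G.tgt b) : Euc n) a) =
      (if a = i then chi (ε (G.src b)) * chi (ε (G.tgt b)) else 1) *
        (co a (G.src b) τ * co a (G.tgt b) τ) := fun a => by
    show co a _ (reflect i ε τ) * co a _ (reflect i ε τ) = _
    rw [co_flip, co_flip]
    split_ifs <;> ring
  rw [h i, Finset.sum_congr rfl fun a ha => (h a).trans (by
    rw [if_neg (Finset.ne_of_mem_erase ha), one_mul]), if_pos rfl]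
  simp only [co]
  ring

lemma exp_two_valued (J : ℝ) (a b : Bool) :
    Real.exp (J * (chi a * chi b)) =
      Real.exp (-J) * (1 + (Real.exp (2 * J) - 1) * if a = b then (1 : ℝ) else 0) := by
  have h : Real.exp (-J) * Real.exp (2 * J) = Real.exp J := by rw [← Real.exp_add]; ring_nf
  cases a <;> cases b <;> simp [chi, h]

/-- The pointwise inequality. -/
lemma flipSum_nonneg {β : ℝ} (hβ : 0 ≤ β) {x y : V} {T : Finset (List (V × V))}
    (hT : Covers G T x y) {i : Fin n} {τ : V → Spin n} (hτ : ∀ u, 0 ≤ co i u τ) :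
    0 ≤ ∑ ε : V → Bool, (∑ l ∈ T, sgnPairs i l (reflect i ε τ) -
      co i x (reflect i ε τ) * co i y (reflect i ε τ)) * Real.exp (β * en G (reflect i ε τ)) := by
  set J : ι → ℝ := fun b => β * (co i (G.src b) τ * co i (G.tgt b) τ) with hJ
  set p : ι → ℝ := fun b => Real.exp (2 * J b) - 1 with hp
  set A : ℝ := ∏ b : ι, Real.exp (β * (⟪(τ (G.src b) : Euc n), (τ (G.tgt b) : Euc n)⟫ -
    co i (G.src b) τ * co i (G.tgt b) τ)) * Real.exp (-J b)
  have hw : ∀ ε, Real.exp (β * en G (reflect i ε τ)) =
      A * ∑ ω ∈ (Finset.univ : Finset ι).powerset,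
        if ε ∈ compat G ω then ∏ b ∈ ω, p b else 0 := by
    intro ε
    rw [en_flip, Finset.mul_sum, Real.exp_sum]
    simp only [mul_add, ← mul_assoc β, Real.exp_add]
    calc _ = ∏ b, (Real.exp (β * (⟪(τ (G.src b) : Euc n), (τ (G.tgt b) : Euc n)⟫ -
          co i (G.src b) τ * co i (G.tgt b) τ)) * Real.exp (-J b)) *
            (1 + p b * if ε (G.src b) = ε (G.tgt b) then (1 : ℝ) else 0) := by
          refine Finset.prod_congr rfl fun b _ => ?_
          rw [exp_two_valued, hp, hJ]
          ring_nf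
      _ = _ := by
          rw [Finset.prod_mul_distrib, Finset.prod_one_add]
          congr 1
          refine Finset.sum_congr rfl fun ω _ => ?_
          rw [Finset.prod_mul_distrib, Finset.prod_boole]
          simp only [mul_ite, mul_one, mul_zero, mem_compat]
  simp only [hw, ← mul_assoc, Finset.mul_sum]
  rw [Finset.sum_comm]
  refine Finset.sum_nonneg fun ω _ => ?_
  simp only [mul_ite, mul_zero, ← Finset.sum_filter]
  rw [show (Finset.univ.filter fun ε => ε ∈ compat G ω) = compat G ω by ext; simp, ← Finset.sum_mul,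
    ← Finset.sum_mul]
  have hA : 0 ≤ A := Finset.prod_nonneg fun b _ => by positivity
  have hp0 : ∀ b, 0 ≤ p b := fun b => by
    have : (0 : ℝ) ≤ 2 * J b := mul_nonneg zero_le_two (mul_nonneg hβ (mul_nonneg (hτ _) (hτ _)))
    simp only [hp]
    linarith [Real.one_le_exp this]
  rcases eq_or_ne (∏ b ∈ ω, p b) 0 with h0 | h0
  · rw [h0, mul_zero]
  refine mul_nonneg (mul_nonneg ?_ hA) (Finset.prod_nonneg fun b _ => hp0 b)
  have hω : ∀ b ∈ ω, 0 < co i (G.src b) τ ∧ 0 < co i (G.tgt b) τ := by
    intro b hb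
    have hne : co i (G.src b) τ * co i (G.tgt b) τ ≠ 0 := fun e =>
      Finset.prod_ne_zero_iff.1 h0 b hb (by simp [hp, hJ, e])
    exact ⟨lt_of_le_of_ne (hτ _) (Ne.symm (left_ne_zero_of_mul hne)),
      lt_of_le_of_ne (hτ _) (Ne.symm (right_ne_zero_of_mul hne))⟩
  rw [Finset.sum_sub_distrib, sub_nonneg]
  simp only [sgnPairs_flip, co_flip, if_pos]
  exact bondSet_le G hT hτ hω

end SignRep

open SignRep in
theorem sign_stmt : SignStmt := by
  intro n _ V ι _ _ G β hβ i x y T hT
  have hexp : Continuous fun σ : V → Spin n => Real.exp (β * en G σ) := by fun_prop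
  obtain ⟨M, hM⟩ := isCompact_univ.exists_bound_of_continuousOn hexp.continuousOn
  have hint : ∀ (F : (V → Spin n) → ℝ), Measurable F → (∀ σ, |F σ| ≤ 1) →
      Integrable (fun σ => F σ * Real.exp (β * en G σ)) (freeLaw V n) := fun F hF hb =>
    Integrable.of_bound (hF.mul hexp.measurable).aestronglyMeasurable (1 * M)
      (Filter.Eventually.of_forall fun σ => by
        rw [norm_mul]
        exact mul_le_mul (hb σ) (hM σ (Set.mem_univ _)) (norm_nonneg _) zero_le_one)
  set D : (V → Spin n) → ℝ := fun σ =>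
    (∑ l ∈ T, sgnPairs i l σ - co i x σ * co i y σ) * Real.exp (β * en G σ) with hD
  have hcc : Continuous fun σ : V → Spin n => co i x σ * co i y σ :=
    (continuous_co i x).mul (continuous_co i y)
  have hsum : Integrable (fun σ => ∑ l ∈ T, sgnPairs i l σ * Real.exp (β * en G σ)) (freeLaw V n) :=
    integrable_finsetSum _ fun l _ => hint _ (measurable_sgnPairs i l) (abs_sgnPairs_le i l)
  have hco : Integrable (fun σ : V → Spin n => co i x σ * co i y σ * Real.exp (β * en G σ))
      (freeLaw V n) := integrable_av hcc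
  have hDi : Integrable D (freeLaw V n) := by
    simp only [hD, sub_mul, Finset.sum_mul]
    exact hsum.sub hco
  have key : 0 ≤ ∫ σ, D σ ∂freeLaw V n := by
    have hfl : ∀ ε, ∫ σ, D (reflect i ε σ) ∂freeLaw V n = ∫ σ, D σ ∂freeLaw V n := fun ε => by
      conv_rhs => rw [← map_flip i ε]
      rw [integral_map (continuous_flip i ε).aemeasurable]
      rw [map_flip]
      exact hDi.aestronglyMeasurable
    have hfi : ∀ ε, Integrable (fun σ => D (reflect i ε σ)) (freeLaw V n) := fun ε => by
      have := hDi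
      rw [← map_flip i ε] at this
      exact this.comp_measurable (continuous_flip i ε).measurable
    have h : 0 ≤ ∫ σ, ∑ ε : V → Bool, D (reflect i ε σ) ∂freeLaw V n := by
      refine integral_nonneg fun σ => ?_
      set e₀ : V → Bool := fun u => decide (co i u σ < 0)
      have hτ : ∀ u, 0 ≤ co i u (reflect i e₀ σ) := fun u => by
        rw [co_flip, if_pos rfl]
        by_cases hu : co i u σ < 0 <;> simp [e₀, chi, hu] <;> linarith
      refine (flipSum_nonneg G hβ hT hτ).trans (le_of_eq ?_)
      refine Fintype.sum_equiv (Function.Involutive.toPerm (fun ε u => xor (ε u) (e₀ u))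
        fun ε => by funext u; dsimp only; cases ε u <;> cases e₀ u <;> rfl) _ _ fun ε => ?_
      simp only [hD, reflect_reflect]
      rfl
    rw [integral_finsetSum _ fun ε _ => hfi ε] at h
    simp only [hfl, Finset.sum_const, nsmul_eq_mul] at h
    exact (mul_nonneg_iff_of_pos_left (by simp)).1 h
  simp only [hD, sub_mul, Finset.sum_mul] at key
  rw [integral_sub hsum hco, integral_finsetSum _ fun l _ =>
    hint _ (measurable_sgnPairs i l) (abs_sgnPairs_le i l)] at key
  exact sub_nonneg.1 key

end Vale.Agent.P163.Gap
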