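import Vale.Agent.P163.Gap.Spec

/-!
Free boxes and tori look like the square lattice; balls are no larger than squares.
-/

noncomputable section

namespace Vale.Agent.P163.Gap

open MeasureTheory Metric Helicity
open scoped Classical

theorem nrmZ_neg (z : ℤ × ℤ) : nrmZ (-z) = nrmZ z := by simp [nrmZ]

theorem nrmZ_add_le (z w : ℤ × ℤ) : nrmZ (z + w) ≤ nrmZ z + nrmZ w := by
  simp only [nrmZ, Prod.fst_add, Prod.snd_add]
  refine max_le ?_ ?_
  · exact (Int.natAbs_add_le _ _).trans (add_le_add (le_max_left _ _) (le_max_left _ _))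
  · exact (Int.natAbs_add_le _ _).trans (add_le_add (le_max_right _ _) (le_max_right _ _))

theorem box_bond {Λ : Finset (ℤ × ℤ)} (b : ↥(boxBonds Λ)) :
    (b.1.2 : ℤ × ℤ) = (b.1.1 : ℤ × ℤ) + (1, 0) ∨ (b.1.2 : ℤ × ℤ) = (b.1.1 : ℤ × ℤ) + (0, 1) :=
  (Finset.mem_filter.1 b.2).2

/-- Free boxes look like the square lattice. -/
theorem box_space (Λ : Finset (ℤ × ℤ)) (L : ℕ) :
    Space (ofBonds (boxBonds Λ)) (fun x y => nrmZ ((y : ℤ × ℤ) - (x : ℤ × ℤ))) L where
  chart x := ⟨{ loc := fun u => (u : ℤ × ℤ) - (x : ℤ × ℤ)
                loc_self := sub_self _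
                inj := fun u v _ _ h => Subtype.ext (sub_left_injective h)
                step := fun b _ => by
                  show (b.1.2 : ℤ × ℤ) - (x : ℤ × ℤ) = (b.1.1 : ℤ × ℤ) - (x : ℤ × ℤ) + (1, 0) ∨
                    (b.1.2 : ℤ × ℤ) - (x : ℤ × ℤ) = (b.1.1 : ℤ × ℤ) - (x : ℤ × ℤ) + (0, 1)
                  rcases box_bond b with h | h <;> rw [h]
                  · exact Or.inl (by abel)
                  · exact Or.inr (by abel)
                binj := fun b b' h h' => Subtype.ext (Prod.ext h h') }, fun u => rfl⟩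
  symm x y := by rw [← nrmZ_neg, neg_sub]
  tri x y z := by
    show nrmZ ((z : ℤ × ℤ) - (x : ℤ × ℤ)) ≤ _
    rw [show (z : ℤ × ℤ) - (x : ℤ × ℤ)
      = ((y : ℤ × ℤ) - (x : ℤ × ℤ)) + ((z : ℤ × ℤ) - (y : ℤ × ℤ)) by abel]
    exact nrmZ_add_le _ _
  bond b := by
    show nrmZ ((b.1.2 : ℤ × ℤ) - (b.1.1 : ℤ × ℤ)) ≤ 1
    rcases box_bond b with h | h <;> rw [h, add_sub_cancel_left] <;> simp [nrmZ]

section Torus

variable {a : ℕ} [NeZero a]

/-- Translation by a small step commutes with the centred representative away from the seam. -/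
theorem valMinAbs_step {L : ℕ} (hL : 2 * (L + 2) ≤ a) (p q : ZMod a) (k : ℤ) (hk : k.natAbs ≤ 1)
    (hq : q = p + k) (h : p.valMinAbs.natAbs ≤ L) : q.valMinAbs = p.valMinAbs + k := by
  refine (ZMod.valMinAbs_spec q _).2 ⟨?_, ?_⟩
  · rw [Int.cast_add, ZMod.coe_valMinAbs, hq]
  · constructor <;> omega

theorem valMinAbs_one_le (hL : 4 ≤ a) : (1 : ZMod a).valMinAbs.natAbs ≤ 1 := by
  rw [valMinAbs_step (L := 0) (by omega) 0 1 1 le_rfl (by simp) (by simp)]
  simp

omit [NeZero a] in
theorem valMinAbs_tri (x y z : ZMod a) :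
    (z - x).valMinAbs.natAbs ≤ (y - x).valMinAbs.natAbs + (z - y).valMinAbs.natAbs := by
  have h := ZMod.natAbs_valMinAbs_add_le (y - x) (z - y)
  rw [show y - x + (z - y) = z - x by ring] at h
  exact h.trans (Int.natAbs_add_le _ _)

end Torus

/-- Tori look like the square lattice. -/
theorem torus_space (a b : ℕ) [NeZero a] [NeZero b] (L : ℕ) (ha : 2 * (L + 2) ≤ a)
    (hb : 2 * (L + 2) ≤ b) :
    Space (ofBonds (rectBonds a b))
      (fun x y => max (y - x).1.valMinAbs.natAbs (y - x).2.valMinAbs.natAbs) L where
  chart x := ⟨{ loc := fun u => ((u - x).1.valMinAbs, (u - x).2.valMinAbs)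
                loc_self := by simp
                inj := fun u v _ _ h => by
                  obtain ⟨h1, h2⟩ := Prod.mk.inj h
                  exact sub_left_injective
                    (Prod.ext (ZMod.injective_valMinAbs h1) (ZMod.injective_valMinAbs h2))
                step := fun e he => by
                  have hmem := (Finset.mem_filter.1 e.2).2
                  simp only [ofBonds, nrmZ, max_lt_iff] at he
                  simp only [ofBonds]
                  rcases hmem with h | h
                  · left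
                    have h1 : (e.1.2 - x).1 = (e.1.1 - x).1 + 1 := by rw [h]; simp; ring
                    have h2 : (e.1.2 - x).2 = (e.1.1 - x).2 := by rw [h]; simp
                    refine Prod.ext ?_ (by simp [h2])
                    show (e.1.2 - x).1.valMinAbs = (e.1.1 - x).1.valMinAbs + 1
                    rcases he with he | he
                    · exact valMinAbs_step ha _ _ 1 le_rfl (by simpa using h1) he.1.le
                    · have := valMinAbs_step ha (e.1.2 - x).1 (e.1.1 - x).1 (-1) le_rfl
                        (by rw [h1]; simp) he.1.le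
                      omega
                  · right
                    have h1 : (e.1.2 - x).2 = (e.1.1 - x).2 + 1 := by rw [h]; simp; ring
                    have h2 : (e.1.2 - x).1 = (e.1.1 - x).1 := by rw [h]; simp
                    refine Prod.ext (by simp [h2]) ?_
                    show (e.1.2 - x).2.valMinAbs = (e.1.1 - x).2.valMinAbs + 1
                    rcases he with he | he
                    · exact valMinAbs_step hb _ _ 1 le_rfl (by simpa using h1) he.2.le
                    · have := valMinAbs_step hb (e.1.2 - x).2 (e.1.1 - x).2 (-1) le_rfl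
                        (by rw [h1]; simp) he.2.le
                      omega
                binj := fun e e' h h' => Subtype.ext (Prod.ext h h') }, fun u => rfl⟩
  symm x y := by
    rw [← neg_sub y x, Prod.fst_neg, Prod.snd_neg, ZMod.natAbs_valMinAbs_neg,
      ZMod.natAbs_valMinAbs_neg]
  tri x y z := by
    simp only [Prod.fst_sub, Prod.snd_sub]
    refine max_le ?_ ?_
    · exact (valMinAbs_tri x.1 y.1 z.1).trans (add_le_add (le_max_left _ _) (le_max_left _ _))
    · exact (valMinAbs_tri x.2 y.2 z.2).trans (add_le_add (le_max_right _ _) (le_max_right _ _))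
  bond e := by
    show max (e.1.2 - e.1.1).1.valMinAbs.natAbs (e.1.2 - e.1.1).2.valMinAbs.natAbs ≤ 1
    rcases (Finset.mem_filter.1 e.2).2 with h | h <;> rw [h, add_sub_cancel_left]
    · simpa using valMinAbs_one_le (a := a) (by omega)
    · simpa using valMinAbs_one_le (a := b) (by omega)

/-- Free boxes and tori look like the square lattice. -/
theorem spaces_stmt : SpacesStmt :=
  ⟨box_space, fun a b _ _ L ha hb => torus_space a b L ha hb⟩

/-- Balls are no larger than squares. -/
theorem square_stmt : SquareStmt := by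
  intro V ι _ _ G d L hS x r hr
  obtain ⟨c, hc⟩ := hS.chart x
  refine (Finset.card_le_card_of_injOn c.loc
    (t := Finset.Icc (-(r : ℤ)) r ×ˢ Finset.Icc (-(r : ℤ)) r) (fun u hu => ?_)
    (fun u hu v hv h => ?_)).trans (le_of_eq ?_)
  · simp only [Finset.coe_filter, Finset.mem_univ, true_and, Set.mem_ofPred_eq, hc, nrmZ,
      max_le_iff] at hu
    simp only [Finset.coe_product, Finset.coe_Icc, Set.mem_prod, Set.mem_Icc]
    omega
  · simp only [Finset.coe_filter, Finset.mem_univ, true_and, Set.mem_ofPred_eq, hc] at hu hv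
    exact c.inj u v (hu.trans hr) (hv.trans hr) h
  · rw [Finset.card_product, Int.card_Icc, sq, show ((r : ℤ) + 1 - -(r : ℤ)).toNat = 2 * r + 1 by
      omega]

end Vale.Agent.P163.Gap
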