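import Vale.Agent.P163.Gap.Defs

/-!
Cut-offs and partitions of unity on the square lattice.
-/

noncomputable section

namespace Vale.Agent.P163.Gap.Test

/-- Truncation to the unit interval. -/
def clamp (t : ℝ) : ℝ := max 0 (min 1 t)

/-- The radial cut-off: one up to `2R`, zero from `3R`. -/
def prof (R : ℕ) (v : ℤ × ℤ) : ℝ := clamp ((3 * (R : ℝ) - (nrmZ v : ℝ)) / R)

/-- The hat of width `s`. -/
def hat (s : ℕ) (t : ℤ) : ℝ := max 0 (1 - |(t : ℝ)| / s)

/-- A point of the coarse lattice. -/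
def pt (s : ℕ) (p : ℤ × ℤ) : ℤ × ℤ := (p.1 * (s : ℤ), p.2 * (s : ℤ))

/-- The partition of unity. -/
def psi (s : ℕ) (p v : ℤ × ℤ) : ℝ := hat s (v.1 - p.1 * (s : ℤ)) * hat s (v.2 - p.2 * (s : ℤ))

/-- The plateau. -/
def eta (s : ℕ) (p v : ℤ × ℤ) : ℝ := clamp ((4 * (s : ℝ) - (nrmZ (v - pt s p) : ℝ)) / s)

lemma nrmZ_triangle (u v w : ℤ × ℤ) : nrmZ (u - w) ≤ nrmZ (u - v) + nrmZ (v - w) := by
  simp only [nrmZ, Prod.fst_sub, Prod.snd_sub]; omega

lemma nrmZ_comm (u v : ℤ × ℤ) : nrmZ (u - v) = nrmZ (v - u) := by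
  simp only [nrmZ, Prod.fst_sub, Prod.snd_sub]; omega

lemma nrmZ_le (u v : ℤ × ℤ) : nrmZ u ≤ nrmZ (u - v) + nrmZ v := by
  simp only [nrmZ, Prod.fst_sub, Prod.snd_sub]; omega

lemma clamp_nonneg (t : ℝ) : 0 ≤ clamp t := le_max_left _ _

lemma clamp_le_one (t : ℝ) : clamp t ≤ 1 := max_le zero_le_one (min_le_left _ _)

lemma clamp_one {t : ℝ} (h : 1 ≤ t) : clamp t = 1 := by simp [clamp, min_eq_left h]

lemma clamp_zero {t : ℝ} (h : t ≤ 0) : clamp t = 0 :=
  max_eq_left ((min_le_right _ _).trans h)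

lemma clamp_lip (a b : ℝ) : |clamp a - clamp b| ≤ |a - b| := by
  unfold clamp
  refine (abs_max_sub_max_le_max _ _ _ _).trans (max_le (by simp) ?_)
  exact (abs_min_sub_min_le_max _ _ _ _).trans (max_le (by simp) le_rfl)

lemma abs_nrmZ_sub (u v : ℤ × ℤ) : |(nrmZ u : ℝ) - nrmZ v| ≤ (nrmZ (u - v) : ℝ) := by
  have h1 : (nrmZ u : ℝ) ≤ (nrmZ (u - v) : ℝ) + nrmZ v := by exact_mod_cast nrmZ_le u v
  have h2 : (nrmZ v : ℝ) ≤ (nrmZ (v - u) : ℝ) + nrmZ u := by exact_mod_cast nrmZ_le v u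
  rw [nrmZ_comm v u] at h2
  exact abs_le.2 ⟨by linarith, by linarith⟩

variable {R s : ℕ}

lemma prof_one (hR : 1 ≤ R) {v : ℤ × ℤ} (h : nrmZ v ≤ 2 * R) : prof R v = 1 := by
  have hR' : (0 : ℝ) < R := by exact_mod_cast hR
  have h' : (nrmZ v : ℝ) ≤ 2 * R := by exact_mod_cast h
  exact clamp_one (by rw [le_div_iff₀ hR']; linarith)

lemma prof_zero {v : ℤ × ℤ} (h : 3 * R ≤ nrmZ v) : prof R v = 0 := by
  have h' : 3 * (R : ℝ) ≤ nrmZ v := by exact_mod_cast h
  exact clamp_zero (div_nonpos_of_nonpos_of_nonneg (by linarith) (Nat.cast_nonneg R))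

lemma prof_lip (u v : ℤ × ℤ) : |prof R u - prof R v| ≤ (nrmZ (u - v) : ℝ) / R := by
  refine (clamp_lip _ _).trans ?_
  rw [← sub_div, abs_div, Nat.abs_cast]
  refine div_le_div_of_nonneg_right ?_ (Nat.cast_nonneg R)
  rw [show 3 * (R : ℝ) - nrmZ u - (3 * R - nrmZ v) = -((nrmZ u : ℝ) - nrmZ v) by ring, abs_neg]
  exact abs_nrmZ_sub u v

lemma prof_near {u v : ℤ × ℤ} (h : prof R u ≠ prof R v) : nrmZ u < 3 * R ∨ nrmZ v < 3 * R := by
  by_contra hc
  rw [not_or, not_lt, not_lt] at hc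
  exact h (by rw [prof_zero hc.1, prof_zero hc.2])

lemma hat_nonneg (t : ℤ) : 0 ≤ hat s t := le_max_left _ _

lemma hat_le_one (t : ℤ) : hat s t ≤ 1 :=
  max_le zero_le_one (by have : 0 ≤ |(t : ℝ)| / s := by positivity
                         linarith)

lemma hat_zero (hs : 1 ≤ s) {t : ℤ} (h : s ≤ t.natAbs) : hat s t = 0 := by
  have hs' : (0 : ℝ) < s := by exact_mod_cast hs
  have h' : (s : ℝ) ≤ |(t : ℝ)| := by
    rw [← Int.cast_abs, ← Int.natCast_natAbs, Int.cast_natCast]; exact_mod_cast h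
  exact max_eq_left (by rw [sub_nonpos, le_div_iff₀ hs']; linarith)

lemma hat_lip (a b : ℤ) : |hat s a - hat s b| ≤ |(a : ℝ) - b| / s := by
  refine (abs_max_sub_max_le_max _ _ _ _).trans (max_le (by simp; positivity) ?_)
  rw [show 1 - |(a : ℝ)| / s - (1 - |(b : ℝ)| / s) = (|(b : ℝ)| - |(a : ℝ)|) / s by ring, abs_div,
    Nat.abs_cast]
  exact div_le_div_of_nonneg_right
    ((abs_abs_sub_abs_le_abs_sub _ _).trans_eq (abs_sub_comm _ _)) (Nat.cast_nonneg s)

lemma hat_sum (hs : 1 ≤ s) {M : ℕ} {t : ℤ} (h : (t.natAbs : ℤ) + s ≤ (M : ℤ) * s) :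
    ∑ q ∈ Finset.Icc (-(M : ℤ)) M, hat s (t - q * (s : ℤ)) = 1 := by
  have hs0 : (0 : ℤ) < s := by exact_mod_cast hs
  have hs' : (0 : ℝ) < s := by exact_mod_cast hs
  have hr0 : 0 ≤ t % (s : ℤ) := Int.emod_nonneg _ hs0.ne'
  have hr1 : t % (s : ℤ) < s := Int.emod_lt_of_pos _ hs0
  have hk : t / (s : ℤ) * s + t % (s : ℤ) = t := Int.ediv_mul_add_emod t s
  set k := t / (s : ℤ) with hkdef
  set r := t % (s : ℤ)
  have hk1 : -(M : ℤ) ≤ k := by
    by_contra hc
    have : (k + 1) * (s : ℤ) ≤ -(M : ℤ) * s := mul_le_mul_of_nonneg_right (by omega) hs0.le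
    rw [add_mul, one_mul, neg_mul] at this
    omega
  have hk2 : k + 1 ≤ M := by
    by_contra hc
    have : (M : ℤ) * s ≤ k * (s : ℤ) := mul_le_mul_of_nonneg_right (by omega) hs0.le
    omega
  have hsub : ({k, k + 1} : Finset ℤ) ⊆ Finset.Icc (-(M : ℤ)) M := by
    intro q hq
    simp only [Finset.mem_insert, Finset.mem_singleton] at hq
    simp only [Finset.mem_Icc]; omega
  rw [← Finset.sum_subset hsub fun q _ hq => ?_, Finset.sum_pair (by omega)]
  · have e1 : t - k * s = r := by omega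
    have e2 : t - (k + 1) * s = r - s := by rw [add_mul, one_mul]; omega
    have r0 : (0 : ℝ) ≤ r := by exact_mod_cast hr0
    have r1 : (r : ℝ) < s := by exact_mod_cast hr1
    rw [e1, e2]
    simp only [hat, Int.cast_sub, Int.cast_natCast, abs_of_nonneg r0,
      abs_of_nonpos (by linarith : (r : ℝ) - s ≤ 0)]
    rw [max_eq_right (by rw [sub_nonneg, div_le_one hs']; linarith),
      max_eq_right (by rw [sub_nonneg, div_le_one hs']; linarith)]
    field_simp; ring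
  · simp only [Finset.mem_insert, Finset.mem_singleton, not_or] at hq
    refine hat_zero hs ?_
    rcases (show q < k ∨ k + 1 < q by omega) with hlt | hgt
    · have : (q + 1) * (s : ℤ) ≤ k * s := mul_le_mul_of_nonneg_right (by omega) hs0.le
      rw [add_mul, one_mul] at this
      omega
    · have : (k + 2) * (s : ℤ) ≤ q * s := mul_le_mul_of_nonneg_right (by omega) hs0.le
      rw [add_mul] at this
      omega

lemma psi_near (hs : 1 ≤ s) {p v : ℤ × ℤ} (h : psi s p v ≠ 0) : nrmZ (v - pt s p) < s := by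
  by_contra hc
  simp only [nrmZ, pt, Prod.fst_sub, Prod.snd_sub, not_lt] at hc
  rcases le_max_iff.1 hc with h' | h' <;> exact h (by simp [psi, hat_zero hs h'])

lemma eta_near {p v : ℤ × ℤ} (h : eta s p v ≠ 0) : nrmZ (v - pt s p) < 4 * s := by
  by_contra hc
  rw [not_lt] at hc
  have h' : 4 * (s : ℝ) ≤ (nrmZ (v - pt s p) : ℝ) := by exact_mod_cast hc
  exact h (clamp_zero (div_nonpos_of_nonpos_of_nonneg (by linarith) (Nat.cast_nonneg s)))

lemma eta_one (hs : 1 ≤ s) {p v : ℤ × ℤ} (h : nrmZ (v - pt s p) ≤ 3 * s) : eta s p v = 1 := by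
  have hs' : (0 : ℝ) < s := by exact_mod_cast hs
  have h' : (nrmZ (v - pt s p) : ℝ) ≤ 3 * s := by exact_mod_cast h
  exact clamp_one (by rw [le_div_iff₀ hs']; linarith)

/-- A weight attached to a coarse point. -/
def bump (s : ℕ) (p : ℤ × ℤ) (c : Bool) (v : ℤ × ℤ) : ℝ := if c then psi s p v else eta s p v

lemma bump_nonneg (p : ℤ × ℤ) (c : Bool) (v : ℤ × ℤ) : 0 ≤ bump s p c v := by
  cases c
  · exact clamp_nonneg _
  · exact mul_nonneg (hat_nonneg _) (hat_nonneg _)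

lemma bump_le_one (p : ℤ × ℤ) (c : Bool) (v : ℤ × ℤ) : bump s p c v ≤ 1 := by
  cases c
  · exact clamp_le_one _
  · exact mul_le_one₀ (hat_le_one _) (hat_nonneg _) (hat_le_one _)

lemma bump_near (hs : 1 ≤ s) {p v : ℤ × ℤ} {c : Bool} (h : bump s p c v ≠ 0) :
    nrmZ (v - pt s p) < 4 * s := by
  cases c
  · exact eta_near h
  · exact (psi_near hs h).trans_le (by omega)

lemma bump_step (p : ℤ × ℤ) (c : Bool) {u v : ℤ × ℤ} (h : nrmZ (v - u) ≤ 1) :
    |bump s p c v - bump s p c u| ≤ 2 / s := by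
  cases c
  · simp only [bump, Bool.false_eq_true, if_false, eta]
    refine (clamp_lip _ _).trans ?_
    rw [← sub_div, abs_div, Nat.abs_cast]
    refine div_le_div_of_nonneg_right ?_ (Nat.cast_nonneg s)
    have h' := abs_nrmZ_sub (u - pt s p) (v - pt s p)
    rw [sub_sub_sub_cancel_right, nrmZ_comm u v] at h'
    have h1 : (nrmZ (v - u) : ℝ) ≤ 1 := by exact_mod_cast h
    rw [show 4 * (s : ℝ) - nrmZ (v - pt s p) - (4 * s - nrmZ (u - pt s p)) =
      (nrmZ (u - pt s p) : ℝ) - nrmZ (v - pt s p) by ring]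
    linarith
  · simp only [bump, if_true, psi]
    have key : ∀ a b : ℤ, (b - a).natAbs ≤ 1 → |hat s b - hat s a| ≤ 1 / s := fun a b hab => by
      refine (hat_lip b a).trans (div_le_div_of_nonneg_right ?_ (Nat.cast_nonneg s))
      rw [← Int.cast_sub, ← Int.cast_abs]
      have : |b - a| ≤ 1 := by rw [← Int.natCast_natAbs]; exact_mod_cast hab
      exact_mod_cast this
    simp only [nrmZ, Prod.fst_sub, Prod.snd_sub, max_le_iff] at h
    have h1 := key (u.1 - p.1 * (s : ℤ)) (v.1 - p.1 * (s : ℤ)) (by simpa using h.1)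
    have h2 := key (u.2 - p.2 * (s : ℤ)) (v.2 - p.2 * (s : ℤ)) (by simpa using h.2)
    set a := hat s (v.1 - p.1 * (s : ℤ))
    set b := hat s (v.2 - p.2 * (s : ℤ))
    set a' := hat s (u.1 - p.1 * (s : ℤ))
    set b' := hat s (u.2 - p.2 * (s : ℤ))
    calc |a * b - a' * b'| = |(a - a') * b + a' * (b - b')| := by ring_nf
      _ ≤ |a - a'| * 1 + 1 * |b - b'| := by
          refine (abs_add_le _ _).trans (add_le_add ?_ ?_)
          · rw [abs_mul]
            exact mul_le_mul_of_nonneg_left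
              (abs_le.2 ⟨by linarith [hat_nonneg (s := s) (v.2 - p.2 * (s : ℤ))],
                hat_le_one _⟩) (abs_nonneg _)
          · rw [abs_mul]
            exact mul_le_mul_of_nonneg_right
              (abs_le.2 ⟨by linarith [hat_nonneg (s := s) (u.1 - p.1 * (s : ℤ))],
                hat_le_one _⟩) (abs_nonneg _)
      _ ≤ 2 / s := by
          have : (2 : ℝ) / s = 1 / s + 1 / s := by ring
          linarith

/-- The coarse points in a square. -/
def coarse (M : ℕ) : Finset (ℤ × ℤ) :=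
  Finset.Icc (-(M : ℤ)) M ×ˢ Finset.Icc (-(M : ℤ)) M

lemma psi_sum (hs : 1 ≤ s) {M : ℕ} {v : ℤ × ℤ} (h : nrmZ v + s ≤ M * s) :
    ∑ p ∈ coarse M, psi s p v = 1 := by
  have h' : (nrmZ v : ℤ) + s ≤ (M : ℤ) * s := by exact_mod_cast h
  simp only [psi, coarse, Finset.sum_product, ← Finset.mul_sum]
  rw [← Finset.sum_mul, hat_sum hs (by simp only [nrmZ] at h'; omega),
    hat_sum hs (by simp only [nrmZ] at h'; omega), one_mul]

lemma pair_sum (hs : 1 ≤ s) {M : ℕ} {u v : ℤ × ℤ} (hu : nrmZ u + s ≤ M * s)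
    (hv : nrmZ v + s ≤ M * s) (huv : nrmZ (u - v) ≤ 2 * s) :
    ∑ p ∈ coarse M, (psi s p u * eta s p v + eta s p u * psi s p v) = 2 := by
  have e : ∀ u v : ℤ × ℤ, nrmZ (u - v) ≤ 2 * s → ∀ p, psi s p u * eta s p v = psi s p u := by
    intro u v h p
    by_cases hp : psi s p u = 0
    · simp [hp]
    · have h1 := psi_near hs hp
      have h2 := nrmZ_triangle v u (pt s p)
      rw [nrmZ_comm v u] at h2
      rw [eta_one hs (by omega), mul_one]
  rw [Finset.sum_add_distrib, Finset.sum_congr rfl fun p _ => e u v huv p,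
    Finset.sum_congr rfl fun p _ => (mul_comm _ _).trans (e v u (by rwa [nrmZ_comm]) p),
    psi_sum hs hu, psi_sum hs hv]
  norm_num

lemma card_box (c : ℤ × ℤ) (r : ℕ) :
    (Finset.Icc (c.1 - r) (c.1 + r) ×ˢ Finset.Icc (c.2 - r) (c.2 + r)).card = (2 * r + 1) ^ 2 := by
  rw [Finset.card_product, Int.card_Icc, Int.card_Icc, sq]
  congr 1 <;> omega

end Vale.Agent.P163.Gap.Test
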