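import Vale.Agent.P163.Gap.Spec
import Vale.Agent.P163.Gap.TestPlane

/-!
The potentials at all scales in a chart.
-/

noncomputable section

namespace Vale.Agent.P163.Gap.Test

open Helicity
open scoped Classical

variable {V ι : Type} [Fintype V] [Fintype ι] {G : Helicity.Graph V ι} {x : V} {L : ℕ}

omit [Fintype V] [Fintype ι] in
lemma bond_cases (ch : Chart G x L) {b : ι}
    (h : nrmZ (ch.loc (G.src b)) < L ∨ nrmZ (ch.loc (G.tgt b)) < L) :
    nrmZ (ch.loc (G.tgt b) - ch.loc (G.src b)) ≤ 1 := by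
  rcases ch.step b h with e | e <;> simp [nrmZ, e]

omit [Fintype V] in
/-- A sum of squares over the bonds near a point. -/
lemma sum_sq_le (ch : Chart G x L) (A : ι → ℝ) {B : ℝ} (hB : 0 ≤ B) (c : ℤ × ℤ) (r : ℕ)
    (hb : ∀ b, |A b| ≤ B) (hc : nrmZ c + r + 1 ≤ L)
    (hs : ∀ b, A b ≠ 0 → nrmZ (ch.loc (G.src b) - c) ≤ r) :
    ∑ b, A b ^ 2 ≤ 2 * (2 * (r : ℝ) + 1) ^ 2 * B ^ 2 := by
  set S := Finset.univ.filter fun b => A b ≠ 0 with hS
  have hmem : ∀ b ∈ S, nrmZ (ch.loc (G.src b) - c) ≤ r := fun b h =>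
    hs b (Finset.mem_filter.1 h).2
  have hcard : S.card ≤ (2 * r + 1) ^ 2 * 2 := by
    set T := (Finset.Icc (c.1 - r) (c.1 + r) ×ˢ Finset.Icc (c.2 - r) (c.2 + r)) ×ˢ
      (Finset.univ : Finset Bool) with hT
    have : S.card ≤ T.card := by
      refine Finset.card_le_card_of_injOn
        (fun b => (ch.loc (G.src b), decide (ch.loc (G.tgt b) = ch.loc (G.src b) + (1, 0))))
        (fun b hb' => ?_) (fun b hb' b' hb'' e => ?_)
      · have := hmem b hb'
        simp only [nrmZ, Prod.fst_sub, Prod.snd_sub] at this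
        simp only [hT, Finset.mem_coe, Finset.mem_product, Finset.mem_univ, and_true,
          Finset.mem_Icc]
        omega
      · simp only [Prod.mk.injEq, decide_eq_decide] at e
        obtain ⟨e1, e2⟩ := e
        have key : ∀ b ∈ S, nrmZ (ch.loc (G.src b)) < L ∧ nrmZ (ch.loc (G.tgt b)) ≤ L := by
          intro b hb'
          have h1 := hmem b hb'
          have h2 := nrmZ_le (ch.loc (G.src b)) c
          have h3 := bond_cases ch (b := b) (Or.inl (by omega))
          have h4 := nrmZ_le (ch.loc (G.tgt b)) (ch.loc (G.src b))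
          omega
        obtain ⟨k1, k2⟩ := key b hb'
        obtain ⟨k3, k4⟩ := key b' hb''
        have et : ch.loc (G.tgt b) = ch.loc (G.tgt b') := by
          rcases ch.step b (Or.inl k1) with p | p <;> rcases ch.step b' (Or.inl k3) with q | q
          · rw [p, q, e1]
          · rw [p, e2.1 p, e1]
          · rw [e2.2 q, q, e1]
          · rw [p, q, e1]
        exact ch.binj b b' (ch.inj _ _ k1.le k3.le e1) (ch.inj _ _ k2 k4 et)
    rw [hT, Finset.card_product, card_box, Finset.card_univ, Fintype.card_bool] at this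
    exact this
  calc ∑ b, A b ^ 2 = ∑ b ∈ S, A b ^ 2 := by
        rw [hS, Finset.sum_filter_of_ne]; intro b _ h e; exact h (by simp [e])
    _ ≤ ∑ b ∈ S, B ^ 2 := Finset.sum_le_sum fun b _ => sq_le_sq.2 (by rw [abs_of_nonneg hB]; exact hb b)
    _ = (S.card : ℝ) * B ^ 2 := by simp
    _ ≤ (((2 * r + 1) ^ 2 * 2 : ℕ) : ℝ) * B ^ 2 := by
        exact mul_le_mul_of_nonneg_right (by exact_mod_cast hcard) (sq_nonneg _)
    _ = _ := by push_cast; ring

/-- The coarse points whose plateau meets the gradient of the cut-off. -/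
def active (R s m : ℕ) : Finset (ℤ × ℤ) :=
  (coarse (4 * m)).filter fun p => 2 * R ≤ nrmZ (pt s p) + 4 * s ∧ nrmZ (pt s p) ≤ 3 * R + 4 * s

/-- The first potential of a packet. -/
def potG (R s : ℕ) (p : ℤ × ℤ) (c : Bool) (v : ℤ × ℤ) : ℝ :=
  (R : ℝ) / s * ((prof R v - prof R (pt s p)) * bump s p c v)

/-- The family at scale `s`. -/
def fam (ch : Chart G x L) (R s m : ℕ) : Fam V where
  idx := ↥(active R s m) × Bool
  fin := inferInstance
  c _ := (s : ℝ) / (2 * R)
  g q u := potG R s q.1 q.2 (ch.loc u)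
  h q u := bump s q.1 (!q.2) (ch.loc u)
  sp q := {u | nrmZ (ch.loc u - pt s q.1) < 4 * s}

lemma const_outside {R s m : ℕ} (hR : 1 ≤ R) {p : ℤ × ℤ} (hp : p ∈ coarse (4 * m))
    (hn : p ∉ active R s m) {v : ℤ × ℤ} (hv : nrmZ (v - pt s p) < 4 * s) :
    prof R v = prof R (pt s p) := by
  simp only [active, Finset.mem_filter, hp, true_and, not_and_or, not_le] at hn
  have h1 := nrmZ_le v (pt s p)
  have h2 := nrmZ_le (pt s p) v
  rw [nrmZ_comm (pt s p) v] at h2
  rcases hn with h | h
  · rw [prof_one hR (by omega), prof_one hR (by omega)]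
  · rw [prof_zero (by omega), prof_zero (by omega)]

omit [Fintype V] [Fintype ι] in
lemma kern_eq (ch : Chart G x L) {R s m : ℕ} (hR : 1 ≤ R) (hs : 1 ≤ s) (u v : V) :
    (fam ch R s m).kern u v = (prof R (ch.loc u) - prof R (ch.loc v)) / 2 *
      ∑ p ∈ coarse (4 * m), (psi s p (ch.loc u) * eta s p (ch.loc v) +
        eta s p (ch.loc u) * psi s p (ch.loc v)) := by
  have hR' : (R : ℝ) ≠ 0 := by exact_mod_cast (by omega : R ≠ 0)
  have hs' : (s : ℝ) ≠ 0 := by exact_mod_cast (by omega : s ≠ 0)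
  show ∑ q : ↥(active R s m) × Bool, _ = _
  rw [Fintype.sum_prod_type]
  simp only [Fintype.sum_bool, fam, potG, Bool.not_true, Bool.not_false]
  rw [Finset.mul_sum, Finset.sum_coe_sort (active R s m) (f := fun p =>
    (s : ℝ) / (2 * R) * ((R : ℝ) / s * ((prof R (ch.loc u) - prof R (pt s p)) *
      bump s p true (ch.loc u)) * bump s p false (ch.loc v) - bump s p false (ch.loc u) *
      ((R : ℝ) / s * ((prof R (ch.loc v) - prof R (pt s p)) * bump s p true (ch.loc v)))) +
    (s : ℝ) / (2 * R) * ((R : ℝ) / s * ((prof R (ch.loc u) - prof R (pt s p)) *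
      bump s p false (ch.loc u)) * bump s p true (ch.loc v) - bump s p true (ch.loc u) *
      ((R : ℝ) / s * ((prof R (ch.loc v) - prof R (pt s p)) * bump s p false (ch.loc v)))))]
  simp only [bump, if_true, Bool.false_eq_true, if_false]
  refine (Finset.sum_congr rfl fun p _ => ?_).trans
    (Finset.sum_filter_of_ne fun p hp hne => ?_)
  · field_simp; ring
  · by_contra hn
    apply hne
    have hn' : p ∉ active R s m := fun h => hn (Finset.mem_filter.1 h).2
    have z : ∀ a b : ℤ × ℤ, psi s p a * eta s p b ≠ 0 →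
        prof R a = prof R (pt s p) ∧ prof R b = prof R (pt s p) := fun a b h =>
      ⟨const_outside hR hp hn' ((psi_near hs (left_ne_zero_of_mul h)).trans_le (by omega)),
        const_outside hR hp hn' (eta_near (right_ne_zero_of_mul h))⟩
    by_cases h1 : psi s p (ch.loc u) * eta s p (ch.loc v) = 0
    · by_cases h2 : psi s p (ch.loc v) * eta s p (ch.loc u) = 0
      · rw [h1, mul_comm (eta s p _), h2]; simp
      · rw [(z _ _ h2).1, (z _ _ h2).2]; simp
    · rw [(z _ _ h1).1, (z _ _ h1).2]; simp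

omit [Fintype V] [Fintype ι] in
lemma kern_near (ch : Chart G x L) {R s m : ℕ} (hR : 1 ≤ R) (hs : 1 ≤ s) {u v : V}
    (h : (fam ch R s m).kern u v ≠ 0) :
    prof R (ch.loc u) ≠ prof R (ch.loc v) ∧ nrmZ (ch.loc u - ch.loc v) < 5 * s := by
  rw [kern_eq ch hR hs] at h
  refine ⟨fun e => h (by rw [e]; simp), ?_⟩
  obtain ⟨p, -, hp⟩ := Finset.exists_ne_zero_of_sum_ne_zero (right_ne_zero_of_mul h)
  have t1 := nrmZ_triangle (ch.loc u) (pt s p) (ch.loc v)
  rw [nrmZ_comm (pt s p)] at t1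
  by_cases h1 : psi s p (ch.loc u) * eta s p (ch.loc v) = 0
  · have h2 : eta s p (ch.loc u) * psi s p (ch.loc v) ≠ 0 := by simpa [h1] using hp
    have := eta_near (left_ne_zero_of_mul h2)
    have := psi_near hs (right_ne_zero_of_mul h2)
    omega
  · have := psi_near hs (left_ne_zero_of_mul h1)
    have := eta_near (right_ne_zero_of_mul h1)
    omega

omit [Fintype V] [Fintype ι] in
lemma kern_exact (ch : Chart G x L) {R s m : ℕ} (hR : 1 ≤ R) (hs : 1 ≤ s) (hm : R = s * m)
    {u v : V} (hu : nrmZ (ch.loc u) + s ≤ 4 * R) (hv : nrmZ (ch.loc v) + s ≤ 4 * R)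
    (huv : nrmZ (ch.loc u - ch.loc v) ≤ 2 * s) :
    (fam ch R s m).kern u v = prof R (ch.loc u) - prof R (ch.loc v) := by
  have e : 4 * m * s = 4 * R := by rw [hm]; ring
  rw [kern_eq ch hR hs, pair_sum hs (by omega) (by omega) huv]; ring

/-- The standing assumptions on a scale. -/
structure Scale (R s m L : ℕ) : Prop where
  one_le : 1 ≤ s
  eq : R = s * m
  small : 16 * s ≤ R
  fit : 5 * R + 2 ≤ L

lemma Scale.range {R s m L : ℕ} (_H : Scale R s m L) {q : ↥(active R s m)} {v : ℤ × ℤ} {k : ℕ}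
    (h : nrmZ (v - pt s q) ≤ k) :
    2 * R ≤ nrmZ v + (4 * s + k) ∧ nrmZ v ≤ 3 * R + 4 * s + k ∧
      nrmZ (pt s q) ≤ 3 * R + 4 * s := by
  have hq := (Finset.mem_filter.1 q.2).2
  have h1 := nrmZ_le v (pt s q)
  have h2 := nrmZ_le (pt s q) v
  rw [nrmZ_comm (pt s (q : ℤ × ℤ)) v] at h2
  omega

omit [Fintype V] [Fintype ι] in
lemma bond_facts (ch : Chart G x L) {R s m : ℕ} (H : Scale R s m L) (q : ↥(active R s m))
    (c : Bool) {b : ι}
    (h : bump s q c (ch.loc (G.src b)) ≠ 0 ∨ bump s q c (ch.loc (G.tgt b)) ≠ 0) :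
    nrmZ (ch.loc (G.tgt b) - ch.loc (G.src b)) ≤ 1 ∧
      nrmZ (ch.loc (G.src b) - pt s q) ≤ 5 * s := by
  have := H.one_le
  have := H.small
  have := H.fit
  rcases h with h | h
  · have h1 := bump_near H.one_le h
    have h2 := H.range h1.le
    exact ⟨bond_cases ch (Or.inl (by omega)), by omega⟩
  · have h1 := bump_near H.one_le h
    have h2 := H.range h1.le
    have h3 := bond_cases ch (b := b) (Or.inr (by omega))
    have h4 := nrmZ_triangle (ch.loc (G.src b)) (ch.loc (G.tgt b)) (pt s q)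
    rw [nrmZ_comm (ch.loc (G.src b)) (ch.loc (G.tgt b))] at h4
    exact ⟨h3, by omega⟩

omit [Fintype V] [Fintype ι] in
lemma h_bond (ch : Chart G x L) {R s m : ℕ} (H : Scale R s m L) (q : ↥(active R s m)) (c : Bool)
    (b : ι) : |bump s q c (ch.loc (G.tgt b)) - bump s q c (ch.loc (G.src b))| ≤ 2 / s := by
  by_cases h : bump s q c (ch.loc (G.src b)) = 0 ∧ bump s q c (ch.loc (G.tgt b)) = 0
  · rw [h.1, h.2]; simp; positivity
  · rw [not_and_or] at h
    exact bump_step _ _ (bond_facts ch H q c h).1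

omit [Fintype V] [Fintype ι] in
lemma g_bond (ch : Chart G x L) {R s m : ℕ} (H : Scale R s m L) (q : ↥(active R s m)) (c : Bool)
    (b : ι) : |potG R s q c (ch.loc (G.tgt b)) - potG R s q c (ch.loc (G.src b))| ≤ 11 / s := by
  have hR : (0 : ℝ) < R := by have := H.one_le; have := H.small; exact_mod_cast (by omega : 0 < R)
  have hs : (1 : ℝ) ≤ s := by exact_mod_cast H.one_le
  by_cases h : bump s q c (ch.loc (G.src b)) = 0 ∧ bump s q c (ch.loc (G.tgt b)) = 0
  · simp [potG, h.1, h.2]; positivity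
  · rw [not_and_or] at h
    obtain ⟨h1, h2⟩ := bond_facts ch H q c h
    set u := ch.loc (G.src b)
    set v := ch.loc (G.tgt b)
    set a0 := prof R (pt s (q : ℤ × ℤ))
    have h1' : (nrmZ (v - u) : ℝ) ≤ 1 := by exact_mod_cast h1
    have h2' : (nrmZ (u - pt s (q : ℤ × ℤ)) : ℝ) ≤ 5 * s := by exact_mod_cast h2
    have e1 : |prof R v - prof R u| ≤ 1 / R :=
      (prof_lip v u).trans (div_le_div_of_nonneg_right h1' hR.le)
    have e2 : |prof R u - a0| ≤ 5 * s / R :=
      (prof_lip u _).trans (div_le_div_of_nonneg_right h2' hR.le)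
    have e3 := bump_step (s := s) (q : ℤ × ℤ) c h1
    have f1 : |(prof R v - prof R u) * bump s q c v| ≤ 1 / R := by
      rw [abs_mul, abs_of_nonneg (bump_nonneg _ _ _)]
      exact (mul_le_of_le_one_right (abs_nonneg _) (bump_le_one _ _ _)).trans e1
    have f2 : |(prof R u - a0) * (bump s q c v - bump s q c u)| ≤ 10 / R := by
      rw [abs_mul]
      refine (mul_le_mul e2 e3 (abs_nonneg _) (by positivity)).trans_eq ?_
      field_simp; ring
    have f3 := (abs_add_le _ _).trans (add_le_add f1 f2)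
    rw [show potG R s q c v - potG R s q c u = (R : ℝ) / s * ((prof R v - prof R u) *
      bump s q c v + (prof R u - a0) * (bump s q c v - bump s q c u)) by simp only [potG]; ring,
      abs_mul, abs_of_nonneg (by positivity : (0 : ℝ) ≤ (R : ℝ) / s)]
    refine (mul_le_mul_of_nonneg_left f3 (by positivity)).trans_eq ?_
    field_simp; ring

lemma g_abs {R s : ℕ} (hR : 1 ≤ R) (hs : 1 ≤ s) (p : ℤ × ℤ) (c : Bool) (v : ℤ × ℤ) :
    |potG R s p c v| ≤ 4 := by
  have hR' : (0 : ℝ) < R := by exact_mod_cast hR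
  have hs' : (0 : ℝ) < s := by exact_mod_cast hs
  by_cases h : bump s p c v = 0
  · simp [potG, h]
  · have h' : (nrmZ (v - pt s p) : ℝ) ≤ 4 * s := by exact_mod_cast (bump_near hs h).le
    have e := (prof_lip (R := R) v (pt s p)).trans (div_le_div_of_nonneg_right h' hR'.le)
    rw [potG, abs_mul, abs_mul, abs_of_nonneg (bump_nonneg _ _ _),
      abs_of_nonneg (by positivity : (0 : ℝ) ≤ (R : ℝ) / s)]
    refine (mul_le_mul_of_nonneg_left
      ((mul_le_of_le_one_right (abs_nonneg _) (bump_le_one _ _ _)).trans e)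
      (by positivity)).trans_eq ?_
    field_simp

omit [Fintype V] in
lemma small_sum (ch : Chart G x L) {R s m : ℕ} (H : Scale R s m L) (q : ↥(active R s m))
    (A : ι → ℝ) {B : ℝ} (hB : 0 ≤ B) (hB' : B ≤ 60) (hb : ∀ b, |A b| ≤ B / s)
    (hsupp : ∀ b, A b ≠ 0 → ∃ c, bump s q c (ch.loc (G.src b)) ≠ 0 ∨
      bump s q c (ch.loc (G.tgt b)) ≠ 0) : ∑ b, A b ^ 2 ≤ cE := by
  have hs : (1 : ℝ) ≤ s := by exact_mod_cast H.one_le
  have h3 := (Finset.mem_filter.1 q.2).2.2
  refine (sum_sq_le ch A (by positivity) (pt s q) (5 * s) hb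
    (by have := H.fit; have := H.small; have := H.one_le; omega) fun b hb' => ?_).trans ?_
  · obtain ⟨c, hc⟩ := hsupp b hb'
    exact (bond_facts ch H q c hc).2
  · push_cast
    rw [cE, div_pow, mul_div_assoc', div_le_iff₀ (by positivity)]
    have : (2 * (5 * (s : ℝ)) + 1) ^ 2 ≤ (11 * s) ^ 2 := by gcongr; linarith
    nlinarith [mul_le_mul this (pow_le_pow_left₀ hB hB' 2) (sq_nonneg B) (sq_nonneg (11 * (s : ℝ)))]

omit [Fintype V] in
lemma fam_good (ch : Chart G x L) {R s m : ℕ} (H : Scale R s m L) :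
    (fam ch R s m).Good G {u | R < nrmZ (ch.loc u) ∧ nrmZ (ch.loc u) < 5 * R}
      (fun u => prof R (ch.loc u)) ((s : ℝ) / (2 * R)) := by
  have hs1 := H.one_le
  have hR : 1 ≤ R := by have := H.small; omega
  have hR' : (0 : ℝ) < R := by exact_mod_cast hR
  refine ⟨fun q u hu => ?_, fun q u hu => ?_, fun b => ?_, fun q => ?_, fun q => ?_, fun q => ?_,
    fun q => le_of_eq (abs_of_nonneg (show (0 : ℝ) ≤ (s : ℝ) / (2 * R) by positivity)), ?_,
    fun q => ?_⟩
  · have z : ∀ c, bump s q.1 c (ch.loc u) = 0 := fun c => by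
      by_contra h; exact hu (bump_near hs1 h)
    exact ⟨by simp [fam, potG, z], z _⟩
  · have h := H.range (show nrmZ (ch.loc u - pt s q.1) ≤ 4 * s from hu.le)
    have := H.small
    exact ⟨by omega, by omega⟩
  · by_cases he : prof R (ch.loc (G.src b)) = prof R (ch.loc (G.tgt b))
    · rw [kern_eq ch hR hs1, dd, he]; simp
    · have hn := prof_near he
      have := H.fit
      have := H.small
      have h1 := bond_cases ch (b := b) (by omega)
      have h2 := nrmZ_le (ch.loc (G.tgt b)) (ch.loc (G.src b))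
      have h3 := nrmZ_le (ch.loc (G.src b)) (ch.loc (G.tgt b))
      have h4 := nrmZ_comm (ch.loc (G.src b)) (ch.loc (G.tgt b))
      rw [kern_exact ch hR hs1 H.eq (by omega) (by omega) (by omega)]
      rfl
  · refine small_sum ch H q.1 _ (B := 11) (by norm_num) (by norm_num) (fun b => ?_) fun b hb => ?_
    · rw [dd, abs_sub_comm]; exact g_bond ch H q.1 q.2 b
    · refine ⟨q.2, ?_⟩
      by_contra h
      rw [not_or, not_not, not_not] at h
      exact hb (by simp [dd, fam, potG, h.1, h.2])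
  · refine small_sum ch H q.1 _ (B := 2) (by norm_num) (by norm_num) (fun b => ?_) fun b hb => ?_
    · rw [dd, abs_sub_comm]; exact h_bond ch H q.1 (!q.2) b
    · refine ⟨!q.2, ?_⟩
      by_contra h
      rw [not_or, not_not, not_not] at h
      exact hb (by simp [dd, fam, h.1, h.2])
  · refine small_sum ch H q.1 _ (B := 19) (by norm_num) (by norm_num) (fun b => ?_) fun b hb => ?_
    · have a1 := g_abs (R := R) hR hs1 (q.1 : ℤ × ℤ) q.2 (ch.loc (G.src b))
      have a2 := h_bond ch H q.1 (!q.2) b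
      have a3 := g_bond ch H q.1 q.2 b
      show |potG R s q.1 q.2 _ * bump s q.1 (!q.2) _ - bump s q.1 (!q.2) _ * potG R s q.1 q.2 _| ≤ _
      set g := potG R s q.1 q.2 (ch.loc (G.src b))
      set g' := potG R s q.1 q.2 (ch.loc (G.tgt b))
      set h := bump s q.1 (!q.2) (ch.loc (G.src b))
      set h' := bump s q.1 (!q.2) (ch.loc (G.tgt b))
      have c1 : |g * (h' - h)| ≤ 4 * (2 / s) := by
        rw [abs_mul]; exact mul_le_mul a1 a2 (abs_nonneg _) (by norm_num)
      have hn : 0 ≤ h := bump_nonneg _ _ _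
      have hl : h ≤ 1 := bump_le_one _ _ _
      have c2 : |h * (g' - g)| ≤ 1 * (11 / s) := by
        rw [abs_mul]
        exact mul_le_mul (abs_le.2 ⟨by linarith, hl⟩) a3 (abs_nonneg _) zero_le_one
      rw [show g * h' - h * g' = g * (h' - h) - h * (g' - g) by ring]
      refine ((abs_sub _ _).trans (add_le_add c1 c2)).trans_eq ?_
      ring
    · refine ⟨q.2, ?_⟩
      by_contra h
      rw [not_or, not_not, not_not] at h
      exact hb (by simp [kw, fam, potG, h.1, h.2])
  · have hc : Fintype.card (fam ch R s m).idx ≤ 2 * (8 * m + 1) ^ 2 := by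
      show Fintype.card (↥(active R s m) × Bool) ≤ _
      rw [Fintype.card_prod, Fintype.card_coe, Fintype.card_bool]
      have : (active R s m).card ≤ (coarse (4 * m)).card := Finset.card_filter_le _ _
      have e : (coarse (4 * m)).card = (8 * m + 1) ^ 2 := by
        rw [coarse, Finset.card_product, Int.card_Icc, sq]
        congr 1 <;> omega
      omega
    have hm : 1 ≤ m := by
      rcases Nat.eq_zero_or_pos m with h | h
      · exfalso; have := H.eq; rw [h, mul_zero] at this; omega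
      · exact h
    have hm' : (1 : ℝ) ≤ m := by exact_mod_cast hm
    have hs' : (0 : ℝ) < s := by exact_mod_cast hs1
    have hcR : (Fintype.card (fam ch R s m).idx : ℝ) ≤ 2 * (8 * m + 1) ^ 2 := by exact_mod_cast hc
    have eR : (R : ℝ) = s * m := by exact_mod_cast H.eq
    calc (Fintype.card (fam ch R s m).idx : ℝ) * ((s : ℝ) / (2 * R)) ^ 2
        ≤ 2 * (9 * (m : ℝ)) ^ 2 * ((s : ℝ) / (2 * R)) ^ 2 := by
          refine mul_le_mul_of_nonneg_right (hcR.trans ?_) (sq_nonneg _)
          gcongr; linarith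
      _ = 81 / 2 := by rw [eR]; field_simp; ring
      _ ≤ cE := by norm_num [cE]
  · set C := Finset.Icc ((q.1 : ℤ × ℤ).1 - (9 : ℕ)) ((q.1 : ℤ × ℤ).1 + (9 : ℕ)) ×ˢ
      Finset.Icc ((q.1 : ℤ × ℤ).2 - (9 : ℕ)) ((q.1 : ℤ × ℤ).2 + (9 : ℕ)) with hC
    refine le_trans (Nat.cast_le.2 (Finset.card_le_card_of_injOn
      (t := C ×ˢ (Finset.univ : Finset Bool)) (fun q' => ((q'.1 : ℤ × ℤ), q'.2))
      (fun q' hq' => ?_) ?_)) ?_
    · obtain ⟨u, hu, v, hv, huv⟩ := (Finset.mem_filter.1 hq').2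
      have hu' : nrmZ (ch.loc u - pt s q.1) < 4 * s := hu
      have hv' : nrmZ (ch.loc v - pt s q'.1) < 4 * s := hv
      have hru := H.range hu'.le
      have := H.small
      have := H.fit
      have huv' : nrmZ (ch.loc u - ch.loc v) ≤ 1 := by
        rcases huv with rfl | ⟨b, ⟨rfl, rfl⟩ | ⟨rfl, rfl⟩⟩
        · simp [nrmZ]
        · rw [nrmZ_comm]; exact bond_cases ch (Or.inl (by omega))
        · exact bond_cases ch (Or.inr (by omega))
      have t1 := nrmZ_triangle (pt s q.1) (ch.loc u) (ch.loc v)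
      have t2 := nrmZ_triangle (pt s q.1) (ch.loc v) (pt s q'.1)
      rw [nrmZ_comm (pt s (q.1 : ℤ × ℤ)) (ch.loc u)] at t1
      have ht : nrmZ (pt s (q.1 : ℤ × ℤ) - pt s (q'.1 : ℤ × ℤ)) < 10 * s := by omega
      have key : ∀ a a' : ℤ, (a * (s : ℤ) - a' * (s : ℤ)).natAbs < 10 * s →
          (a - a').natAbs ≤ 9 := fun a a' h => by
        rw [← sub_mul, Int.natAbs_mul, Int.natAbs_natCast] at h
        have := Nat.lt_of_mul_lt_mul_right h
        omega
      simp only [nrmZ, pt, Prod.fst_sub, Prod.snd_sub, max_lt_iff] at ht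
      have k1 := key _ _ ht.1
      have k2 := key _ _ ht.2
      simp only [hC, Finset.mem_coe, Finset.mem_product, Finset.mem_univ, and_true,
        Finset.mem_Icc, Nat.cast_ofNat]
      omega
    · intro a _ b _ e
      simp only [Prod.mk.injEq] at e
      exact Prod.ext (Subtype.ext e.1) e.2
    · rw [hC, Finset.card_product, card_box, Finset.card_univ, Fintype.card_bool]
      norm_num [cE]

omit [Fintype V] [Fintype ι] in
lemma fam_decoupled (ch : Chart G x L) {R s m s' m' : ℕ} (H : Scale R s m L)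
    (H' : Scale R s' m' L) (hss : 8 * s ≤ s') :
    Decoupled G (fam ch R s m) (fam ch R s' m') := by
  intro b b' hex
  obtain ⟨u, v, hu, hv, hk⟩ := hex
  have hs1 := H.one_le
  have := H'.small
  have := H.fit
  have hR : 1 ≤ R := by omega
  obtain ⟨hne, hd⟩ := kern_near ch hR hs1 hk
  have hn := prof_near hne
  have huv := nrmZ_le (ch.loc u) (ch.loc v)
  have hvu := nrmZ_le (ch.loc v) (ch.loc u)
  have hc := nrmZ_comm (ch.loc u) (ch.loc v)
  have hu5 : nrmZ (ch.loc u) < 3 * R + 5 * s := by omega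
  have hv5 : nrmZ (ch.loc v) < 3 * R + 5 * s := by omega
  have near : ∀ (b : ι) (z : V), (z = G.src b ∨ z = G.tgt b) → nrmZ (ch.loc z) < 3 * R + 5 * s →
      nrmZ (ch.loc (G.src b) - ch.loc z) ≤ 1 ∧ nrmZ (ch.loc (G.tgt b) - ch.loc z) ≤ 1 := by
    intro b z hz h5
    rcases hz with rfl | rfl
    · exact ⟨by simp [nrmZ], bond_cases ch (Or.inl (by omega))⟩
    · exact ⟨by rw [nrmZ_comm]; exact bond_cases ch (Or.inr (by omega)), by simp [nrmZ]⟩
  obtain ⟨a1, a2⟩ := near b u hu hu5
  obtain ⟨a3, a4⟩ := near b' v hv hv5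
  have ex : ∀ p q : V, nrmZ (ch.loc p - ch.loc u) ≤ 1 → nrmZ (ch.loc q - ch.loc v) ≤ 1 →
      (fam ch R s' m').kern p q = prof R (ch.loc p) - prof R (ch.loc q) := by
    intro p q hp hq
    have := nrmZ_le (ch.loc p) (ch.loc u)
    have := nrmZ_le (ch.loc q) (ch.loc v)
    have := nrmZ_triangle (ch.loc p) (ch.loc u) (ch.loc q)
    have := nrmZ_triangle (ch.loc u) (ch.loc v) (ch.loc q)
    have := nrmZ_comm (ch.loc v) (ch.loc q)
    exact kern_exact ch hR H'.one_le H'.eq (by omega) (by omega) (by omega)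
  simp only [dd2, ex _ _ a1 a3, ex _ _ a1 a4, ex _ _ a2 a3, ex _ _ a2 a4]
  ring

/-- The potentials at all scales exist. -/
theorem test_stmt : TestStmt := by
  intro V ι _ _ G x L K ch hK hL
  set R := 16 * 8 ^ K with hRdef
  have hR : 1 ≤ R := by have : 0 < 8 ^ K := by positivity
                        omega
  have hsc : ∀ j : Fin K, Scale R (8 ^ (j : ℕ)) (16 * 8 ^ (K - j)) L := fun j => by
    have e : 8 ^ (j : ℕ) * 8 ^ (K - j) = 8 ^ K := by
      rw [← pow_add]; congr 1; omega
    have : 8 ^ (j : ℕ) ≤ 8 ^ K := Nat.pow_le_pow_right (by norm_num) j.2.le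
    exact ⟨Nat.one_le_pow _ _ (by norm_num), by rw [hRdef, ← e]; ring, by omega, hL⟩
  refine ⟨fun u => prof R (ch.loc u), fun j => fam ch R (8 ^ (j : ℕ)) (16 * 8 ^ (K - j)),
    fun j => ((8 ^ (j : ℕ) : ℕ) : ℝ) / (2 * R), fun u hu => ?_, fun u hu => ?_, ?_,
    fun j => fam_good ch (hsc j), fun s t hst => fam_decoupled ch (hsc s) (hsc t) ?_⟩
  · simp only [Set.mem_ofPred_eq, not_lt] at hu
    exact prof_zero (by omega)
  · exact prof_one hR (by omega)
  · have hR' : (1 : ℝ) ≤ R := by exact_mod_cast hR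
    refine (sum_sq_le ch _ (B := 1 / R) (by positivity) 0 (3 * R + 1) (fun b => ?_)
      (by simp [nrmZ]; omega) fun b hb => ?_).trans ?_
    · show |prof R (ch.loc (G.src b)) - prof R (ch.loc (G.tgt b))| ≤ _
      by_cases he : prof R (ch.loc (G.src b)) = prof R (ch.loc (G.tgt b))
      · rw [he, sub_self, abs_zero]; positivity
      · have := prof_near he
        have h1 := bond_cases ch (b := b) (by omega)
        have h1' : (nrmZ (ch.loc (G.tgt b) - ch.loc (G.src b)) : ℝ) ≤ 1 := by exact_mod_cast h1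
        rw [abs_sub_comm]
        exact (prof_lip _ _).trans (div_le_div_of_nonneg_right h1' (by linarith))
    · have he : prof R (ch.loc (G.src b)) ≠ prof R (ch.loc (G.tgt b)) := fun e =>
        hb (by simp [dd, e])
      have := prof_near he
      have h1 := bond_cases ch (b := b) (by omega)
      have h2 := nrmZ_le (ch.loc (G.src b)) (ch.loc (G.tgt b))
      rw [nrmZ_comm] at h1
      rw [sub_zero]
      omega
    · push_cast
      rw [cE, div_pow, one_pow, mul_one_div, div_le_iff₀ (by positivity)]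
      nlinarith
  · calc 8 * 8 ^ (s : ℕ) = 8 ^ ((s : ℕ) + 1) := by ring
      _ ≤ 8 ^ (t : ℕ) := Nat.pow_le_pow_right (by norm_num) hst

end Vale.Agent.P163.Gap.Test
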