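import Vale.Agent.P163.Gap.Insens
import Vale.Agent.P163.Gap.Diag
import Vale.Agent.P163.Gap.Test
import Vale.Agent.P163.Gap.Sign
import Vale.Agent.P163.Gap.Comp
import Vale.Agent.P163.Gap.Chain
import Vale.Agent.P163.Gap.Ball
import Vale.Agent.P163.Gap.Peel
import Vale.Agent.P163.Gap.Spaces
import Vale.Agent.P163.Gap.Final
import Vale.Agent.P163.Gap.Cond
import Vale.Agent.P163.Gap.PackWard
import Vale.Agent.P163.Gap.Mean
import Vale.Agent.P163.Gap.Cross
import Vale.Agent.P163.Gap.DecayMain

/-!
Assembly of exponential decay at every inverse temperature for `n ≥ 3`.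
-/

noncomputable section

namespace Vale.Agent.P163.Gap

/-- Exponential decay in finite boxes and in every infinite-volume state. -/
theorem final_goal : FinalGoal :=
  have hP := Pack.packWard_stmt cond_stmt
  final_stmt (decay_of_parts (ball_stmt cond_stmt
      (Insens.insens_stmt cond_stmt (mean_stmt hP) (cross_stmt cond_stmt hP)
        (Pack.diag_stmt cond_stmt) Test.test_stmt))
    (peel_stmt cond_stmt) sign_stmt comp_stmt chain_stmt square_stmt) spaces_stmt

end Vale.Agent.P163.Gap
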