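import Vale.Agent.P163.Gap.Spec

/-!
Integrability and linearity of the conditioned expectations.
-/

noncomputable section

namespace Vale.Agent.P163.Gap

open MeasureTheory Metric Helicity
open scoped RealInnerProductSpace Classical

section Glue

variable {n : ℕ} {V : Type}

lemma glue_of_mem {D : Set V} (η σ : V → Spin n) {x : V} (h : x ∈ D) : glue D η σ x = σ x :=
  if_pos h

lemma glue_of_notMem {D : Set V} (η σ : V → Spin n) {x : V} (h : x ∉ D) : glue D η σ x = η x :=
  if_neg h

lemma continuous_glue (D : Set V) (η : V → Spin n) : Continuous (glue D η) := by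
  refine continuous_pi fun x => ?_
  by_cases h : x ∈ D
  · simpa only [glue, if_pos h] using continuous_apply x
  · simpa only [glue, if_neg h] using continuous_const

lemma continuous_glue₂ (D : Set V) :
    Continuous fun p : (V → Spin n) × (V → Spin n) => glue D p.1 p.2 := by
  refine continuous_pi fun x => ?_
  by_cases h : x ∈ D
  · simp only [glue, if_pos h]; fun_prop
  · simp only [glue, if_neg h]; fun_prop

lemma measurable_glue [Finite V] (D : Set V) (η : V → Spin n) : Measurable (glue D η) :=
  (continuous_glue D η).measurable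

lemma measurable_glue₂ [Finite V] (D : Set V) :
    Measurable fun p : (V → Spin n) × (V → Spin n) => glue D p.1 p.2 :=
  (continuous_glue₂ D).measurable

lemma glue_self (D : Set V) (η σ : V → Spin n) : glue D η (glue D η σ) = glue D η σ := by
  funext x; simp only [glue]; split_ifs <;> rfl

lemma glue_univ (η σ : V → Spin n) : glue Set.univ η σ = σ := by funext x; simp [glue]

lemma glue_glue {D D' : Set V} (h : D ⊆ D') (η σ τ : V → Spin n) :
    glue D (glue D' η σ) τ = glue D' η (glue D σ τ) := by
  funext x
  by_cases hx : x ∈ D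
  · simp [glue, hx, h hx]
  · simp [glue, hx]

lemma glue_glue_left (D : Set V) (η σ τ : V → Spin n) :
    glue D (glue D η σ) τ = glue D η τ := by
  funext x; simp only [glue]; split_ifs <;> rfl

end Glue

variable {n : ℕ} [NeZero n] {V ι : Type} [Fintype V] [Fintype ι]

lemma obs_of_continuous {F : (V → Spin n) → ℝ} (hF : Continuous F) : ∃ M, Obs M F := by
  obtain ⟨C, hC⟩ := isCompact_univ.exists_bound_of_continuousOn hF.continuousOn
  exact ⟨C, hF.measurable, fun σ => hC σ (Set.mem_univ σ)⟩

variable {G : Helicity.Graph V ι} {β : ℝ} {D : Set V} {η : V → Spin n}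

lemma exists_exp_bound (G : Helicity.Graph V ι) (β : ℝ) :
    ∃ C, ∀ σ : V → Spin n, Real.exp (β * en G σ) ≤ C := by
  obtain ⟨C, hC⟩ := isCompact_univ.exists_bound_of_continuousOn
    (show Continuous fun σ : V → Spin n => Real.exp (β * en G σ) by fun_prop).continuousOn
  exact ⟨C, fun σ => (le_abs_self _).trans (hC σ (Set.mem_univ σ))⟩

lemma integrable_obs {F : (V → Spin n) → ℝ} {M : ℝ} (hF : Obs M F) :
    Integrable (fun σ => F (glue D η σ) * Real.exp (β * en G (glue D η σ))) (freeLaw V n) := by
  obtain ⟨C, hC⟩ := exists_exp_bound (n := n) G β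
  have hm : Measurable fun τ => F τ * Real.exp (β * en G τ) := hF.1.mul (by fun_prop)
  refine Integrable.of_bound (hm.comp (measurable_glue D η)).aestronglyMeasurable (M * C)
    (Filter.Eventually.of_forall fun σ => ?_)
  rw [norm_mul, Real.norm_eq_abs, Real.norm_eq_abs, abs_of_pos (Real.exp_pos _)]
  exact mul_le_mul (hF.2 _) (hC _) (Real.exp_pos _).le ((abs_nonneg _).trans (hF.2 η))

lemma integrable_cav {F : (V → Spin n) → ℝ} (hF : Continuous F) :
    Integrable (fun σ => F (glue D η σ) * Real.exp (β * en G (glue D η σ))) (freeLaw V n) :=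
  integrable_obs (obs_of_continuous hF).choose_spec

omit [NeZero n] in
lemma cav_congr {F K : (V → Spin n) → ℝ} (h : ∀ σ, F (glue D η σ) = K (glue D η σ)) :
    cav G β D η F = cav G β D η K := by
  simp only [cav, h]

omit [NeZero n] in
lemma cav_const_mul (c : ℝ) (F : (V → Spin n) → ℝ) :
    cav G β D η (fun σ => c * F σ) = c * cav G β D η F := by
  simp only [cav, mul_assoc, integral_const_mul]

omit [NeZero n] in
lemma cav_neg (F : (V → Spin n) → ℝ) : cav G β D η (fun σ => -F σ) = -cav G β D η F := by
  simp only [cav, neg_mul, integral_neg]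

omit [NeZero n] in
lemma cav_zero : cav G β D η (fun _ => (0 : ℝ)) = 0 := by simp [cav]

lemma cav_add {F K : (V → Spin n) → ℝ} (hF : Continuous F) (hK : Continuous K) :
    cav G β D η (fun σ => F σ + K σ) = cav G β D η F + cav G β D η K := by
  simp only [cav, add_mul]
  exact integral_add (integrable_cav hF) (integrable_cav hK)

lemma cav_sub {F K : (V → Spin n) → ℝ} (hF : Continuous F) (hK : Continuous K) :
    cav G β D η (fun σ => F σ - K σ) = cav G β D η F - cav G β D η K := by
  simp only [cav, sub_mul]
  exact integral_sub (integrable_cav hF) (integrable_cav hK)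

lemma cav_sum {κ : Type*} (s : Finset κ) {f : κ → (V → Spin n) → ℝ}
    (hf : ∀ k ∈ s, Continuous (f k)) :
    cav G β D η (fun σ => ∑ k ∈ s, f k σ) = ∑ k ∈ s, cav G β D η (f k) := by
  simp only [cav, Finset.sum_mul]
  exact integral_finsetSum _ fun k hk => integrable_cav (hf k hk)

lemma cav_add_obs {F K : (V → Spin n) → ℝ} {M M' : ℝ} (hF : Obs M F) (hK : Obs M' K) :
    cav G β D η (fun σ => F σ + K σ) = cav G β D η F + cav G β D η K := by
  simp only [cav, add_mul]
  exact integral_add (integrable_obs hF) (integrable_obs hK)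

lemma cav_sub_obs {F K : (V → Spin n) → ℝ} {M M' : ℝ} (hF : Obs M F) (hK : Obs M' K) :
    cav G β D η (fun σ => F σ - K σ) = cav G β D η F - cav G β D η K := by
  simp only [cav, sub_mul]
  exact integral_sub (integrable_obs hF) (integrable_obs hK)

lemma cav_mono {F K : (V → Spin n) → ℝ} (hF : Continuous F) (hK : Continuous K)
    (h : ∀ σ, F σ ≤ K σ) : cav G β D η F ≤ cav G β D η K :=
  integral_mono (integrable_cav hF) (integrable_cav hK) fun σ =>
    mul_le_mul_of_nonneg_right (h _) (Real.exp_pos _).le

omit [NeZero n] in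
lemma cav_nonneg {F : (V → Spin n) → ℝ} (h : ∀ σ, 0 ≤ F σ) : 0 ≤ cav G β D η F :=
  integral_nonneg fun σ => mul_nonneg (h _) (Real.exp_pos _).le

lemma cav_one_pos : 0 < cav G β D η (fun _ => (1 : ℝ)) := by
  simp only [cav, one_mul]
  refine integral_exp_pos ?_
  have h : Integrable (fun σ => (fun _ => (1 : ℝ)) (glue D η σ) *
      Real.exp (β * en G (glue D η σ))) (freeLaw V n) := integrable_cav continuous_const
  simpa using h

lemma abs_cav_le {F : (V → Spin n) → ℝ} {M : ℝ} (hF : Obs M F) :
    |cav G β D η F| ≤ M * cav G β D η fun _ => 1 := by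
  refine abs_integral_le_integral_abs.trans ?_
  rw [cav, ← integral_const_mul]
  refine integral_mono (integrable_obs hF).abs
    ((integrable_cav (F := fun _ : V → Spin n => (1 : ℝ)) continuous_const).const_mul M) fun σ => ?_
  simp only [abs_mul, abs_of_pos (Real.exp_pos _), one_mul]
  exact mul_le_mul_of_nonneg_right (hF.2 _) (Real.exp_pos _).le

lemma abs_cexp_le {F : (V → Spin n) → ℝ} {M : ℝ} (hF : Obs M F) : |cexp G β D F η| ≤ M := by
  rw [cexp, abs_div, abs_of_pos (cav_one_pos (G := G) (β := β) (D := D) (η := η)),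
    div_le_iff₀ cav_one_pos]
  exact abs_cav_le hF

/-- The Cauchy–Schwarz inequality. -/
lemma cav_mul_sq_le {F K : (V → Spin n) → ℝ} (hF : Continuous F) (hK : Continuous K) :
    cav G β D η (fun σ => F σ * K σ) ^ 2 ≤
      cav G β D η (fun σ => F σ * F σ) * cav G β D η (fun σ => K σ * K σ) := by
  have h : ∀ t : ℝ, 0 ≤ cav G β D η (fun σ => K σ * K σ) * (t * t) +
      (-2 * cav G β D η (fun σ => F σ * K σ)) * t + cav G β D η (fun σ => F σ * F σ) := fun t => by
    have h0 : 0 ≤ cav G β D η fun σ => (F σ - t * K σ) * (F σ - t * K σ) :=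
      cav_nonneg fun σ => mul_self_nonneg _
    have e : (fun σ => (F σ - t * K σ) * (F σ - t * K σ)) =
        fun σ => t * t * (K σ * K σ) - 2 * t * (F σ * K σ) + F σ * F σ := by funext σ; ring
    rw [e, cav_add (by fun_prop) (by fun_prop), cav_sub (by fun_prop) (by fun_prop),
      cav_const_mul, cav_const_mul] at h0
    linarith
  have hd := discrim_le_zero h
  simp only [discrim] at hd
  nlinarith [hd]

end Vale.Agent.P163.Gap
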