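import Vale.Agent.P163.Defs

/-!
Infinite-volume states of the `O(n)` model on the square lattice.
-/

noncomputable section

namespace Vale.Agent.P163.Gap

open MeasureTheory Metric Filter
open scoped RealInnerProductSpace

/-- The first coordinate vector, as a spin. -/
def spinOne (n : ℕ) [NeZero n] : Spin n := ⟨EuclideanSpace.single 0 1, by simp⟩

/-- A configuration of a finite set, continued by a fixed spin outside it. -/
def boxExtend {n : ℕ} [NeZero n] (Λ : Finset (ℤ × ℤ)) (σ : ↥Λ → Spin n) : ℤ × ℤ → Spin n :=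
  fun x => if h : x ∈ Λ then σ ⟨x, h⟩ else spinOne n

/-- The expectation of `F` in the finite set `Λ` with free boundary conditions. -/
def boxExpect (n : ℕ) [NeZero n] (β : ℝ) (Λ : Finset (ℤ × ℤ)) (F : (ℤ × ℤ → Spin n) → ℝ) : ℝ :=
  (∫ σ, F (boxExtend Λ σ) * Real.exp (β * bondSum (boxBonds Λ) σ) ∂freeLaw ↥Λ n) /
    ∫ σ, Real.exp (β * bondSum (boxBonds Λ) σ) ∂freeLaw ↥Λ n

/-- The bonds of a rectangular torus, one for each site and direction. -/
def rectBonds (a b : ℕ) [NeZero a] [NeZero b] :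
    Finset ((ZMod a × ZMod b) × (ZMod a × ZMod b)) :=
  Finset.univ.filter fun e => e.2 = e.1 + (1, 0) ∨ e.2 = e.1 + (0, 1)

/-- The periodic configuration of the plane given by a configuration of a torus. -/
def torusExtend {n a b : ℕ} (σ : ZMod a × ZMod b → Spin n) : ℤ × ℤ → Spin n :=
  fun x => σ ((x.1 : ZMod a), (x.2 : ZMod b))

/-- The expectation of `F` with periodic boundary conditions. -/
def torusExpect (n : ℕ) (β : ℝ) (a b : ℕ) [NeZero a] [NeZero b]
    (F : (ℤ × ℤ → Spin n) → ℝ) : ℝ :=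
  (∫ σ, F (torusExtend σ) * Real.exp (β * bondSum (rectBonds a b) σ)
      ∂freeLaw (ZMod a × ZMod b) n) /
    ∫ σ, Real.exp (β * bondSum (rectBonds a b) σ) ∂freeLaw (ZMod a × ZMod b) n

/-- A continuous function of finitely many spins. -/
def IsLocal {n : ℕ} (F : (ℤ × ℤ → Spin n) → ℝ) : Prop :=
  Continuous F ∧ ∃ S : Finset (ℤ × ℤ), ∀ σ τ, (∀ x ∈ S, σ x = τ x) → F σ = F τ

/-- A local weak limit of free-boundary measures on finite sets exhausting the plane, or of
periodic measures on tori whose two sides tend to infinity. -/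
def IsInfiniteVolumeState (n : ℕ) [NeZero n] (β : ℝ)
    (μ : Measure (ℤ × ℤ → Spin n)) : Prop :=
  IsProbabilityMeasure μ ∧
    ((∃ Λ : ℕ → Finset (ℤ × ℤ), (∀ S : Finset (ℤ × ℤ), ∀ᶠ k in atTop, S ⊆ Λ k) ∧
        ∀ F, IsLocal F → Tendsto (fun k => boxExpect n β (Λ k) F) atTop (nhds (∫ σ, F σ ∂μ))) ∨
      ∃ a b : ℕ → ℕ, Tendsto a atTop atTop ∧ Tendsto b atTop atTop ∧
        ∀ F, IsLocal F →
          Tendsto (fun k => torusExpect n β (a k + 1) (b k + 1) F) atTop (nhds (∫ σ, F σ ∂μ)))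

/-- The Euclidean distance of two sites. -/
def siteDist (x y : ℤ × ℤ) : ℝ :=
  Real.sqrt (((x.1 : ℝ) - y.1) ^ 2 + ((x.2 : ℝ) - y.2) ^ 2)

end Vale.Agent.P163.Gap
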