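import Vale.Agent.P163.Helicity.Model
import Vale.Agent.P163.Gap.Statement

/-!
Conditioned expectations, packet families and charts.
-/

noncomputable section

namespace Vale.Agent.P163.Gap

open MeasureTheory Metric Helicity
open scoped RealInnerProductSpace Classical

variable {n : ℕ} {V ι : Type} [Fintype V] [Fintype ι]

/-- The graph with the bonds of a finite set of pairs. -/
def ofBonds (E : Finset (V × V)) : Helicity.Graph V ↥E where
  src b := b.1.1
  tgt b := b.1.2

/-- `σ` on `D`, `η` elsewhere. -/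
def glue (D : Set V) (η σ : V → Spin n) : V → Spin n := fun x => if x ∈ D then σ x else η x

variable (G : Helicity.Graph V ι)

/-- The unnormalised expectation with the spins outside `D` frozen to `η`. -/
def cav (β : ℝ) (D : Set V) (η : V → Spin n) (F : (V → Spin n) → ℝ) : ℝ :=
  ∫ σ, F (glue D η σ) * Real.exp (β * en G (glue D η σ)) ∂freeLaw V n

/-- The conditional expectation given the spins outside `D`. -/
def cexp (β : ℝ) (D : Set V) (F : (V → Spin n) → ℝ) (η : V → Spin n) : ℝ :=
  cav G β D η F / cav G β D η fun _ => 1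

/-- `g` vanishes outside `D`. -/
def Supp (g : V → ℝ) (D : Set V) : Prop := ∀ x, x ∉ D → g x = 0

/-- Bounded measurable observables. -/
def Obs (M : ℝ) (F : (V → Spin n) → ℝ) : Prop := Measurable F ∧ ∀ σ, |F σ| ≤ M

/-- `F` changes sign under the global rotation by `π` in a coordinate plane. -/
def OddPi {i j : Fin n} (h : i ≠ j) (F : (V → Spin n) → ℝ) : Prop :=
  ∀ σ, F (rot h (fun _ => 1) Real.pi σ) = -F σ

/-- Adjacency. -/
def Adj (x y : V) : Prop :=
  ∃ b, (G.src b = x ∧ G.tgt b = y) ∨ (G.src b = y ∧ G.tgt b = x)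

/-- The outer boundary of `D`. -/
def bdry (D : Set V) : Set V := {x | x ∉ D ∧ ∃ y ∈ D, Adj G x y}

/-- The current packet. -/
def pk (i j k : Fin n) (g h : V → ℝ) (σ : V → Spin n) : ℝ :=
  cur G i k (dd G g) σ * cur G j k (dd G h) σ - cur G i k (dd G h) σ * cur G j k (dd G g) σ

/-- The bond field of a packet. -/
def kw (g h : V → ℝ) (b : ι) : ℝ := g (G.src b) * h (G.tgt b) - h (G.src b) * g (G.tgt b)

/-- A weighted family of packets. -/
structure Fam (V : Type) : Type 1 where
  /-- The index type. -/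
  idx : Type
  /-- It is finite. -/
  fin : Fintype idx
  /-- The coefficients. -/
  c : idx → ℝ
  /-- The first potentials. -/
  g : idx → V → ℝ
  /-- The second potentials. -/
  h : idx → V → ℝ
  /-- The supports. -/
  sp : idx → Set V

attribute [instance] Fam.fin

/-- The kernel of a family. -/
def Fam.kern (f : Fam V) (u v : V) : ℝ := ∑ p, f.c p * (f.g p u * f.h p v - f.h p u * f.g p v)

/-- The quadratic representative of the current carried by a family. -/
def fX (β : ℝ) (i j k : Fin n) (f : Fam V) (σ : V → Spin n) : ℝ :=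
  -β * ∑ p, f.c p * pk G i j k (f.g p) (f.h p) σ

/-- The mixed second difference of a kernel at two bonds. -/
def dd2 (N : V → V → ℝ) (b b' : ι) : ℝ :=
  N (G.src b) (G.src b') - N (G.src b) (G.tgt b') - N (G.tgt b) (G.src b') +
    N (G.tgt b) (G.tgt b')

/-- The kernel of `f'` is additive wherever the kernel of `f` lives. -/
def Decoupled (f f' : Fam V) : Prop :=
  ∀ b b', (∃ x y, (x = G.src b ∨ x = G.tgt b) ∧ (y = G.src b' ∨ y = G.tgt b') ∧ f.kern x y ≠ 0) →
    dd2 G f'.kern b b' = 0

/-- Two packets of a family are near. -/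
def Fam.Near (f : Fam V) (p q : f.idx) : Prop :=
  ∃ u ∈ f.sp p, ∃ v ∈ f.sp q, u = v ∨ Adj G u v

/-- An absolute constant bounding the geometry. -/
def cE : ℝ := 10 ^ 7

/-- A family representing the current of `a` at one scale. -/
structure Fam.Good (f : Fam V) (D : Set V) (a : V → ℝ) (c₀ : ℝ) : Prop where
  supp : ∀ p x, x ∉ f.sp p → f.g p x = 0 ∧ f.h p x = 0
  sub : ∀ p, f.sp p ⊆ D
  bond : ∀ b, f.kern (G.src b) (G.tgt b) = dd G a b
  nrm_g : ∀ p, ∑ b, dd G (f.g p) b ^ 2 ≤ cE
  nrm_h : ∀ p, ∑ b, dd G (f.h p) b ^ 2 ≤ cE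
  nrm_w : ∀ p, ∑ b, kw G (f.g p) (f.h p) b ^ 2 ≤ cE
  coef : ∀ p, |f.c p| ≤ c₀
  card : (Fintype.card f.idx : ℝ) * c₀ ^ 2 ≤ cE
  near : ∀ p, ((Finset.univ.filter fun q => f.Near G p q).card : ℝ) ≤ cE

/-- The maximum norm of a site. -/
def nrmZ (z : ℤ × ℤ) : ℕ := max z.1.natAbs z.2.natAbs

/-- A chart of the radius-`L` neighbourhood of `x` in the square lattice. -/
structure Chart (G : Helicity.Graph V ι) (x : V) (L : ℕ) where
  /-- The coordinates. -/
  loc : V → ℤ × ℤ
  loc_self : loc x = 0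
  inj : ∀ u v, nrmZ (loc u) ≤ L → nrmZ (loc v) ≤ L → loc u = loc v → u = v
  step : ∀ b, nrmZ (loc (G.src b)) < L ∨ nrmZ (loc (G.tgt b)) < L →
    loc (G.tgt b) = loc (G.src b) + (1, 0) ∨ loc (G.tgt b) = loc (G.src b) + (0, 1)
  binj : ∀ b b', G.src b = G.src b' → G.tgt b = G.tgt b' → b = b'

/-- A graph that looks like the square lattice up to distance `L` around every site. -/
structure Space (G : Helicity.Graph V ι) (d : V → V → ℕ) (L : ℕ) : Prop where
  chart : ∀ x, ∃ c : Chart G x L, ∀ u, d x u = nrmZ (c.loc u)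
  symm : ∀ x y, d x y = d y x
  tri : ∀ x y z, d x z ≤ d x y + d y z
  bond : ∀ b, d (G.src b) (G.tgt b) ≤ 1

/-- The sign of a component. -/
def sgnCo (i : Fin n) (x : V) (σ : V → Spin n) : ℝ := Real.sign (co i x σ)

/-- The product of the signs at the sites of a list of pairs. -/
def sgnPairs (i : Fin n) (l : List (V × V)) (σ : V → Spin n) : ℝ :=
  (l.map fun p => sgnCo i p.1 σ * sgnCo i p.2 σ).prod

/-- A path of sites. -/
def Walk (x y : V) (w : List V) : Prop :=
  List.IsChain (Adj G) w ∧ w.head? = some x ∧ w.getLast? = some y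

/-- Every path from `x` to `y` passes through all the sites of some member of `T`. -/
def Covers (T : Finset (List (V × V))) (x y : V) : Prop :=
  ∀ w, Walk G x y w → ∃ l ∈ T, ∀ p ∈ l, p.1 ∈ w ∧ p.2 ∈ w

/-- The pairs are separated at scale `ρ`. -/
def Separated (d : V → V → ℕ) (ρ : ℕ) (l : List (V × V)) : Prop :=
  l.Pairwise (fun p q => 2 * ρ + 2 < d p.1 q.1 ∧ ρ < d p.1 q.2 ∧ ρ < d q.1 p.2) ∧
    ∀ p ∈ l, ρ < d p.1 p.2

/-- The constant of one contraction step. -/
def stepC (β : ℝ) : ℝ := 10 ^ 16 * (1 + β)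

/-- The radius of the ball after `k` contraction steps. -/
def rad (k : ℕ) : ℕ := 80 * 8 ^ k

/-- The contraction after `k` steps. -/
def contr (β : ℝ) (k : ℕ) : ℝ := ∏ K ∈ Finset.Icc 1 k, stepC β / Real.sqrt K

end Vale.Agent.P163.Gap
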