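import Vale.Agent.P163.Model
import Vale.Agent.P163.Gap.Statement

/-!
Infinite-volume states exist.
-/

noncomputable section

namespace Vale.Agent.P163.Gap

open MeasureTheory Metric Filter
open scoped RealInnerProductSpace Topology BoundedContinuousFunction

variable {n : ℕ} [NeZero n]

/-- The square of radius `k`. -/
def squareBox (k : ℕ) : Finset (ℤ × ℤ) := Finset.Icc (-(k : ℤ), -(k : ℤ)) ((k : ℤ), (k : ℤ))

/-- The Gibbs law of a box, as a law on the plane. -/
def boxLaw (β : ℝ) (k : ℕ) : Measure (ℤ × ℤ → Spin n) :=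
  ((freeLaw ↥(squareBox k) n).tilted fun σ => β * bondSum (boxBonds (squareBox k)) σ).map
    (boxExtend (squareBox k))

omit [NeZero n] in
theorem eventually_subset_squareBox (S : Finset (ℤ × ℤ)) :
    ∀ᶠ k in atTop, S ⊆ squareBox k := by
  refine eventually_atTop.2 ⟨S.sup fun x => max x.1.natAbs x.2.natAbs, fun k hk x hx => ?_⟩
  have h := (Finset.le_sup (f := fun x : ℤ × ℤ => max x.1.natAbs x.2.natAbs) hx).trans hk
  simp only [squareBox, Finset.mem_Icc, Prod.le_def]
  omega

theorem measurable_boxExtend (Λ : Finset (ℤ × ℤ)) : Measurable (boxExtend (n := n) Λ) :=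
  measurable_pi_lambda _ fun x => by
    unfold boxExtend; split_ifs <;> fun_prop

theorem exists_infiniteVolumeState (β : ℝ) :
    ∃ μ : Measure (ℤ × ℤ → Spin n), IsInfiniteVolumeState n β μ := by
  have hf : ∀ Λ : Finset (ℤ × ℤ),
      Integrable (fun σ => Real.exp (β * bondSum (boxBonds Λ) σ)) (freeLaw ↥Λ n) := fun Λ =>
    integ (by fun_prop)
  have hp : ∀ k, IsProbabilityMeasure (boxLaw (n := n) β k) := fun k => by
    have := isProbabilityMeasure_tilted (hf (squareBox k))
    exact Measure.isProbabilityMeasure_map (measurable_boxExtend _).aemeasurable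
  set P : ℕ → ProbabilityMeasure (ℤ × ℤ → Spin n) := fun k => ⟨boxLaw β k, hp k⟩
  obtain ⟨μ, φ, hφ, hμ⟩ := CompactSpace.tendsto_subseq P
  refine ⟨μ, μ.prop, Or.inl ⟨fun k => squareBox (φ k),
    fun S => hφ.tendsto_atTop.eventually (eventually_subset_squareBox S), fun F hF => ?_⟩⟩
  obtain ⟨C, hC⟩ := isCompact_univ.exists_bound_of_continuousOn hF.1.continuousOn
  set Fb : (ℤ × ℤ → Spin n) →ᵇ ℝ :=
    BoundedContinuousFunction.ofNormedAddCommGroup F hF.1 C fun x => hC x (Set.mem_univ x)
  refine (ProbabilityMeasure.tendsto_iff_forall_integral_tendsto.1 hμ Fb).congr fun k => ?_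
  show ∫ σ, F σ ∂boxLaw β (φ k) = _
  rw [boxLaw, integral_map (measurable_boxExtend _).aemeasurable
    hF.1.aestronglyMeasurable, integral_tilted, boxExpect, ← integral_div]
  refine integral_congr_ae (Eventually.of_forall fun σ => ?_)
  simp only [smul_eq_mul]
  ring

end Vale.Agent.P163.Gap
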