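import Vale.Agent.P163.Gap.Spec

/-!
The goal of the assembly.
-/

noncomputable section
namespace Vale.Agent.P163.Gap
open MeasureTheory
open scoped RealInnerProductSpace

/-- Exponential decay in finite boxes and in every infinite-volume state. -/
def FinalGoal : Prop :=
  ∀ (n : ℕ) [NeZero n], 3 ≤ n → ∀ β : ℝ, 0 < β → ∃ C m : ℝ, 0 < C ∧ 0 < m ∧
    (∀ (Λ : Finset (ℤ × ℤ)) (x y : ↥Λ),
      twoPoint n β (boxBonds Λ) x y ≤ C * Real.exp (-m * siteDist x y)) ∧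
    ∀ μ : Measure (ℤ × ℤ → Spin n), IsInfiniteVolumeState n β μ → ∀ x y : ℤ × ℤ,
      ∫ σ, ⟪(σ x : Euc n), (σ y : Euc n)⟫ ∂μ ≤ C * Real.exp (-m * siteDist x y)

end Vale.Agent.P163.Gap
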