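import Vale.Agent.P163.Gap.Spec
import Vale.Agent.P163.Helicity.Linear

/-!
Insensitivity of conditioned expectations to rotations by `π`, from the packets at all scales.
-/

noncomputable section

namespace Vale.Agent.P163.Gap.Insens

open MeasureTheory Metric Helicity Vale.Agent.P163.Gap
open scoped RealInnerProductSpace Classical

variable {n : ℕ} {V ι : Type} [Fintype V] [Fintype ι] {G : Helicity.Graph V ι} {β : ℝ}
  {D : Set V} {η : V → Spin n}

omit [Fintype V] in
lemma continuous_glue : Continuous (glue D η) := by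
  refine continuous_pi fun x => ?_
  by_cases hx : x ∈ D <;> simp only [glue, hx, if_true, if_false] <;> fun_prop

omit [Fintype V] in
lemma measurable_glue : Measurable (glue D η) := by
  refine measurable_pi_lambda _ fun x => ?_
  by_cases hx : x ∈ D <;> simp only [glue, hx, if_true, if_false] <;> fun_prop

omit [Fintype V] in
lemma rot_glue {i j : Fin n} (h : i ≠ j) {a : V → ℝ} (ha : Supp a D) (t : ℝ) (σ : V → Spin n) :
    rot h a t (glue D η σ) = glue D η (rot h a t σ) := by
  funext x
  by_cases hx : x ∈ D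
  · simp only [rot, rotF, glue, if_pos hx]
  · apply Subtype.ext
    simp only [rot, rotF_coe, glue, if_neg hx, ha x hx, mul_zero, Plane.rot_zero]

lemma measurePreserving_rot [NeZero n] {i j : Fin n} (h : i ≠ j) (a : V → ℝ) (t : ℝ) :
    MeasurePreserving (rot h a t) (freeLaw V n) (freeLaw V n) :=
  measurePreserving_pi _ _ fun _ =>
    ⟨(continuous_sphereMap _).measurable, map_sphereUnif _⟩

lemma integral_rot [NeZero n] {i j : Fin n} (h : i ≠ j) (a : V → ℝ) (t : ℝ)
    {Φ : (V → Spin n) → ℝ} (hΦ : Measurable Φ) :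
    ∫ σ, Φ (rot h a t σ) ∂freeLaw V n = ∫ σ, Φ σ ∂freeLaw V n := by
  have hm := measurePreserving_rot (V := V) h a t
  conv_rhs => rw [← hm.map_eq]
  rw [integral_map hm.measurable.aemeasurable hΦ.aestronglyMeasurable]

omit [Fintype V] in
lemma obs_continuous {F : (V → Spin n) → ℝ} (hF : Continuous F) (hm : Measurable F) :
    ∃ M, Obs M F := by
  obtain ⟨C, hC⟩ := isCompact_univ.exists_bound_of_continuousOn hF.continuousOn
  exact ⟨C, hm, fun σ => by simpa using hC σ (Set.mem_univ σ)⟩

lemma integrable_cav [NeZero n] {M : ℝ} {F : (V → Spin n) → ℝ} (hF : Obs M F) :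
    Integrable (fun σ => F (glue D η σ) * Real.exp (β * en G (glue D η σ))) (freeLaw V n) := by
  have hc : Continuous fun σ => Real.exp (β * en G (glue D η σ)) :=
    Real.continuous_exp.comp (continuous_const.mul (continuous_en.comp continuous_glue))
  exact (integ hc).bdd_mul (c := M) (hF.1.comp measurable_glue).aestronglyMeasurable
    (Filter.Eventually.of_forall fun σ => hF.2 _)

lemma continuous_pk (i j k : Fin n) (g h : V → ℝ) : Continuous (pk (n := n) G i j k g h) := by
  have := fun (p q : Fin n) (A : ι → ℝ) => continuous_cur (G := G) p q A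
  unfold pk; fun_prop

lemma continuous_fX (i j k : Fin n) (f : Fam V) : Continuous (fX (n := n) G β i j k f) := by
  have := fun p => continuous_pk (G := G) i j k (f.g p) (f.h p)
  unfold fX; fun_prop

lemma cav_sum [NeZero n] {κ : Type*} (s : Finset κ) {f : κ → (V → Spin n) → ℝ}
    (hf : ∀ k ∈ s, Continuous (f k)) :
    cav G β D η (fun σ => ∑ k ∈ s, f k σ) = ∑ k ∈ s, cav G β D η (f k) := by
  simp only [cav, Finset.sum_mul]
  refine integral_finsetSum _ fun k hk => ?_
  obtain ⟨C, hC⟩ := obs_continuous (hf k hk) (hf k hk).measurable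
  exact integrable_cav hC

lemma cav_one_pos [NeZero n] : 0 < cav (n := n) G β D η fun _ => 1 := by
  simp only [cav, one_mul]
  refine integral_exp_pos (integ (Real.continuous_exp.comp ?_))
  exact continuous_const.mul (continuous_en.comp continuous_glue)

lemma abs_cav_mul_le [NeZero n] {M lam Q : ℝ} (hlam : 0 < lam) {F Y : (V → Spin n) → ℝ}
    (hF : Obs M F) (hM : 0 ≤ M) (hY : Continuous Y)
    (hQ : cav G β D η (fun σ => Y σ ^ 2) ≤ Q * cav G β D η fun _ => 1) :
    |cav G β D η fun σ => F σ * Y σ| ≤
      M * ((Q / lam + lam) / 2) * cav G β D η fun _ => 1 := by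
  obtain ⟨C, hC⟩ := obs_continuous (F := fun σ => Y σ ^ 2) (hY.pow 2) (hY.pow 2).measurable
  have h1 : Integrable (fun σ => (1 : ℝ) * Real.exp (β * en G (glue D η σ))) (freeLaw V n) :=
    integrable_cav (G := G) (D := D) (η := η) (F := fun _ => 1)
      ⟨measurable_const, fun _ => (abs_one : |(1 : ℝ)| = 1).le⟩
  have h2 := integrable_cav (G := G) (β := β) (D := D) (η := η) hC
  have key : |cav G β D η fun σ => F σ * Y σ| ≤
      M / (2 * lam) * cav G β D η (fun σ => Y σ ^ 2) +
        M * lam / 2 * cav G β D η fun _ => 1 := by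
    simp only [cav]
    rw [← integral_const_mul, ← integral_const_mul,
      ← integral_add (h2.const_mul _) (h1.const_mul _), ← Real.norm_eq_abs]
    refine norm_integral_le_of_norm_le ((h2.const_mul _).add (h1.const_mul _))
      (Filter.Eventually.of_forall fun σ => ?_)
    set τ := glue D η σ
    set E := Real.exp (β * en G τ)
    have hE : 0 < E := Real.exp_pos _
    have hy : |Y τ| ≤ Y τ ^ 2 / (2 * lam) + lam / 2 := by
      rw [div_add_div _ _ (by positivity) (by norm_num), le_div_iff₀ (by positivity)]
      nlinarith [sq_nonneg (|Y τ| - lam), sq_abs (Y τ)]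
    rw [norm_mul, norm_mul, Real.norm_eq_abs, Real.norm_eq_abs, Real.norm_of_nonneg hE.le]
    calc |F τ| * |Y τ| * E ≤ M * (Y τ ^ 2 / (2 * lam) + lam / 2) * E := by
          gcongr
          exact hF.2 τ
      _ = M / (2 * lam) * (Y τ ^ 2 * E) + M * lam / 2 * (1 * E) := by ring
  refine key.trans ?_
  have h3 : 0 ≤ M / (2 * lam) := by positivity
  refine (add_le_add (mul_le_mul_of_nonneg_left hQ h3) le_rfl).trans_eq ?_
  field_simp

/-- The rotated weight. -/
def prof (G : Helicity.Graph V ι) (β : ℝ) (D : Set V) (η : V → Spin n) {i j : Fin n} (h : i ≠ j)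
    (a : V → ℝ) (F : (V → Spin n) → ℝ) (t : ℝ) : ℝ :=
  ∫ σ, F (glue D η σ) * Real.exp (β * en G (rot h a t (glue D η σ))) ∂freeLaw V n

lemma prof_eq [NeZero n] {i j : Fin n} (h : i ≠ j) {a : V → ℝ} (ha : Supp a D) {M : ℝ}
    {F : (V → Spin n) → ℝ} (hF : Obs M F) (t : ℝ) :
    prof G β D η h a F t = cav G β D η fun σ => F (rot h a (-t) σ) := by
  have hg := measurable_glue (D := D) (η := η)
  have hr : ∀ s, Measurable (rot (V := V) h a s) := fun s =>
    (measurePreserving_rot h a s).measurable
  have he : Measurable fun σ : V → Spin n =>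
      F (glue D η σ) * Real.exp (β * en G (rot h a t (glue D η σ))) := by
    refine (hF.1.comp hg).mul (Real.measurable_exp.comp (measurable_const.mul ?_))
    simp only [rot_glue h ha]
    exact (continuous_en.comp (continuous_glue.comp (continuous_rotF _ _))).measurable
  unfold prof cav
  rw [← integral_rot h a (-t) he]
  exact integral_congr_ae (Filter.Eventually.of_forall fun σ => by
    simp only [← rot_glue h ha, rot_add, add_neg_cancel, rot_zero])

lemma hasDerivAt_prof [NeZero n] {i j : Fin n} (h : i ≠ j) {a : V → ℝ} (ha : Supp a D) {M : ℝ}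
    {F : (V → Spin n) → ℝ} (hF : Obs M F) (t : ℝ) :
    HasDerivAt (prof G β D η h a F)
      (β * cav G β D η fun σ => F (rot h a (-t) σ) * cur G i j (dd G a) σ) t := by
  set W : (V → Spin n) → ℝ := fun σ => cur G i j (dd G a) σ * Real.exp (β * en G σ) with hW
  have hWc : Continuous W := by
    have := continuous_cur (n := n) (G := G) i j (dd G a)
    fun_prop
  obtain ⟨B, hB⟩ := isCompact_univ.exists_bound_of_continuousOn hWc.continuousOn
  have hg := measurable_glue (D := D) (η := η)
  have hrc : ∀ s, Continuous fun σ : V → Spin n => rot h a s (glue D η σ) := fun s =>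
    (continuous_rotF _ _).comp continuous_glue
  have hmE : ∀ s, Continuous fun σ : V → Spin n =>
      Real.exp (β * en G (rot h a s (glue D η σ))) := fun s =>
    Real.continuous_exp.comp (continuous_const.mul (continuous_en.comp (hrc s)))
  have hFm : AEStronglyMeasurable (fun σ => F (glue D η σ)) (freeLaw V n) :=
    (hF.1.comp hg).aestronglyMeasurable
  have hd := (hasDerivAt_integral_of_dominated_loc_of_deriv_le (μ := freeLaw V n)
    (F := fun s σ => F (glue D η σ) * Real.exp (β * en G (rot h a s (glue D η σ))))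
    (F' := fun s σ => F (glue D η σ) * (β * W (rot h a s (glue D η σ)))) (x₀ := t)
    (bound := fun _ => M * (|β| * B)) (s := Set.univ) Filter.univ_mem
    (Filter.Eventually.of_forall fun s => hFm.mul (hmE s).aestronglyMeasurable)
    ((integ (hmE t)).bdd_mul (c := M) hFm (Filter.Eventually.of_forall fun σ => hF.2 _))
    (hFm.mul (continuous_const.mul (hWc.comp (hrc t))).aestronglyMeasurable)
    (Filter.Eventually.of_forall fun σ s _ => by
      rw [norm_mul, norm_mul, Real.norm_eq_abs, Real.norm_eq_abs]
      refine mul_le_mul (hF.2 _) ?_ (mul_nonneg (abs_nonneg _) (norm_nonneg _)) ((abs_nonneg _).trans (hF.2 (glue D η σ)))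
      exact mul_le_mul_of_nonneg_left (hB _ (Set.mem_univ _)) (abs_nonneg β))
    (integrable_const _)
    (Filter.Eventually.of_forall fun σ s _ => ?_)).2
  · refine hd.congr_deriv ?_
    have hC := continuous_cur (n := n) (G := G) i j (dd G a)
    have hr : ∀ s, Measurable (rot (V := V) h a s) := fun s =>
      (measurePreserving_rot h a s).measurable
    have he : Measurable fun σ => F (glue D η σ) * (β * W (rot h a t (glue D η σ))) :=
      (hF.1.comp hg).mul (continuous_const.mul (hWc.comp (hrc t))).measurable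
    rw [← integral_rot h a (-t) he, cav, ← integral_const_mul]
    exact integral_congr_ae (Filter.Eventually.of_forall fun σ => by
      simp only [← rot_glue h ha, rot_add, add_neg_cancel, rot_zero, hW]
      ring)
  · refine ((((hasRot_en (G := G) h a).deriv_at (glue D η σ) s).const_mul β).exp.const_mul
      (F (glue D η σ))).congr_deriv ?_
    simp only [hW]; ring

/-- The constant from the diagonal terms. -/
def diagC (β : ℝ) : ℝ := cE / β + cE ^ 2 * (24 * cE ^ 2 + 8 * cE / β)

lemma diagC_pos (hβ : 0 < β) : 0 < diagC β := by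
  have : 0 < cE := by unfold cE; norm_num
  unfold diagC; positivity

lemma diagC_le (hβ : 0 < β) : 12 * β ^ 2 * diagC β ≤ stepC β ^ 2 := by
  have e : 12 * β ^ 2 * diagC β = 12 * cE * β + 288 * cE ^ 4 * β ^ 2 + 96 * cE ^ 3 * β := by
    unfold diagC; field_simp; ring
  rw [e]; unfold cE stepC
  nlinarith [sq_nonneg β]

/-- The sum of the squares of the three cyclic sums of representatives. -/
lemma sq_bound [NeZero n] (hX : CrossStmt) (hQ : DiagStmt) (hβ : 0 < β) {i j k : Fin n}
    (hij : i ≠ j) (hik : i ≠ k) (hjk : j ≠ k) {a : V → ℝ} (ha : Supp a D)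
    (ha2 : ∑ b, dd G a b ^ 2 ≤ cE) {K : ℕ} {f : Fin K → Fam V} {c₀ : Fin K → ℝ}
    (hf : ∀ s, (f s).Good G D a (c₀ s)) (hdec : ∀ s t, s < t → Decoupled G (f s) (f t)) :
    cav G β D η (fun σ => (∑ s, fX G β i j k (f s) σ) ^ 2) ≤
      3 * K * diagC β * cav G β D η fun _ => 1 := by
  have hc := fun (p q r : Fin n) (s : Fin K) => continuous_fX (G := G) (β := β) p q r (f s)
  have hs : ∀ s p, Supp ((f s).g p) D ∧ Supp ((f s).h p) D := fun s p =>
    ⟨fun x hx => ((hf s).supp p x fun h => hx ((hf s).sub p h)).1,
      fun x hx => ((hf s).supp p x fun h => hx ((hf s).sub p h)).2⟩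
  set T : Fin n → Fin n → Fin n → Fin K → Fin K → ℝ := fun p q r s t =>
    cav G β D η fun σ => fX G β p q r (f s) σ * fX G β p q r (f t) σ with hT
  have hexp : ∀ p q r, cav G β D η (fun σ => (∑ s, fX G β p q r (f s) σ) ^ 2) =
      ∑ s, ∑ t, T p q r s t := by
    intro p q r
    rw [show (fun σ : V → Spin n => (∑ s, fX G β p q r (f s) σ) ^ 2) = fun σ =>
        ∑ s, ∑ t, fX G β p q r (f s) σ * fX G β p q r (f t) σ by
      funext σ; rw [pow_two, Finset.sum_mul_sum]]
    rw [cav_sum _ fun s _ => by fun_prop]
    exact Finset.sum_congr rfl fun s _ => cav_sum _ fun t _ => (hc p q r s).mul (hc p q r t)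
  have hnn : ∀ p q r, 0 ≤ cav G β D η fun σ => (∑ s, fX G β p q r (f s) σ) ^ 2 := fun p q r =>
    integral_nonneg fun σ => mul_nonneg (sq_nonneg _) (Real.exp_pos _).le
  have hlt : ∀ s t, s < t → T i j k s t + T j k i s t + T k i j s t = 0 := by
    intro s t hst
    have h1 := hX n V ι G β hβ i j k hij hik hjk D η a (f s) (f t) ha (hs s) (hs t)
      (hf s).bond (hf t).bond (hdec s t hst)
    have h2 := hX n V ι G β hβ j k i hjk hij.symm hik.symm D η a (f s) (f t) ha (hs s) (hs t)
      (hf s).bond (hf t).bond (hdec s t hst)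
    have h3 := hX n V ι G β hβ k i j hik.symm hjk.symm hij D η a (f s) (f t) ha (hs s) (hs t)
      (hf s).bond (hf t).bond (hdec s t hst)
    refine (mul_eq_zero.1 (?_ : β * _ = 0)).resolve_left hβ.ne'
    simp only [hT, mul_add, h1, h2, h3]
    rw [← mul_add, ← mul_add, ← Finset.sum_add_distrib, ← Finset.sum_add_distrib]
    refine mul_eq_zero_of_right _ (Finset.sum_eq_zero fun b _ => ?_)
    rw [← mul_add, ← mul_add]
    refine mul_eq_zero_of_right _ ?_
    set P : Fin n → (V → Spin n) → ℝ := fun p σ =>
      co p (G.src b) σ * co p (G.tgt b) σ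
    have hPc : ∀ p, Continuous (P p) := fun p => (continuous_co p _).mul (continuous_co p _)
    have hI : ∀ p q r, Integrable (fun σ => (P p (glue D η σ) + P q (glue D η σ) -
        2 * P r (glue D η σ)) * Real.exp (β * en G (glue D η σ))) (freeLaw V n) := fun p q r => by
      refine integ (Continuous.mul ?_ (Real.continuous_exp.comp
        (continuous_const.mul (continuous_en.comp continuous_glue))))
      exact (((hPc p).comp continuous_glue).add ((hPc q).comp continuous_glue)).sub
        (((hPc r).comp continuous_glue).const_mul 2)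
    show cav G β D η (fun σ => P i σ + P j σ - 2 * P k σ) +
        cav G β D η (fun σ => P j σ + P k σ - 2 * P i σ) +
        cav G β D η (fun σ => P k σ + P i σ - 2 * P j σ) = 0
    unfold cav
    rw [← integral_add (hI i j k) (hI j k i)]
    refine (integral_add ((hI i j k).add (hI j k i)) (hI k i j)).symm.trans ?_
    exact integral_eq_zero_of_ae (Filter.Eventually.of_forall fun σ => by
      simp only [Pi.zero_apply, Pi.add_apply]; ring)
  have hoff : ∀ s t, s ≠ t → T i j k s t + T j k i s t + T k i j s t = 0 := by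
    intro s t hst
    rcases lt_or_gt_of_ne hst with h | h
    · exact hlt s t h
    · rw [← hlt t s h]
      simp only [hT, mul_comm]
  have hdiag : ∀ p q r, p ≠ q → p ≠ r → q ≠ r → ∀ s,
      T p q r s s ≤ diagC β * cav G β D η fun _ => 1 := by
    intro p q r h1 h2 h3 s
    have := hQ n V ι G β hβ p q r h1 h2 h3 D η a (f s) (c₀ s) ha (hf s)
    simp only [pow_two] at this
    refine le_trans (le_of_eq ?_) (this.trans ?_)
    · rfl
    · refine mul_le_mul_of_nonneg_right ?_ cav_one_pos.le
      unfold diagC
      simp only [← pow_two]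
      gcongr
  calc cav G β D η (fun σ => (∑ s, fX G β i j k (f s) σ) ^ 2)
      ≤ ∑ s, ∑ t, (T i j k s t + T j k i s t + T k i j s t) := by
        simp only [Finset.sum_add_distrib, ← hexp]
        linarith [hnn j k i, hnn k i j]
    _ = ∑ s, (T i j k s s + T j k i s s + T k i j s s) := Finset.sum_congr rfl fun s _ =>
        Finset.sum_eq_single s (fun t _ hts => hoff s t hts.symm) fun h => absurd (Finset.mem_univ s) h
    _ ≤ ∑ _s : Fin K, (3 * diagC β * cav G β D η fun _ => 1) := by
        refine Finset.sum_le_sum fun s _ => ?_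
        linarith [hdiag i j k hij hik hjk s, hdiag j k i hjk hij.symm hik.symm s,
          hdiag k i j hik.symm hjk.symm hij s]
    _ = _ := by
        rw [Finset.sum_const, Finset.card_univ, Fintype.card_fin, nsmul_eq_mul]; ring

theorem insens_stmt (hC : CondStmt) (hM : MeanStmt) (hX : CrossStmt) (hQ : DiagStmt)
    (hT : TestStmt) : InsensStmt := by
  intro n _ V ι _ _ G β hβ i j k hij hik hjk x L K ch hK hL M F hF hloc hodd η
  obtain ⟨a, f, c₀, ha, ha1, ha2, hf, hdec⟩ := hT V ι G x L K ch hK hL
  set B : Set V := {u | nrmZ (ch.loc u) < 5 * (16 * 8 ^ K)} with hB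
  set A : Set V := {u | 16 * 8 ^ K < nrmZ (ch.loc u) ∧ nrmZ (ch.loc u) < 5 * (16 * 8 ^ K)} with hA
  set S : Set V := {u | nrmZ (ch.loc u) ≤ 16 * 8 ^ K} with hS
  have hAB : A ⊆ B := fun u hu => hu.2
  have hfB : ∀ s, (f s).Good G B a (c₀ s) := fun s =>
    { hf s with sub := fun p => ((hf s).sub p).trans hAB }
  have hM0 : 0 ≤ M := (abs_nonneg _).trans (hF.2 η)
  set Z := cav (n := n) G β B η fun _ => 1 with hZ
  have hZ0 : 0 < Z := cav_one_pos
  set g := prof G β B η hij a F with hg
  set C := cur (n := n) G i j (dd G a) with hCdef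
  have hCc : Continuous C := continuous_cur i j _
  set Y : (V → Spin n) → ℝ := fun σ => ∑ s, fX G β i j k (f s) σ with hY
  have hYc : Continuous Y := by
    have := fun s => continuous_fX (G := G) (β := β) i j k (f s)
    fun_prop
  have hY2 : cav G β B η (fun σ => Y σ ^ 2) ≤ 3 * K * diagC β * Z :=
    sq_bound hX hQ hβ hij hik hjk ha ha2 hfB hdec
  have hKR : (0 : ℝ) < K := by exact_mod_cast hK
  set W := stepC β / Real.sqrt K with hW
  have hs0 : 0 < stepC β := by unfold stepC; positivity
  have hW0 : 0 < W := by rw [hW]; positivity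
  have hbound : ∀ t, |β * cav G β B η fun σ => F (rot hij a (-t) σ) * C σ| ≤ M * W / 2 * Z := by
    intro t
    set Ft : (V → Spin n) → ℝ := fun σ => F (rot hij a (-t) σ) with hFt
    have hOt : Obs M Ft :=
      ⟨hF.1.comp (measurePreserving_rot hij a (-t)).measurable, fun σ => hF.2 _⟩
    have hLt : Loc Aᶜ Ft := fun σ τ hστ => hloc _ _ fun u hu => by
      have : σ u = τ u := hστ u fun h => absurd h.1 (not_lt.2 hu)
      simp only [rot, rotF, this]
    have hone : ∀ s, cav G β B η (fun σ => Ft σ * C σ) =
        cav G β B η fun σ => Ft σ * fX G β i j k (f s) σ := by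
      intro s
      obtain ⟨M₁, h₁⟩ := obs_continuous hCc hCc.measurable
      have hXc := continuous_fX (G := G) (β := β) i j k (f s)
      obtain ⟨M₂, h₂⟩ := obs_continuous hXc hXc.measurable
      obtain ⟨-, htower, -⟩ := hC n V ι G β
      rw [htower A B η M₁ M C Ft hAB h₁ hOt hLt, htower A B η M₂ M _ Ft hAB h₂ hOt hLt]
      have hs : ∀ p, Supp ((f s).g p) A ∧ Supp ((f s).h p) A := fun p =>
        ⟨fun u hu => ((hf s).supp p u fun h => hu ((hf s).sub p h)).1,
          fun u hu => ((hf s).supp p u fun h => hu ((hf s).sub p h)).2⟩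
      have e : ∀ σ, cexp G β A (fX G β i j k (f s)) σ = cexp G β A C σ := fun σ => by
        have := hM n V ι G β hβ i j k hij hik hjk A σ (f s) hs
        rw [show (fun b => (f s).kern (G.src b) (G.tgt b)) = dd G a from funext (hf s).bond]
          at this
        simp only [cexp, this, hCdef]
      simp only [e]
    have hsum : (K : ℝ) * cav G β B η (fun σ => Ft σ * C σ) =
        cav G β B η fun σ => Ft σ * Y σ := by
      simp only [hY, Finset.mul_sum]
      have : cav G β B η (fun σ => ∑ s, Ft σ * fX G β i j k (f s) σ) =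
          ∑ s, cav G β B η fun σ => Ft σ * fX G β i j k (f s) σ := by
        simp only [cav, Finset.sum_mul]
        refine integral_finsetSum _ fun s _ => ?_
        have hXc := continuous_fX (G := G) (β := β) i j k (f s)
        obtain ⟨M₂, h₂⟩ := obs_continuous hXc hXc.measurable
        refine integrable_cav (M := M * M₂) (F := fun σ => Ft σ * fX G β i j k (f s) σ)
          ⟨hOt.1.mul h₂.1, fun σ => ?_⟩
        rw [abs_mul]
        exact mul_le_mul (hOt.2 σ) (h₂.2 σ) (abs_nonneg _) hM0
      simp only [this, ← hone, Finset.sum_const, Finset.card_univ, Fintype.card_fin, nsmul_eq_mul]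
    have hlam : 0 < K * W / (2 * β) := by positivity
    have h := abs_cav_mul_le hlam hOt hM0 hYc hY2
    rw [← hsum, abs_mul, abs_of_pos hKR] at h
    refine le_of_mul_le_mul_left ?_ hKR
    rw [abs_mul, abs_of_pos hβ]
    calc (K : ℝ) * (β * |cav G β B η fun σ => Ft σ * C σ|)
        ≤ β * (M * ((3 * K * diagC β / (K * W / (2 * β)) + K * W / (2 * β)) / 2) * Z) := by
          rw [mul_left_comm]; exact mul_le_mul_of_nonneg_left h hβ.le
      _ = M * Z * (3 * β ^ 2 * diagC β / W + K * W / 4) := by field_simp; ring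
      _ ≤ M * Z * (K * W / 2) := by
          refine mul_le_mul_of_nonneg_left ?_ (mul_nonneg hM0 hZ0.le)
          have hKW : (K : ℝ) * W ^ 2 = stepC β ^ 2 := by
            rw [hW, div_pow, Real.sq_sqrt hKR.le]; field_simp
          have : 3 * β ^ 2 * diagC β / W ≤ K * W / 4 := by
            rw [div_le_div_iff₀ hW0 (by norm_num)]
            linarith [diagC_le hβ, hKW, show (K : ℝ) * W * W = K * W ^ 2 by ring]
          linarith
      _ = _ := by ring
  have hd := fun t => hasDerivAt_prof (G := G) (β := β) (η := η) hij ha hF t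
  have hmv := norm_image_sub_le_of_norm_deriv_le_segment' (f := g)
    (f' := fun t => β * cav G β B η fun σ => F (rot hij a (-t) σ) * C σ)
    (a := (0 : ℝ)) (b := Real.pi) (fun t _ => (hd t).hasDerivWithinAt)
    (fun t _ => hbound t) Real.pi ⟨Real.pi_pos.le, le_rfl⟩
  have h0 : g 0 = cav G β B η F := by
    rw [hg, prof_eq hij ha hF]; simp [rot_zero]
  have hπ : g Real.pi = -cav G β B η F := by
    rw [hg, prof_eq hij ha hF]
    unfold cav
    rw [← integral_neg]
    refine integral_congr_ae (Filter.Eventually.of_forall fun σ => ?_)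
    set τ := glue B η σ
    have e1 : F (rot hij a (-Real.pi) τ) = F (rot hij (fun _ => 1) (-Real.pi) τ) :=
      hloc _ _ fun u hu => by simp only [rot, rotF, ha1 u hu]
    have e2 := hodd (rot hij (fun _ => 1) (-Real.pi) τ)
    rw [rot_add, add_neg_cancel, rot_zero] at e2
    show F (rot hij a (-Real.pi) τ) * Real.exp (β * en G τ) = -(F τ * Real.exp (β * en G τ))
    rw [e1, show F (rot hij (fun _ => 1) (-Real.pi) τ) = -F τ by linarith, neg_mul]
  rw [hπ, h0, Real.norm_eq_abs, show -cav G β B η F - cav G β B η F = -(2 * cav G β B η F) by ring,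
    abs_neg, abs_mul, abs_two, sub_zero] at hmv
  rw [cexp, abs_div, abs_of_pos hZ0, div_le_iff₀ hZ0]
  nlinarith [Real.pi_le_four, mul_nonneg (mul_nonneg hM0 hW0.le) hZ0.le]

end Vale.Agent.P163.Gap.Insens
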