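import Vale.Agent.P163.Gap.Defs

/-!
Interfaces of the proof of exponential decay for `n ≥ 3`.
-/

noncomputable section

namespace Vale.Agent.P163.Gap

open MeasureTheory Metric Helicity
open scoped RealInnerProductSpace Classical

/-- The conditioned Gibbs measures. -/
def CondStmt : Prop :=
  ∀ (n : ℕ) [NeZero n] (V ι : Type) [Fintype V] [Fintype ι] (G : Helicity.Graph V ι) (β : ℝ),
    (∀ (i j : Fin n) (h : i ≠ j) (g : V → ℝ) (D : Set V) (η : V → Spin n) F F',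
      Supp g D → HasRot h g F F' →
        cav G β D η F' + β * cav G β D η (fun σ => F σ * cur G i j (dd G g) σ) = 0) ∧
    (∀ (D D' : Set V) (η : V → Spin n) (M M' : ℝ) F K, D ⊆ D' → Obs M F → Obs M' K → Loc Dᶜ K →
      cav G β D' η (fun σ => K σ * F σ) = cav G β D' η fun σ => K σ * cexp G β D F σ) ∧
    (∀ (D : Set V) (η : V → Spin n) F, cav G β D η F = cav G β D η fun σ => F (glue D η σ)) ∧
    (∀ (η : V → Spin n) F, cav G β Set.univ η F = av G β F) ∧
    (∀ (D : Set V) (S : Set V) (F : (V → Spin n) → ℝ), S ⊆ D → Loc S F →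
      Loc (bdry G D) (cexp G β D F)) ∧
    (∀ (i j : Fin n) (h : i ≠ j) (D : Set V) F, OddPi h F → OddPi h (cexp G β D F)) ∧
    ∀ (D : Set V) (M : ℝ) F, Obs M F → Obs M (cexp (n := n) G β D F)

/-- The double Ward identity of a packet. -/
def PackWardStmt : Prop :=
  ∀ (n : ℕ) [NeZero n] (V ι : Type) [Fintype V] [Fintype ι] (G : Helicity.Graph V ι) (β : ℝ)
    (i j k : Fin n), i ≠ j → ∀ (hik : i ≠ k) (hjk : j ≠ k) (D : Set V) (η : V → Spin n)
    (g h : V → ℝ), Supp g D → Supp h D → ∀ F Fg Fh Fgh Fhg,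
      HasRot hik g F Fg → HasRot hik h F Fh → HasRot hjk h Fg Fgh → HasRot hjk g Fh Fhg →
        β ^ 2 * cav G β D η (fun σ => F σ * pk G i j k g h σ) - cav G β D η Fgh +
          cav G β D η Fhg + β * cav G β D η (fun σ => F σ * cur G i j (kw G g h) σ) = 0

/-- The first moment of a representative. -/
def MeanStmt : Prop :=
  ∀ (n : ℕ) [NeZero n] (V ι : Type) [Fintype V] [Fintype ι] (G : Helicity.Graph V ι) (β : ℝ), 0 < β →
    ∀ (i j k : Fin n), i ≠ j → i ≠ k → j ≠ k → ∀ (D : Set V) (η : V → Spin n) (f : Fam V),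
      (∀ p, Supp (f.g p) D ∧ Supp (f.h p) D) →
        cav G β D η (fX G β i j k f) =
          cav G β D η (cur G i j fun b => f.kern (G.src b) (G.tgt b))

/-- The correlation of representatives at separated scales. -/
def CrossStmt : Prop :=
  ∀ (n : ℕ) [NeZero n] (V ι : Type) [Fintype V] [Fintype ι] (G : Helicity.Graph V ι) (β : ℝ), 0 < β →
    ∀ (i j k : Fin n), i ≠ j → i ≠ k → j ≠ k → ∀ (D : Set V) (η : V → Spin n) (a : V → ℝ)
      (f f' : Fam V), Supp a D → (∀ p, Supp (f.g p) D ∧ Supp (f.h p) D) →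
      (∀ p, Supp (f'.g p) D ∧ Supp (f'.h p) D) →
      (∀ b, f.kern (G.src b) (G.tgt b) = dd G a b) →
      (∀ b, f'.kern (G.src b) (G.tgt b) = dd G a b) → Decoupled G f f' →
        β * cav G β D η (fun σ => fX G β i j k f σ * fX G β i j k f' σ) =
          3 * ∑ b, dd G a b ^ 2 * cav G β D η fun σ =>
            co i (G.src b) σ * co i (G.tgt b) σ + co j (G.src b) σ * co j (G.tgt b) σ -
              2 * (co k (G.src b) σ * co k (G.tgt b) σ)

/-- The second moment of one representative. -/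
def DiagStmt : Prop :=
  ∀ (n : ℕ) [NeZero n] (V ι : Type) [Fintype V] [Fintype ι] (G : Helicity.Graph V ι) (β : ℝ), 0 < β →
    ∀ (i j k : Fin n), i ≠ j → i ≠ k → j ≠ k → ∀ (D : Set V) (η : V → Spin n) (a : V → ℝ)
      (f : Fam V) (c₀ : ℝ), Supp a D → f.Good G D a c₀ →
        cav G β D η (fun σ => fX G β i j k f σ ^ 2) ≤
          ((∑ b, dd G a b ^ 2) / β + cE ^ 2 * (24 * cE ^ 2 + 8 * cE / β)) *
            cav G β D η fun _ => 1

/-- The potentials at all scales. -/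
def TestStmt : Prop :=
  ∀ (V ι : Type) [Fintype V] [Fintype ι] (G : Helicity.Graph V ι) (x : V) (L K : ℕ) (ch : Chart G x L),
    1 ≤ K → 5 * (16 * 8 ^ K) + 2 ≤ L →
      ∃ (a : V → ℝ) (f : Fin K → Fam V) (c₀ : Fin K → ℝ),
        Supp a {u | nrmZ (ch.loc u) < 5 * (16 * 8 ^ K)} ∧
        (∀ u, nrmZ (ch.loc u) ≤ 16 * 8 ^ K → a u = 1) ∧ ∑ b, dd G a b ^ 2 ≤ cE ∧
        (∀ s, (f s).Good G {u | 16 * 8 ^ K < nrmZ (ch.loc u) ∧ nrmZ (ch.loc u) < 5 * (16 * 8 ^ K)}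
          a (c₀ s)) ∧
        ∀ s t, s < t → Decoupled G (f s) (f t)

/-- Insensitivity to rotations by `π`. -/
def InsensStmt : Prop :=
  ∀ (n : ℕ) [NeZero n] (V ι : Type) [Fintype V] [Fintype ι] (G : Helicity.Graph V ι) (β : ℝ), 0 < β →
    ∀ (i j k : Fin n) (hij : i ≠ j), i ≠ k → j ≠ k → ∀ (x : V) (L K : ℕ) (ch : Chart G x L),
      1 ≤ K → 5 * (16 * 8 ^ K) + 2 ≤ L → ∀ (M : ℝ) (F : (V → Spin n) → ℝ), Obs M F →
        Loc {u | nrmZ (ch.loc u) ≤ 16 * 8 ^ K} F → OddPi hij F → ∀ η,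
          |cexp G β {u | nrmZ (ch.loc u) < 5 * (16 * 8 ^ K)} F η| ≤ stepC β / Real.sqrt K * M

/-- Decay of the conditioned magnetisation in a ball. -/
def BallStmt : Prop :=
  ∀ (n : ℕ) [NeZero n], 3 ≤ n → ∀ (V ι : Type) [Fintype V] [Fintype ι] (G : Helicity.Graph V ι) (β : ℝ),
    0 < β → ∀ (i : Fin n) (x : V) (L k : ℕ) (ch : Chart G x L), rad k + 2 ≤ L → ∀ η,
      |cexp G β {u | nrmZ (ch.loc u) < rad k} (sgnCo i x) η| ≤ contr β k

/-- Separated pairs. -/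
def PeelStmt : Prop :=
  ∀ (n : ℕ) [NeZero n] (V ι : Type) [Fintype V] [Fintype ι] (G : Helicity.Graph V ι) (β : ℝ)
    (i : Fin n) (d : V → V → ℕ) (ρ : ℕ) (q : ℝ), 1 ≤ ρ → (∀ x, d x x = 0) →
    (∀ x y, d x y = d y x) → (∀ x y z, d x z ≤ d x y + d y z) →
    (∀ b, d (G.src b) (G.tgt b) ≤ 1) →
    (∀ x η, |cexp G β {u | d x u < ρ} (sgnCo i x) η| ≤ q) →
      ∀ l, Separated d ρ l → |av G β (sgnPairs i l)| ≤ q ^ l.length * av (n := n) G β fun _ => 1

/-- The sign representation. -/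
def SignStmt : Prop :=
  ∀ (n : ℕ) [NeZero n] (V ι : Type) [Fintype V] [Fintype ι] (G : Helicity.Graph V ι) (β : ℝ), 0 ≤ β →
    ∀ (i : Fin n) (x y : V) (T : Finset (List (V × V))), Covers G T x y →
      av G β (fun σ => co i x σ * co i y σ) ≤ ∑ l ∈ T, av G β (sgnPairs i l)

/-- All components have the same correlation. -/
def CompStmt : Prop :=
  ∀ (n : ℕ) [NeZero n] (V ι : Type) [Fintype V] [Fintype ι] (G : Helicity.Graph V ι) (β : ℝ)
    (i : Fin n) (x y : V),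
      av G β (fun σ : V → Spin n => ⟪(σ x : Euc n), (σ y : Euc n)⟫) =
        n * av G β fun σ => co i x σ * co i y σ

/-- The chain of scales along a path. -/
def ChainStmt : Prop :=
  ∀ (V ι : Type) [Fintype V] [Fintype ι] (G : Helicity.Graph V ι) (d : V → V → ℕ) (ρ N m : ℕ),
    (∀ x, d x x = 0) → (∀ x y, d x y = d y x) → (∀ x y z, d x z ≤ d x y + d y z) →
    (∀ b, d (G.src b) (G.tgt b) ≤ 1) →
    (∀ x, (Finset.univ.filter fun u => d x u ≤ 3 * ρ + 4).card ≤ N) →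
      ∀ x y, m * (3 * ρ + 4) < d x y → ∃ T : Finset (List (V × V)), T.card ≤ (N * N) ^ m ∧
        (∀ l ∈ T, l.length = m ∧ Separated d ρ l) ∧ Covers G T x y

/-- Balls in a space are no larger than squares. -/
def SquareStmt : Prop :=
  ∀ (V ι : Type) [Fintype V] [Fintype ι] (G : Helicity.Graph V ι) (d : V → V → ℕ) (L : ℕ),
    Space G d L → ∀ x r, r ≤ L →
      (Finset.univ.filter fun u => d x u ≤ r).card ≤ (2 * r + 1) ^ 2

/-- Free boxes and tori look like the square lattice. -/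
def SpacesStmt : Prop :=
  (∀ (Λ : Finset (ℤ × ℤ)) (L : ℕ),
    Space (ofBonds (boxBonds Λ)) (fun x y => nrmZ ((y : ℤ × ℤ) - (x : ℤ × ℤ))) L) ∧
  ∀ (a b : ℕ) [NeZero a] [NeZero b] (L : ℕ), 2 * (L + 2) ≤ a → 2 * (L + 2) ≤ b →
    Space (ofBonds (rectBonds a b))
      (fun x y => max (y - x).1.valMinAbs.natAbs (y - x).2.valMinAbs.natAbs) L

/-- Exponential decay on every such graph. -/
def DecayStmt : Prop :=
  ∀ (n : ℕ) [NeZero n], 3 ≤ n → ∀ β : ℝ, 0 < β → ∃ C m : ℝ, 0 < C ∧ 0 < m ∧ ∃ L : ℕ,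
    ∀ (V ι : Type) [Fintype V] [Fintype ι] (G : Helicity.Graph V ι) (d : V → V → ℕ), Space G d L →
      ∀ x y, av G β (fun σ : V → Spin n => ⟪(σ x : Euc n), (σ y : Euc n)⟫) ≤
        C * Real.exp (-m * d x y) * av (n := n) G β fun _ => 1

end Vale.Agent.P163.Gap
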